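import Mathlib

/-! Shared definitions and module statements for row 75 (ultraflat Littlewood polynomials). -/

set_option autoImplicit false

namespace Crest.Agent.Lead.UF

open Finset

/-- `e t = exp (2 π i t)`. -/
noncomputable def e (t : ℝ) : ℂ := Complex.exp (2 * Real.pi * t * Complex.I)

lemma e_add (s t : ℝ) : e (s + t) = e s * e t := by
  unfold e; rw [← Complex.exp_add]; congr 1; push_cast; ring

@[simp] lemma e_zero : e 0 = 1 := by simp [e]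

@[simp] lemma norm_e (t : ℝ) : ‖e t‖ = 1 := by
  unfold e
  have : (2 * Real.pi * t * Complex.I : ℂ) = ((2 * Real.pi * t : ℝ) : ℂ) * Complex.I := by
    push_cast; ring
  rw [this, Complex.norm_exp_ofReal_mul_I]

lemma e_ne_zero (t : ℝ) : e t ≠ 0 := Complex.exp_ne_zero _

@[simp] lemma e_int (z : ℤ) : e z = 1 := by
  unfold e
  have : (2 * Real.pi * ((z : ℝ) : ℂ) * Complex.I : ℂ) = z * (2 * Real.pi * Complex.I) := by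
    push_cast; ring
  rw [this, Complex.exp_int_mul_two_pi_mul_I]

@[simp] lemma e_nat (n : ℕ) : e n = 1 := by
  have := e_int n
  simpa using this

lemma e_add_int (t : ℝ) (z : ℤ) : e (t + z) = e t := by rw [e_add, e_int, mul_one]

lemma conj_e (t : ℝ) : (starRingEnd ℂ) (e t) = e (-t) := by
  unfold e
  rw [← Complex.exp_conj]; congr 1
  simp only [map_mul, Complex.conj_ofReal, Complex.conj_I, map_ofNat]
  push_cast; ring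

lemma e_neg_mul (t : ℝ) : e (-t) * e t = 1 := by rw [← e_add]; simp

lemma e_nat_mul (n : ℕ) (t : ℝ) : e (n * t) = e t ^ n := by
  unfold e; rw [← Complex.exp_nat_mul]; congr 1; push_cast; ring

lemma continuous_e : Continuous e := by unfold e; fun_prop

lemma hasDerivAt_e (t : ℝ) : HasDerivAt e (2 * Real.pi * Complex.I * e t) t := by
  unfold e
  have h1 : HasDerivAt (fun t : ℝ => (2 * Real.pi * (t : ℂ) * Complex.I : ℂ))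
      (2 * Real.pi * Complex.I) t := by
    have := ((Complex.ofRealCLM.hasDerivAt (x := t)).const_mul (2 * Real.pi : ℂ)).mul_const
      Complex.I
    simpa using this
  exact h1.cexp.congr_deriv (mul_comm _ _)

lemma norm_e_sub_one_le (t : ℝ) : ‖e t - 1‖ ≤ 2 * Real.pi * |t| := by
  unfold e
  have : (2 * Real.pi * t * Complex.I : ℂ) = Complex.I * ((2 * Real.pi * t : ℝ) : ℂ) := by
    push_cast; ring
  rw [this]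
  refine (Real.norm_exp_I_mul_ofReal_sub_one_le).trans (le_of_eq ?_)
  rw [Real.norm_eq_abs, abs_mul, abs_of_pos (by positivity : (0 : ℝ) < 2 * Real.pi)]

lemma exists_e_eq {z : ℂ} (hz : ‖z‖ = 1) : ∃ θ ∈ Set.Icc (0 : ℝ) 1, e θ = z := by
  refine ⟨Int.fract (Complex.arg z / (2 * Real.pi)),
    ⟨Int.fract_nonneg _, (Int.fract_lt_one _).le⟩, ?_⟩
  rw [Int.fract, sub_eq_add_neg, ← Int.cast_neg, e_add_int]
  unfold e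
  have hpi : (Real.pi : ℂ) ≠ 0 := by exact_mod_cast Real.pi_ne_zero
  have : (2 * Real.pi * ((Complex.arg z / (2 * Real.pi) : ℝ) : ℂ) * Complex.I : ℂ)
      = (Complex.arg z : ℂ) * Complex.I := by
    push_cast; field_simp
  rw [this]
  have h := Complex.norm_mul_exp_arg_mul_I z
  rw [hz] at h
  simpa using h

/-- A family of integer intervals `[t s, t s + ℓ s) ⊆ [0, G)` which, together with the mirror
images `[G - t s - ℓ s, G - t s)`, are pairwise disjoint. -/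
def Disj {S : Type} (G : ℕ) (t ℓ : S → ℕ) : Prop :=
  (∀ s, t s + ℓ s ≤ G) ∧ (∀ s s', s ≠ s' → t s + ℓ s ≤ t s' ∨ t s' + ℓ s' ≤ t s) ∧
    (∀ s s', t s + ℓ s + t s' + ℓ s' ≤ G ∨ G ≤ t s + t s')

/-- The intervals and their mirror images cover `[0, G)`. -/
def Covers {S : Type} (G : ℕ) (t ℓ : S → ℕ) : Prop :=
  ∀ x < G, ∃ s, (t s ≤ x ∧ x < t s + ℓ s) ∨ (t s ≤ G - 1 - x ∧ G - 1 - x < t s + ℓ s)

lemma Disj.two_mul_sum_le {S : Type} [Fintype S] {G : ℕ} {t ℓ : S → ℕ} (h : Disj G t ℓ) :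
    2 * ∑ s, ℓ s ≤ G := by
  classical
  obtain ⟨h1, h2, h3⟩ := h
  let F : S × Bool → Finset ℕ := fun p =>
    if p.2 then Finset.Ico (t p.1) (t p.1 + ℓ p.1) else Finset.Ico (G - t p.1 - ℓ p.1) (G - t p.1)
  have hc : ∀ p, (F p).card = ℓ p.1 := by
    rintro ⟨s, _ | _⟩
    · have := h1 s
      simp [F]; omega
    · simp [F]
  have hd : ((univ : Finset (S × Bool)) : Set (S × Bool)).PairwiseDisjoint F := by
    rintro ⟨s, b⟩ - ⟨s', b'⟩ - hne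
    have a1 := h1 s
    have a2 := h1 s'
    have a3 := h3 s s'
    rw [Function.onFun, Finset.disjoint_left]
    intro x hx hx'
    cases b <;> cases b'
    · have hs : s ≠ s' := fun h => hne (by rw [h])
      have := h2 s s' hs
      simp [F] at hx hx'; omega
    · simp [F] at hx hx'; omega
    · simp [F] at hx hx'; omega
    · have hs : s ≠ s' := fun h => hne (by rw [h])
      have := h2 s s' hs
      simp [F] at hx hx'; omega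
  have hsub : univ.biUnion F ⊆ Finset.range G := by
    intro x hx
    obtain ⟨⟨s, b⟩, -, hx⟩ := Finset.mem_biUnion.1 hx
    have a1 := h1 s
    cases b <;> simp [F] at hx ⊢ <;> omega
  have := Finset.card_le_card hsub
  rw [Finset.card_biUnion hd, Finset.card_range] at this
  simp only [hc] at this
  rw [Fintype.sum_prod_type] at this
  simpa [Finset.mul_sum, two_mul, Finset.sum_add_distrib] using this

/-! ### Module statements -/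

/-- M1: rounding a nearly unimodular real sequence to signs (Spencer + dyadic rounding). -/
def Rounding : Prop :=
  ∀ ε : ℝ, 0 < ε → ∃ η : ℝ, 0 < η ∧ ∀ (N : ℕ) (x : Fin N → ℝ), (∀ k, |x k| ≤ 1) →
    (∀ θ ∈ Set.Icc (0 : ℝ) 1, (1 - η) * √N ≤ ‖∑ k : Fin N, (x k : ℂ) * e ((k : ℕ) * θ)‖) →
    ∃ c : Fin N → ℤˣ, ∀ θ : ℝ,
      ‖∑ k : Fin N, (((c k : ℤ) : ℂ) - (x k : ℂ)) * e ((k : ℕ) * θ)‖ ≤ ε * √N

/-- M2a: smoothing a unimodular function with `C^{1,1}` phase to a polynomial of degree `< N`. -/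
def Smoothing : Prop :=
  ∀ C δ η : ℝ, 0 < δ → 0 < η → ∃ N₀ : ℕ, ∀ N ≥ N₀, ∀ g : ℝ → ℝ,
    (∀ x y, |g x - g y| ≤ C * N * |x - y|) → g 0 = g 1 →
    (∀ x ∈ Set.Icc (0 : ℝ) 1, δ * N ≤ g x ∧ g x ≤ (1 - δ) * N) →
    (∃ z : ℤ, ∫ s in (0 : ℝ)..1, g s = z) →
    ∃ m : Fin N → ℝ, (∀ k, 0 ≤ m k ∧ m k ≤ 1) ∧ ∀ θ ∈ Set.Icc (0 : ℝ) 1,
      ‖∑ k : Fin N, (m k : ℂ) *
          (∫ s in (0 : ℝ)..1, e ((∫ r in (0 : ℝ)..s, g r) - (k : ℕ) * s)) * e ((k : ℕ) * θ)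
        - e (∫ r in (0 : ℝ)..θ, g r)‖ ≤ η

/-- M2b: gluing bumps on a symmetric tiling of `[0,1]` into one even phase derivative. -/
def Gluing : Prop :=
  ∀ (S : Type) [Fintype S] (G : ℕ) (t ℓ : S → ℕ) (b : S → ℝ → ℝ) (h : ℤ) (L H : ℝ),
    0 < G → Disj G t ℓ → Covers G t ℓ →
    (∀ s x y, |b s x - b s y| ≤ L * |x - y|) →
    (∀ s x, x ≤ (t s : ℝ) / G ∨ ((t s : ℝ) + ℓ s) / G ≤ x → b s x = 0) →
    (∀ s x, 0 ≤ b s x ∧ b s x ≤ H) →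
    (∀ s, ∃ z : ℤ, ∫ x in ((t s : ℝ) / G)..(((t s : ℝ) + ℓ s) / G), b s x = z) →
    ∃ g : ℝ → ℝ, (∀ x y, |g x - g y| ≤ 2 * Fintype.card S * L * |x - y|) ∧ g 0 = g 1 ∧
      (∀ x ∈ Set.Icc (0 : ℝ) 1, (h : ℝ) ≤ g x ∧ g x ≤ h + H) ∧
      (∃ z : ℤ, ∫ s in (0 : ℝ)..1, g s = z) ∧
      ∀ k : ℤ, ∫ s in (0 : ℝ)..1, e ((∫ r in (0 : ℝ)..s, g r) - k * s) =
        ((2 * (∑ s, ∫ θ in ((t s : ℝ) / G)..(((t s : ℝ) + ℓ s) / G),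
          e ((∫ r in ((t s : ℝ) / G)..θ, b s r) - ((k - h : ℤ) : ℝ) * θ)).re : ℝ) : ℂ)

/-- M3a: first derivative test. -/
def FirstDeriv : Prop :=
  ∀ (f f' f'' : ℝ → ℝ) (a b μ : ℝ), a ≤ b → 0 < μ →
    (∀ x, HasDerivAt f (f' x) x) → (∀ x, HasDerivAt f' (f'' x) x) → Continuous f'' →
    (∀ x ∈ Set.Icc a b, 0 ≤ f'' x) →
    ((∀ x ∈ Set.Icc a b, μ ≤ f' x) ∨ (∀ x ∈ Set.Icc a b, f' x ≤ -μ)) →
    ‖∫ x in a..b, e (f x)‖ ≤ 1 / μ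

/-- M3b: van der Corput second derivative test. -/
def VdC : Prop :=
  ∀ (f f' f'' : ℝ → ℝ) (a b lam : ℝ), a ≤ b → 0 < lam →
    (∀ x, HasDerivAt f (f' x) x) → (∀ x, HasDerivAt f' (f'' x) x) → Continuous f'' →
    (∀ x ∈ Set.Icc a b, lam ≤ f'' x) →
    ‖∫ x in a..b, e (f x)‖ ≤ 4 / √lam

/-- M3c: tapered chirp (stationary phase). -/
def Chirp : Prop :=
  ∃ F : ℂ, ‖F‖ = 1 ∧ ∀ w Λ R η ε : ℝ, 0 < w → 0 < Λ → 0 < η → 0 < ε →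
    ∃ K K' : ℝ → ℝ, (∀ x, HasDerivAt K (K' x) x) ∧ Continuous K' ∧ K 0 = 0 ∧ (∀ x, 0 ≤ K' x) ∧
      K w ≤ (1 + ε) * Λ * w ∧
      ∃ N₀ : ℕ, ∀ N ≥ N₀, ∀ κ : ℝ, ∃ a β : ℝ, 0 ≤ a ∧ a ≤ 1 ∧ ∀ ρ : ℝ, 1 ≤ ρ → ρ ≤ R →
        ‖((ρ * √N : ℝ) : ℂ) *
            (∫ τ in (0 : ℝ)..w, e (ρ * N * ((∫ r in (0 : ℝ)..τ, K r) - κ * τ)))
          - F * ((√(ρ / Λ) * a : ℝ) : ℂ) * e (ρ * β)‖ ≤ η

/-- M3d: one slot = fast in | content | fast out, with prescribed phase `α` at the start of the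
content and integer total integral. -/
def Slot : Prop :=
  ∀ (w u δ Y : ℝ) (K K' : ℝ → ℝ), 0 < u → 2 * u < w → 0 < δ →
    (∀ x, HasDerivAt K (K' x) x) → Continuous K' → K 0 = 0 → (∀ x, 0 ≤ K' x) →
    ∃ C : ℝ, ∃ N₀ : ℕ, ∀ N ≥ N₀, ∀ ρ y θ₀ α : ℝ, 1 ≤ ρ → δ ≤ y → y ≤ Y →
      ∃ b : ℝ → ℝ, (∀ x x', |b x - b x'| ≤ C * N * |x - x'|) ∧
        (∀ x, x ≤ θ₀ ∨ θ₀ + ρ * w ≤ x → b x = 0) ∧
        (∀ x, 0 ≤ b x ∧ b x ≤ N * (y + K (w - 2 * u))) ∧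
        (∃ z : ℤ, ∫ x in θ₀..(θ₀ + ρ * w), b x = z) ∧
        ∀ κ : ℝ, ‖(∫ θ in θ₀..(θ₀ + ρ * w), e ((∫ r in θ₀..θ, b r) - κ * θ))
            - e (α - κ * (θ₀ + ρ * u)) * ((ρ : ℂ) * ∫ τ in (0 : ℝ)..(w - 2 * u),
                e (ρ * N * ((∫ r in (0 : ℝ)..τ, K r) - (κ / N - y) * τ)))‖
          ≤ 16 * √(ρ * u / δ) / √N

/-- M4: a bounded real trigonometric polynomial of almost full `L²` norm whose positive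
frequencies are primitive and pairwise non-proportional. -/
def BaseFun : Prop :=
  ∀ ε : ℝ, 0 < ε → ∃ (D : ℕ) (Ξ : Finset (Fin D → ℤ)) (lam : Fin D → ℤ) (φ : (Fin D → ℤ) → ℂ),
    (∀ ξ ∈ Ξ, φ ξ ≠ 0) ∧ (∀ ξ ∈ Ξ, 0 < ξ ⬝ᵥ lam) ∧ (∀ ξ ∈ Ξ, ∃ v : Fin D → ℤ, ξ ⬝ᵥ v = 1) ∧
    (∀ ξ ∈ Ξ, ∀ ζ ∈ Ξ, ξ ≠ ζ → ∃ p q, ξ p * ζ q ≠ ξ q * ζ p) ∧
    (∀ x : Fin D → ℝ, |2 * (∑ ξ ∈ Ξ, φ ξ * e (∑ i, (ξ i : ℝ) * x i)).re| ≤ 1 + ε) ∧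
    1 - ε ≤ 2 * ∑ ξ ∈ Ξ, ‖φ ξ‖ ^ 2

/-- M5: packing of blocks of intervals on the circle. -/
def Packing : Prop :=
  ∀ (D : ℕ) (Ξ : Type) [Fintype Ξ] [DecidableEq Ξ] (ξ : Ξ → Fin D → ℤ) (lam : Fin D → ℤ)
    (ρ : Ξ → ℕ) (f : Ξ → ℝ) (ε : ℝ), 0 < ε → (∀ i, 0 < ρ i) → (∀ i, (ρ i : ℤ) = ξ i ⬝ᵥ lam) →
    (∀ i, ∃ v : Fin D → ℤ, ξ i ⬝ᵥ v = 1) →
    (∀ i j, i ≠ j → ∃ p q, ξ i p * ξ j q ≠ ξ i q * ξ j p) →
    (∀ i, 0 < f i) → ∑ i, f i = 1 →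
    ∃ ε' : ℝ, 0 < ε' ∧ ∃ n₀ : ℕ, ∀ (n : Ξ → ℕ) (c : ℝ), (∀ i, n₀ ≤ n i) →
      (∀ i j, i ≠ j → Nat.Coprime (n i) (n j)) →
      (∀ i, c * f i ≤ (1 + ε') * ((ρ i : ℝ) / n i) ∧ (ρ i : ℝ) / n i ≤ c * f i) →
      ∃ (M B : ℕ) (W : Fin B → Fin D → ℤ)
        (t : Fin B × (Σ i : Ξ, Fin (∏ j ∈ univ.erase i, n j)) → ℕ),
        0 < M ∧ Even M ∧
        (∀ p, (t p : ℤ) ≡ ξ p.2.1 ⬝ᵥ W p.1 + ((p.2.2 : ℕ) : ℤ) * (n p.2.1 * M)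
          [ZMOD ((M * ∏ j, n j : ℕ) : ℤ)]) ∧
        Disj (M * ∏ j, n j) t (fun p => ρ p.2.1) ∧
        (1 - ε) * ((M * ∏ j, n j : ℕ) : ℝ) ≤
          2 * B * ∑ i, ((∏ j ∈ univ.erase i, n j : ℕ) : ℝ) * ρ i

/-- M6a: moduli and flat quadratic Gauss sums. -/
def Gauss : Prop :=
  ∀ (D : ℕ) (Ξ : Type) [Fintype Ξ] [DecidableEq Ξ] (ξ : Ξ → Fin D → ℤ) (τ : Ξ → ℝ) (ε : ℝ)
    (n₀ : ℕ), 0 < ε → (∀ i, 0 < τ i) →
    (∀ i j, i ≠ j → ∃ p q, ξ i p * ξ j q ≠ ξ i q * ξ j p) →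
    ∃ (n : Ξ → ℕ) (c : ℝ) (sg : Fin D → ℝ) (ω : (Σ i : Ξ, Fin (∏ j ∈ univ.erase i, n j)) → ℂ),
      0 < c ∧ (∀ i, n₀ ≤ n i) ∧ (∀ i, 0 < n i) ∧ (∀ i j, i ≠ j → Nat.Coprime (n i) (n j)) ∧
      (∀ i, c * τ i ≤ n i ∧ (n i : ℝ) ≤ (1 + ε) * (c * τ i)) ∧ (∀ s, ‖ω s‖ = 1) ∧
      ∀ (i : Ξ) (k : ℤ),
        ∑ j : Fin (∏ j ∈ univ.erase i, n j),
            ω ⟨i, j⟩ * e (-((j : ℕ) * k / ((∏ j ∈ univ.erase i, n j : ℕ) : ℝ))) =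
          ((√((∏ j ∈ univ.erase i, n j : ℕ) : ℝ) : ℝ) : ℂ) *
            e ((∑ p, (ξ i p : ℝ) * sg p) * (k : ℝ) ^ 2)

/-- M6b: the combinatorial design used by the final assembly. -/
def Design : Prop :=
  ∀ ε : ℝ, 0 < ε → ∃ (S : Type) (_ : Fintype S) (G B : ℕ) (ρ : S → ℕ) (t : Fin B × S → ℕ)
    (ω : S → ℂ) (Λ : ℝ), 0 < G ∧ Even G ∧ 0 < Λ ∧ (∀ s, 0 < ρ s) ∧ (∀ s, ‖ω s‖ = 1) ∧
    Disj G t (fun p => ρ p.2) ∧ (1 - ε) * G ≤ 2 * B * ∑ s, (ρ s : ℝ) ∧ B * Λ ≤ (1 + ε) * G ∧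
    ∀ (b : Fin B) (k : ℤ) (β : ℝ),
      |2 * (∑ s, ((√(ρ s / Λ) : ℝ) : ℂ) * ω s * e (ρ s * β - k * ((t (b, s) : ℝ) / G))).re|
        ≤ 1 + ε

end Crest.Agent.Lead.UF
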