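import Crest.Agent.Lead.CWContr
import Crest.Prelude.Def_ClassifyingComplex

set_option autoImplicit false

open scoped unitInterval
open Set Metric

noncomputable section

namespace Crest.Agent.Lead.CW

variable {G V : Type} [Group G] [MulAction G V]

/-- clamped coordinate of a point of a cube -/
def co {n : ℕ} (y : Fin n → ℝ) (k : ℕ) : ℝ :=
  if h : k < n then (pr ((1 + y ⟨k, h⟩) / 2) : ℝ) else 0

lemma co_nonneg {n : ℕ} (y : Fin n → ℝ) (k : ℕ) : 0 ≤ co y k := by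
  unfold co; split_ifs
  · exact (pr _).2.1
  · exact le_rfl

lemma co_le_one {n : ℕ} (y : Fin n → ℝ) (k : ℕ) : co y k ≤ 1 := by
  unfold co; split_ifs
  · exact (pr _).2.2
  · exact zero_le_one

lemma continuous_co {n : ℕ} (k : ℕ) : Continuous fun y : Fin n → ℝ => co y k := by
  unfold co; split_ifs
  · fun_prop
  · exact continuous_const

lemma co_of_ge {n : ℕ} (y : Fin n → ℝ) {k : ℕ} (h : n ≤ k) : co y k = 0 := by
  unfold co; rw [dif_neg (by omega)]

lemma co_closed {n : ℕ} {y : Fin n → ℝ} (hy : y ∈ closedBall (0 : Fin n → ℝ) 1) {k : ℕ}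
    (h : k < n) : co y k = (1 + y ⟨k, h⟩) / 2 := by
  have := (pi_norm_le_iff_of_nonneg zero_le_one).mp (mem_closedBall_zero_iff.mp hy) ⟨k, h⟩
  rw [Real.norm_eq_abs, abs_le] at this
  unfold co; rw [dif_pos h, pr_coe_of_mem (by linarith) (by linarith)]

lemma co_open {n : ℕ} {y : Fin n → ℝ} (hy : y ∈ ball (0 : Fin n → ℝ) 1) {k : ℕ}
    (h : k < n) : 0 < co y k ∧ co y k < 1 := by
  have := (pi_norm_lt_iff zero_lt_one).mp (mem_ball_zero_iff.mp hy) ⟨k, h⟩
  rw [Real.norm_eq_abs, abs_lt] at this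
  rw [co_closed (ball_subset_closedBall hy) h]
  constructor <;> linarith

lemma co_sphere {n : ℕ} {y : Fin n → ℝ} (hy : y ∈ sphere (0 : Fin n → ℝ) 1) :
    ∃ k, k < n ∧ (co y k = 0 ∨ co y k = 1) := by
  have h1 : ‖y‖ = 1 := mem_sphere_zero_iff_norm.mp hy
  have : ¬ ∀ i, ‖y i‖ < 1 := fun h => ((pi_norm_lt_iff zero_lt_one).mpr h).ne h1
  push Not at this
  obtain ⟨i, hi⟩ := this
  have h2 : ‖y i‖ ≤ 1 := h1 ▸ norm_le_pi_norm y i
  refine ⟨i, i.2, ?_⟩
  rw [co_closed (sphere_subset_closedBall hy) i.2]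
  have h3 : |y i| = 1 := le_antisymm h2 hi
  rcases abs_eq (zero_le_one) |>.mp h3 with h | h
  · right; change (1 + y i) / 2 = 1; rw [h]; norm_num
  · left; change (1 + y i) / 2 = 0; rw [h]; norm_num

/-- the characteristic map upstairs -/
def chi {n : ℕ} (u v w : V) (y : Fin n → ℝ) : V → ℝ :=
  (1 - co y 0) • dl u + (co y 0 * (1 - co y 1)) • dl v + (co y 0 * co y 1) • dl w

lemma chi_mem {n : ℕ} (u v w : V) (y : Fin n → ℝ) : chi u v w y ∈ tri u v w := by
  have a0 := co_nonneg y 0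
  have a1 := co_nonneg y 1
  have b0 := co_le_one y 0
  have b1 := co_le_one y 1
  exact ⟨_, _, _, by linarith, mul_nonneg a0 (by linarith), by positivity, by ring, rfl⟩

lemma continuous_chi {n : ℕ} (u v w : V) : Continuous (chi (n := n) u v w) := by
  have h0 := continuous_co (n := n) 0
  have h1 := continuous_co (n := n) 1
  unfold chi; fun_prop

namespace Dat
variable (D : Dat G V)

open Classical in
/-- colour coordinate -/
def cc (i : Fin 3) (x : D.E) : ℝ := ∑ᶠ y, if D.col y = i then x.1 y else 0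

lemma cc_eq (x : D.E) (y : V) (h : ∀ y', x.1 y' ≠ 0 → D.col y' = D.col y → y' = y) :
    D.cc (D.col y) x = x.1 y := by
  unfold cc
  rw [finsum_eq_single _ y]
  · simp
  · intro y' hy'
    split_ifs with hc
    · by_contra h0; exact hy' (h y' h0 hc)
    · rfl

lemma cc_tri {u v w y : V} (h : D.S u v w) (x : D.E) (hx : x.1 ∈ tri u v w)
    (hy : y = u ∨ y = v ∨ y = w) : D.cc (D.col y) x = x.1 y :=
  D.cc_eq x y fun _ h0 hc => D.adj_col (D.S_adj h (tri_supp hx h0) hy) hc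

lemma continuous_cc (i : Fin 3) : Continuous (D.cc i) := by
  refine D.continuous_of_pieces fun u v w h => ?_
  by_cases hi : ∃ y, (y = u ∨ y = v ∨ y = w) ∧ D.col y = i
  · obtain ⟨y, hy, rfl⟩ := hi
    exact (continuous_ev y).continuousOn.congr fun x hx => D.cc_tri h x hx hy
  · refine (continuousOn_const (c := 0)).congr fun x hx => ?_
    refine finsum_eq_zero_of_forall_eq_zero fun y => ?_
    split_ifs with hc
    · by_contra h0; exact hi ⟨y, tri_supp hx h0, hc⟩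
    · rfl

lemma cc_smul (i : Fin 3) (g : G) (x : D.E) : D.cc i (g • x) = D.cc i x := by
  unfold cc
  rw [← finsum_comp_equiv (MulAction.toPerm g)]
  congr 1
  ext y
  simp [D.smul_val, D.hcol]

/-- the quotient space -/
abbrev X : Type := Quotient (MulAction.orbitRel G D.E)

def mkX (x : D.E) : D.X := Quotient.mk _ x

lemma continuous_mkX : Continuous D.mkX := continuous_quotient_mk'

lemma mkX_smul (g : G) (x : D.E) : D.mkX (g • x) = D.mkX x :=
  Quotient.sound (MulAction.mem_orbit x g)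

lemma mkX_eq {x x' : D.E} (h : D.mkX x = D.mkX x') : ∃ g : G, g • x' = x :=
  Quotient.exact h

def ccX (i : Fin 3) : D.X → ℝ := Quotient.lift (D.cc i) (by
  rintro a b ⟨g, rfl⟩; exact D.cc_smul i g b)

lemma continuous_ccX (i : Fin 3) : Continuous (D.ccX i) :=
  (D.continuous_cc i).quotient_lift _

def Simp (n : ℕ) : Type := {s : V × V × V // D.Sn n s.1 s.2.1 s.2.2}

instance (n : ℕ) : MulAction G (D.Simp n) where
  smul g s := ⟨g • s.1, D.Sn_smul g s.2⟩
  one_smul s := Subtype.ext (one_smul G s.1)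
  mul_smul g h s := Subtype.ext (mul_smul g h s.1)

def cell (n : ℕ) : Type := Quotient (MulAction.orbitRel G (D.Simp n))

def chiE {n : ℕ} (s : D.Simp n) (y : Fin n → ℝ) : D.E :=
  ⟨chi s.1.1 s.1.2.1 s.1.2.2 y, _, _, _, ⟨n, s.2⟩, chi_mem _ _ _ y⟩

def Phi {n : ℕ} (s : D.Simp n) (y : Fin n → ℝ) : D.X := D.mkX (D.chiE s y)

lemma continuous_Phi {n : ℕ} (s : D.Simp n) : Continuous (D.Phi s) :=
  D.continuous_mkX.comp (continuous_mk (continuous_chi _ _ _))

def Psi {n : ℕ} (s : D.Simp n) (x : D.X) : Fin n → ℝ := fun k =>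
  if (k : ℕ) = 0 then 2 * (1 - D.ccX (D.col s.1.1) x) - 1
  else 2 * (D.ccX (D.col s.1.2.2) x / (1 - D.ccX (D.col s.1.1) x)) - 1

lemma cc_Phi_fst {n : ℕ} (s : D.Simp n) (hn : 0 < n) (y : Fin n → ℝ) :
    1 - D.ccX (D.col s.1.1) (D.Phi s y) = co y 0 := by
  obtain ⟨⟨u, v, w⟩, hs⟩ := s
  have h1 : D.ccX (D.col u) (D.Phi ⟨(u, v, w), hs⟩ y) = chi u v w y u :=
    D.cc_tri ⟨n, hs⟩ (D.chiE ⟨(u, v, w), hs⟩ y) (chi_mem _ _ _ y) (Or.inl rfl)
  have h2 : u ≠ v ∧ u ≠ w := by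
    match n, hn, hs with
    | 1, _, ⟨h, h'⟩ => exact ⟨Ed_ne h, fun e => Ed_ne h (e.trans (show v = w from h').symm)⟩
    | 2, _, h => exact ⟨Ed_ne (D.hTE _ _ _ h).1, Ed_ne (D.hTE _ _ _ h).2.2⟩
  change 1 - D.ccX (D.col u) _ = _
  rw [h1]
  simp [chi, dl_self, dl_ne h2.1, dl_ne h2.2]

lemma cc_Phi_thd {n : ℕ} (s : D.Simp n) (hn : 1 < n) (y : Fin n → ℝ) :
    D.ccX (D.col s.1.2.2) (D.Phi s y) = co y 0 * co y 1 := by
  obtain ⟨⟨u, v, w⟩, hs⟩ := s
  have h1 : D.ccX (D.col w) (D.Phi ⟨(u, v, w), hs⟩ y) = chi u v w y w :=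
    D.cc_tri ⟨n, hs⟩ (D.chiE ⟨(u, v, w), hs⟩ y) (chi_mem _ _ _ y) (Or.inr (Or.inr rfl))
  have h2 : w ≠ u ∧ w ≠ v := by
    match n, hn, hs with
    | 2, _, h => exact ⟨(Ed_ne (D.hTE _ _ _ h).2.2).symm, (Ed_ne (D.hTE _ _ _ h).2.1).symm⟩
  change D.ccX (D.col w) _ = _
  rw [h1]
  simp [chi, dl_self, dl_ne h2.1, dl_ne h2.2]

lemma Sn_le {n : ℕ} {u v w : V} (h : D.Sn n u v w) : n ≤ 2 := by
  match n, h with
  | 0, _ => omega
  | 1, _ => omega
  | 2, _ => omega

lemma Psi_Phi {n : ℕ} (s : D.Simp n) {y : Fin n → ℝ} (hy : y ∈ ball (0 : Fin n → ℝ) 1) :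
    D.Psi s (D.Phi s y) = y := by
  ext k
  have hn := D.Sn_le s.2
  have hk := k.2
  unfold Psi
  split_ifs with h
  · rw [D.cc_Phi_fst s (by omega), co_closed (ball_subset_closedBall hy) (by omega : 0 < n)]
    have : (⟨0, by omega⟩ : Fin n) = k := Fin.ext h.symm
    rw [this]; ring
  · have h0 := (co_open hy (by omega : 0 < n)).1
    rw [D.cc_Phi_fst s (by omega), D.cc_Phi_thd s (by omega), mul_div_cancel_left₀ _ h0.ne',
      co_closed (ball_subset_closedBall hy) (by omega : 1 < n)]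
    have : (⟨1, by omega⟩ : Fin n) = k := Fin.ext (by simp; omega)
    rw [this]; ring

def pe {n : ℕ} (s : D.Simp n) : PartialEquiv (Fin n → ℝ) D.X where
  toFun := D.Phi s
  invFun := D.Psi s
  source := ball 0 1
  target := D.Phi s '' ball 0 1
  map_source' y hy := mem_image_of_mem _ hy
  map_target' := by rintro _ ⟨y, hy, rfl⟩; rw [D.Psi_Phi s hy]; exact hy
  left_inv' y hy := D.Psi_Phi s hy
  right_inv' := by rintro _ ⟨y, hy, rfl⟩; rw [D.Psi_Phi s hy]

lemma continuousOn_Psi {n : ℕ} (s : D.Simp n) :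
    ContinuousOn (D.Psi s) (D.Phi s '' ball 0 1) := by
  refine continuousOn_pi.mpr fun k => ?_
  have h1 := D.continuous_ccX (D.col s.1.1)
  have h2 := D.continuous_ccX (D.col s.1.2.2)
  unfold Psi
  split_ifs with h
  · fun_prop
  · refine ContinuousOn.sub (ContinuousOn.mul continuousOn_const
      (ContinuousOn.div h2.continuousOn (by fun_prop) ?_)) continuousOn_const
    rintro _ ⟨y, hy, rfl⟩
    have hk := k.2
    rw [D.cc_Phi_fst s (by omega)]
    exact (co_open hy (by omega : 0 < n)).1.ne'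

lemma chi_pos {n : ℕ} {u v w : V} (h : D.Sn n u v w) {y : Fin n → ℝ}
    (hy : y ∈ ball (0 : Fin n → ℝ) 1) {z : V} (hz : z = u ∨ z = v ∨ z = w) :
    chi u v w y z ≠ 0 := by
  match n, h with
  | 0, ⟨h1, h2⟩ =>
    subst h1 h2
    have : z = u := by grind
    subst this
    simp [chi, co_of_ge, dl_self]
  | 1, ⟨h1, h2⟩ =>
    subst h2
    have ne := Ed_ne h1
    obtain ⟨a, b⟩ := co_open hy (zero_lt_one)
    have c := co_of_ge y (le_refl 1)
    rcases hz with rfl | rfl | rfl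
    · simp [chi, dl_self, dl_ne ne]; linarith
    · simp [chi, dl_self, dl_ne ne.symm, c]; linarith
    · simp [chi, dl_self, dl_ne ne.symm, c]; linarith
  | 2, h =>
    obtain ⟨e1, e2, e3⟩ := D.hTE _ _ _ h
    have n1 := Ed_ne e1
    have n2 := Ed_ne e2
    have n3 := Ed_ne e3
    obtain ⟨a, b⟩ := co_open hy (zero_lt_two)
    obtain ⟨a', b'⟩ := co_open hy (one_lt_two)
    rcases hz with rfl | rfl | rfl
    · simp [chi, dl_self, dl_ne n1, dl_ne n3]; linarith
    · simp [chi, dl_self, dl_ne n1.symm, dl_ne n2]; constructor <;> linarith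
    · simp [chi, dl_self, dl_ne n3.symm, dl_ne n2.symm]; constructor <;> linarith

lemma Sn_unique {n n' : ℕ} {u v w u' v' w' : V} (h : D.Sn n u v w) (h' : D.Sn n' u' v' w')
    (hs : ∀ z, (z = u ∨ z = v ∨ z = w) ↔ (z = u' ∨ z = v' ∨ z = w')) :
    n = n' ∧ u = u' ∧ v = v' ∧ w = w' := by
  have a1 := (hs u).mp (by simp)
  have a2 := (hs v).mp (by simp)
  have a3 := (hs w).mp (by simp)
  have b1 := (hs u').mpr (by simp)
  have b2 := (hs v').mpr (by simp)
  have b3 := (hs w').mpr (by simp)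
  clear hs
  have key : ∀ {m : ℕ} {a b c : V}, D.Sn m a b c → (m = 0 ∧ a = b ∧ b = c) ∨
      (m = 1 ∧ D.col a < D.col b ∧ b = c) ∨ (m = 2 ∧ D.col a < D.col b ∧ D.col b < D.col c) := by
    intro m a b c h
    match m, h with
    | 0, h => exact Or.inl ⟨rfl, h⟩
    | 1, h => exact Or.inr (Or.inl ⟨rfl, D.hlt _ _ h.1, h.2⟩)
    | 2, h => exact Or.inr (Or.inr ⟨rfl, D.hlt _ _ (D.hTE _ _ _ h).1, D.hlt _ _ (D.hTE _ _ _ h).2.1⟩)
  have k1 := key h
  have k2 := key h'
  clear key h h'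
  grind

lemma chi_surj {n : ℕ} {u v w : V} (h : D.Sn n u v w) {x : V → ℝ} (hx : x ∈ tri u v w) :
    ∃ y ∈ closedBall (0 : Fin n → ℝ) 1, chi u v w y = x := by
  obtain ⟨a, b, c, ha, hb, hc, hs, rfl⟩ := hx
  have ht0 : 0 ≤ c / (b + c) := by positivity
  have ht1 : c / (b + c) ≤ 1 := div_le_one_of_le₀ (by linarith) (by positivity)
  have hy : ∀ n, (fun k : Fin n => if (k : ℕ) = 0 then 2 * (b + c) - 1 else 2 * (c / (b + c)) - 1)
      ∈ closedBall (0 : Fin n → ℝ) 1 := by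
    intro n
    rw [mem_closedBall_zero_iff, pi_norm_le_iff_of_nonneg zero_le_one]
    intro k
    rw [Real.norm_eq_abs, abs_le]
    split_ifs <;> constructor <;> linarith
  refine ⟨_, hy n, ?_⟩
  have ha' : a = 1 - (b + c) := by linarith
  match n, h with
  | 0, ⟨h1, h2⟩ =>
    subst h1 h2
    simp only [chi, co_of_ge _ (Nat.zero_le _)]
    rw [ha']; module
  | 1, ⟨h1, h2⟩ =>
    subst h2
    have e0 := co_closed (hy 1) zero_lt_one
    simp only [chi, co_of_ge _ (le_refl 1), e0]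
    rw [ha']; simp only [if_true]; module
  | 2, h =>
    have e0 := co_closed (hy 2) zero_lt_two
    have e1 := co_closed (hy 2) one_lt_two
    have e2 : (b + c) * (c / (b + c)) = c := by
      by_cases h0 : b + c = 0
      · have : c = 0 := by linarith
        simp [this]
      · field_simp
    simp only [if_true, one_ne_zero, if_false] at e0 e1
    have e0' : (1 + (2 * (b + c) - 1)) / 2 = b + c := by ring
    have e1' : (1 + (2 * (c / (b + c)) - 1)) / 2 = c / (b + c) := by ring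
    rw [e0'] at e0
    rw [e1'] at e1
    simp only [chi, e0, e1]
    rw [mul_sub, e2, ha']; module

lemma cover {n : ℕ} {u v w : V} (h : D.Sn n u v w) (x : D.E) (hx : x.1 ∈ tri u v w) :
    ∃ j : D.cell n, D.mkX x ∈ D.Phi (Quotient.out j) '' closedBall 0 1 := by
  let s : D.Simp n := ⟨(u, v, w), h⟩
  let j : D.cell n := Quotient.mk _ s
  obtain ⟨g, hg⟩ : ∃ g : G, g • s = Quotient.out j :=
    Quotient.exact (Quotient.out_eq (s := MulAction.orbitRel G (D.Simp n)) j)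
  refine ⟨j, ?_⟩
  rw [← hg, ← D.mkX_smul g x]
  obtain ⟨y, hy, e⟩ := D.chi_surj (D.Sn_smul g h) (tri_smul g hx)
  exact ⟨y, hy, congrArg D.mkX (Subtype.ext e)⟩

lemma cell_finite (hfin : ∃ F : Finset V, ∀ v, ∃ g : G, g • v ∈ F) (n : ℕ) :
    Finite (D.cell n) := by
  obtain ⟨F, hF⟩ := hfin
  have h1 : {s : D.Simp n | s.1.1 ∈ F}.Finite := by
    refine Finite.of_finite_image (f := Subtype.val) ?_ Subtype.val_injective.injOn
    refine (F.finite_toSet.biUnion fun y _ =>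
      (finite_singleton y).prod ((D.adj_finite y).prod (D.adj_finite y))).subset ?_
    rintro _ ⟨s, hs, rfl⟩
    refine mem_biUnion hs ⟨rfl, ?_, ?_⟩
    · exact D.S_adj ⟨n, s.2⟩ (Or.inl rfl) (by simp)
    · exact D.S_adj ⟨n, s.2⟩ (Or.inl rfl) (by simp)
  have := h1.to_subtype
  refine Finite.of_surjective
    (fun s : {s : D.Simp n | s.1.1 ∈ F} => (Quotient.mk _ s.1 : D.cell n)) ?_
  intro j
  obtain ⟨s, rfl⟩ := Quotient.exists_rep j
  obtain ⟨g, hg⟩ := hF s.1.1
  exact ⟨⟨g • s, hg⟩, Quotient.sound (MulAction.mem_orbit s g)⟩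

lemma cell_empty {n : ℕ} (hn : 2 < n) : IsEmpty (D.cell n) :=
  ⟨fun j => absurd (D.Sn_le (Quotient.out j).2) (by omega)⟩

lemma disj : (univ : Set (Σ n, D.cell n)).PairwiseDisjoint
    (fun ni => D.pe (Quotient.out ni.2) '' ball 0 1) := by
  rintro ⟨n, i⟩ - ⟨n', i'⟩ - hne
  refine Set.disjoint_left.mpr ?_
  rintro _ ⟨y, hy, rfl⟩ ⟨y', hy', e⟩
  apply hne
  obtain ⟨g, hg⟩ := D.mkX_eq e
  set s := Quotient.out i with hs
  set s' := Quotient.out i' with hs'
  have hv : ∀ z, chi s.1.1 s.1.2.1 s.1.2.2 y (g⁻¹ • z) = chi s'.1.1 s'.1.2.1 s'.1.2.2 y' z :=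
    fun z => congrFun (congrArg Subtype.val hg) z
  have key := D.Sn_unique (D.Sn_smul g s.2) s'.2 (by
    intro z
    constructor
    · intro hz
      refine tri_supp (chi_mem _ _ _ y') ?_
      rw [← hv]
      refine D.chi_pos s.2 hy ?_
      simpa only [inv_smul_eq_iff] using hz
    · intro hz
      have := D.chi_pos s'.2 hy' hz
      rw [← hv] at this
      simpa only [inv_smul_eq_iff] using tri_supp (chi_mem _ _ _ y) this)
  obtain ⟨rfl, k1, k2, k3⟩ := key
  have : g • s = s' := Subtype.ext (Prod.ext k1 (Prod.ext k2 k3))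
  have h2 : i = i' := by
    rw [← Quotient.out_eq i, ← Quotient.out_eq i', ← hs, ← hs', ← this]
    exact (Quotient.sound (MulAction.mem_orbit s g)).symm
  rw [h2]

lemma mapsTo {n : ℕ} (s : D.Simp n) : MapsTo (D.pe s) (sphere 0 1)
    (⋃ (m < n) (j : D.cell m), D.pe (Quotient.out j) '' closedBall 0 1) := by
  intro y hy
  obtain ⟨k, hk, hc⟩ := co_sphere hy
  suffices h : ∃ m < n, ∃ u v w, D.Sn m u v w ∧ (D.chiE s y).1 ∈ tri u v w by
    obtain ⟨m, hm, u, v, w, h1, h2⟩ := h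
    obtain ⟨j, hj⟩ := D.cover h1 _ h2
    simp only [mem_iUnion]
    exact ⟨m, hm, j, hj⟩
  obtain ⟨⟨u, v, w⟩, hs⟩ := s
  change ∃ m < n, ∃ u' v' w', D.Sn m u' v' w' ∧ chi u v w y ∈ tri u' v' w'
  have a0 := co_nonneg y 0
  have a1 := co_nonneg y 1
  have b0 := co_le_one y 0
  have b1 := co_le_one y 1
  match n, hs with
  | 0, _ => omega
  | 1, ⟨h1, h2⟩ =>
    have : k = 0 := by omega
    subst this
    have c := co_of_ge y (le_refl 1)
    rcases hc with hc | hc
    · exact ⟨0, by omega, u, u, u, ⟨rfl, rfl⟩, by simpa [chi, hc] using dl_mem_tri u u u⟩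
    · exact ⟨0, by omega, v, v, v, ⟨rfl, rfl⟩, by simpa [chi, hc, c] using dl_mem_tri v v v⟩
  | 2, h =>
    obtain ⟨e1, e2, e3⟩ := D.hTE _ _ _ h
    have : k = 0 ∨ k = 1 := by omega
    rcases this with rfl | rfl <;> rcases hc with hc | hc
    · exact ⟨0, by omega, u, u, u, ⟨rfl, rfl⟩, by simpa [chi, hc] using dl_mem_tri u u u⟩
    · exact ⟨1, by omega, v, w, w, ⟨e2, rfl⟩, 1 - co y 1, co y 1, 0, by linarith, a1, le_rfl,
        by ring, by simp [chi, hc]⟩
    · exact ⟨1, by omega, u, v, v, ⟨e1, rfl⟩, 1 - co y 0, co y 0, 0, by linarith, a0, le_rfl,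
        by ring, by simp [chi, hc]⟩
    · exact ⟨1, by omega, u, w, w, ⟨e3, rfl⟩, 1 - co y 0, co y 0, 0, by linarith, a0, le_rfl,
        by ring, by simp [chi, hc]⟩

lemma union_eq : ⋃ (n : ℕ) (j : D.cell n), D.pe (Quotient.out j) '' closedBall 0 1 = univ := by
  refine eq_univ_of_forall fun ξ => ?_
  obtain ⟨x, rfl⟩ := Quotient.exists_rep ξ
  obtain ⟨u, v, w, ⟨n, h⟩, hx⟩ := x.2
  obtain ⟨j, hj⟩ := D.cover h x hx
  simp only [mem_iUnion]
  exact ⟨n, j, hj⟩

end Dat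

theorem hasFiniteClassifyingComplex {G V : Type} [Group G] [MulAction G V]
    (free : ∀ (g : G) (v : V), g • v = v → g = 1)
    (col : V → Fin 3) (hcol : ∀ (g : G) (v : V), col (g • v) = col v)
    (Ed : V → V → Prop) (Tr : V → V → V → Prop)
    (hEd : ∀ (g : G) (u v : V), Ed u v → Ed (g • u) (g • v))
    (hTr : ∀ (g : G) (u v w : V), Tr u v w → Tr (g • u) (g • v) (g • w))
    (hlt : ∀ u v, Ed u v → col u < col v)
    (hTE : ∀ u v w, Tr u v w → Ed u v ∧ Ed v w ∧ Ed u w)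
    (hfin : ∃ F : Finset V, ∀ v, ∃ g : G, g • v ∈ F)
    (hloc : ∀ u, {v | Ed u v ∨ Ed v u}.Finite) (hne : Nonempty V)
    (hconn : ∀ u v, Relation.EqvGen Ed u v)
    (H1 : ∀ (H : Type) [Group H] (c : V → V → H), (∀ u v w, Tr u v w → c u v * c v w = c u w) →
      ∃ k : V → H, ∀ u v, Ed u v → c u v = (k u)⁻¹ * k v)
    (H2 : ∀ (A : Type) [AddCommGroup A] (z : V → V → V → A), ∃ α : V → V → A,
      ∀ u v w, Tr u v w → α u v + α v w - α u w = z u v w) :
    Crest.Topology.HasFiniteClassifyingComplex G 2 := by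
  let D : Dat G V := ⟨col, Ed, Tr, free, hcol, hEd, hTr, hlt, hTE, hloc⟩
  have hc : ContractibleSpace D.E := D.contractible hconn H1 H2
  have hev : ∀ᶠ n in Filter.atTop, IsEmpty (D.cell n) :=
    Filter.eventually_atTop.mpr ⟨3, fun n hn => D.cell_empty (by omega)⟩
  have hq := isQuotientCoveringMap_quotientMk_of_properlyDiscontinuousSMul (G := G) (E := D.E)
  obtain ⟨u0⟩ := hne
  refine ⟨D.X, inferInstance,
    Topology.CWComplex.mkFinite univ D.cell (fun n j => D.pe (Quotient.out j)) hev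
      (D.cell_finite hfin) (fun _ _ => rfl) (fun n j => (D.continuous_Phi _).continuousOn)
      (fun n j => D.continuousOn_Psi _) D.disj (fun n j => D.mapsTo _) D.union_eq,
    inferInstance,
    Topology.CWComplex.finite_mkFinite univ D.cell (fun n j => D.pe (Quotient.out j)) hev
      (D.cell_finite hfin) (fun _ _ => rfl) (fun n j => (D.continuous_Phi _).continuousOn)
      (fun n j => D.continuousOn_Psi _) D.disj (fun n j => D.mapsTo _) D.union_eq,
    fun n hn => D.cell_empty hn,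
    ⟨D.E, inferInstance, Quotient.mk _, hc, hq.isCoveringMap, Quotient.mk_surjective⟩,
    D.mkX (D.pt u0), ⟨(hq.fundamentalGroupEquiv ⟨D.pt u0, rfl⟩).trans (MulEquiv.inv' G).symm⟩⟩

end Crest.Agent.Lead.CW

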