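import Crest.Agent.Lead.CWSpace

set_option autoImplicit false

open scoped unitInterval
open Set

noncomputable section

namespace Crest.Agent.Lead.CW

variable {G V : Type} [Group G] [MulAction G V]

namespace Dat
variable (D : Dat G V)

lemma S0 (u : V) : D.S u u u := ⟨0, rfl, rfl⟩
variable {D}
lemma S1 {u v : V} (h : D.Ed u v) : D.S u v v := ⟨1, h, rfl⟩
lemma S2 {u v w : V} (h : D.Tr u v w) : D.S u v w := ⟨2, h⟩
lemma Ed_ne {u v : V} (h : D.Ed u v) : u ≠ v := by
  rintro rfl; exact lt_irrefl _ (D.hlt _ _ h)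
variable (D)

def pt (u : V) : D.E := ⟨dl u, u, u, u, D.S0 u, dl_mem_tri _ _ _⟩

lemma dl_mem_tri2 (u v : V) : dl v ∈ tri u v v :=
  ⟨0, 1, 0, le_rfl, by norm_num, le_rfl, by norm_num, by simp⟩

def ep (u v : V) (h : D.Ed u v) : Path (D.pt u) (D.pt v) where
  toFun t := ⟨(1 - (t : ℝ)) • dl u + (t : ℝ) • dl v, u, v, v, S1 h,
    tri_convex _ _ _ (dl_mem_tri _ _ _) (dl_mem_tri2 u v) t⟩
  continuous_toFun := continuous_mk (by fun_prop)
  source' := Subtype.ext (by simp [pt])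
  target' := Subtype.ext (by simp [pt])

lemma ep_mem (u v : V) (h : D.Ed u v) (t : I) : (D.ep u v h t).1 ∈ tri u v v :=
  tri_convex _ _ _ (dl_mem_tri _ _ _) (dl_mem_tri2 u v) t

lemma homotopic_in_tri {u v w : V} (h : D.S u v w) {a b : D.E} (p q : Path a b)
    (hp : ∀ t, (p t).1 ∈ tri u v w) (hq : ∀ t, (q t).1 ∈ tri u v w) : p.Homotopic q := by
  refine ⟨⟨⟨⟨fun z => ⟨(1 - (z.1 : ℝ)) • (p z.2).1 + (z.1 : ℝ) • (q z.2).1, u, v, w, h,
    tri_convex _ _ _ (hp _) (hq _) z.1⟩, continuous_mk (by fun_prop)⟩, fun t => ?_, fun t => ?_⟩,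
    ?_⟩⟩
  · exact Subtype.ext (by simp)
  · exact Subtype.ext (by simp)
  · intro t s hs
    refine Subtype.ext ?_
    change (1 - (t : ℝ)) • (p s).1 + (t : ℝ) • (q s).1 = (p s).1
    have : q s = p s := by
      rcases hs with rfl | hs
      · simp
      · rw [Set.mem_singleton_iff.mp hs]; simp
    rw [this]; module

lemma edge_coord {u v : V} (h : u ≠ v) {x : V → ℝ} (hx : x ∈ tri u v v) :
    0 ≤ x u ∧ 0 ≤ x v ∧ x u + x v = 1 ∧ x = x u • dl u + x v • dl v := by
  obtain ⟨a, b, c, ha, hb, hc, hs, rfl⟩ := hx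
  have h1 : (a • dl u + b • dl v + c • dl v) u = a := by simp [dl_self, dl_ne h]
  have h2 : (a • dl u + b • dl v + c • dl v) v = b + c := by simp [dl_self, dl_ne h.symm]
  rw [h1, h2]
  exact ⟨ha, by positivity, by linarith, by module⟩

lemma tri_coord {u v w : V} (h1 : u ≠ v) (h2 : v ≠ w) (h3 : u ≠ w) {x : V → ℝ}
    (hx : x ∈ tri u v w) : 0 ≤ x u ∧ 0 ≤ x v ∧ 0 ≤ x w ∧ x u + x v + x w = 1 ∧
      x = x u • dl u + x v • dl v + x w • dl w := by
  obtain ⟨a, b, c, ha, hb, hc, hs, rfl⟩ := hx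
  have e1 : (a • dl u + b • dl v + c • dl w) u = a := by simp [dl_self, dl_ne h1, dl_ne h3]
  have e2 : (a • dl u + b • dl v + c • dl w) v = b := by simp [dl_self, dl_ne h1.symm, dl_ne h2]
  have e3 : (a • dl u + b • dl v + c • dl w) w = c := by
    simp [dl_self, dl_ne h3.symm, dl_ne h2.symm]
  rw [e1, e2, e3]
  exact ⟨ha, hb, hc, hs, rfl⟩

theorem contractible [Nonempty V] (hconn : ∀ u v, Relation.EqvGen D.Ed u v)
    (H1 : ∀ (H : Type) [Group H] (c : V → V → H), (∀ u v w, D.Tr u v w → c u v * c v w = c u w) →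
      ∃ k : V → H, ∀ u v, D.Ed u v → c u v = (k u)⁻¹ * k v)
    (H2 : ∀ (A : Type) [AddCommGroup A] (z : V → V → V → A), ∃ α : V → V → A,
      ∀ u v w, D.Tr u v w → α u v + α v w - α u w = z u v w) : ContractibleSpace D.E := by
  classical
  obtain ⟨u0⟩ := ‹Nonempty V›
  have hj : ∀ u v, Relation.EqvGen D.Ed u v → Joined (D.pt u) (D.pt v) := by
    intro u v h
    induction h with
    | rel u v h => exact ⟨D.ep u v h⟩
    | refl u => exact Joined.refl _
    | symm u v _ ih => exact ih.symm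
    | trans u v w _ _ ih1 ih2 => exact ih1.trans ih2
  obtain ⟨p, De, K, hp, hD, hK⟩ := core (D.pt u0) D.pt D.Ed D.Tr
    (fun u v => {x : D.E | x.1 ∈ tri u v v}) (fun u v w => {x : D.E | x.1 ∈ tri u v w}) D.hTE D.ep
    D.ep_mem
    (fun u v w _ => ⟨fun x hx => edge_sub1 u v w hx, fun x hx => edge_sub2 u v w hx,
      fun x hx => edge_sub3 u v w hx⟩)
    (by
      intro u v w h
      refine ⟨⟨fun z => ⟨⟨(1 - (z.2 : ℝ)) • dl u + (z.2 : ℝ) • z.1.1.1, u, v, w, S2 h,
        tri_convex _ _ _ (dl_mem_tri _ _ _) z.1.2 z.2⟩,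
        tri_convex _ _ _ (dl_mem_tri _ _ _) z.1.2 z.2⟩,
        Continuous.subtype_mk (continuous_mk (by fun_prop)) _⟩, fun x => ?_, fun x => ?_,
        fun x t hx => ?_⟩
      · exact Subtype.ext (by simp [pt])
      · exact Subtype.ext (Subtype.ext (by simp))
      · refine Subtype.ext ?_
        change (1 - (t : ℝ)) • dl u + (t : ℝ) • x.1.1 = dl u
        rw [hx]; change (1 - (t : ℝ)) • dl u + (t : ℝ) • dl u = dl u; module)
    (by
      intro u v w h
      refine D.homotopic_in_tri (S2 h) _ _ (fun t => ?_) (fun t => edge_sub3 u v w (D.ep_mem _ _ _ _))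
      rw [Path.trans_apply]
      split_ifs
      · exact edge_sub1 u v w (D.ep_mem _ _ _ _)
      · exact edge_sub2 u v w (D.ep_mem _ _ _ _))
    (fun u => hj _ _ (hconn u u0)) H1 H2
  let gE : V → V → D.E → C(I, D.E) := fun u v x => De u v (kap (x.1 v))
  let gT : V → V → V → D.E → C(I, D.E) := fun u v w x =>
    K u v w (1 - x.1 u, x.1 w / max (1 - x.1 u) (1 / 3))
  let R : D.E → C(I, D.E) → Prop := fun x y =>
    (∃ u, x.1 = dl u ∧ y = p u) ∨
    (∃ u v, D.Ed u v ∧ x.1 ∈ tri u v v ∧ x.1 u ≠ 0 ∧ x.1 v ≠ 0 ∧ y = gE u v x) ∨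
    (∃ u v w, D.Tr u v w ∧ x.1 ∈ tri u v w ∧ x.1 u ≠ 0 ∧ x.1 v ≠ 0 ∧ x.1 w ≠ 0 ∧ y = gT u v w x)
  have hdl : ∀ (x : D.E) u y, x.1 = dl u → x.1 y ≠ 0 → y = u := by
    intro x u y hx hy
    by_contra h
    exact hy (by rw [hx, dl_ne h])
  have hfun : ∀ x y y', R x y → R x y' → y = y' := by
    intro x y y' h h'
    have lt := D.hlt
    rcases h with ⟨u, hx, rfl⟩ | ⟨u, v, he, hx, a1, a2, rfl⟩ | ⟨u, v, w, ht, hx, a1, a2, a3, rfl⟩ <;>
    rcases h' with ⟨u', hx', rfl⟩ | ⟨u', v', he', hx', b1, b2, rfl⟩ |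
      ⟨u', v', w', ht', hx', b1, b2, b3, rfl⟩
    · have := hdl x u u' hx (by rw [hx', dl_self]; norm_num)
      rw [this]
    · exact absurd ((hdl x u _ hx b1).trans (hdl x u _ hx b2).symm) (Ed_ne he')
    · exact absurd ((hdl x u _ hx b1).trans (hdl x u _ hx b2).symm) (Ed_ne (D.hTE _ _ _ ht').1)
    · exact absurd ((hdl x u' _ hx' a1).trans (hdl x u' _ hx' a2).symm) (Ed_ne he)
    · have c1 := tri_supp hx b1
      have c2 := tri_supp hx b2
      have l1 := lt _ _ he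
      have l2 := lt _ _ he'
      have : u' = u ∧ v' = v := by grind
      rw [this.1, this.2]
    · have c1 := tri_supp hx b1
      have c2 := tri_supp hx b2
      have c3 := tri_supp hx b3
      obtain ⟨e1, e2, e3⟩ := D.hTE _ _ _ ht'
      have l1 := lt _ _ e1
      have l2 := lt _ _ e2
      exfalso; grind
    · exact absurd ((hdl x u' _ hx' a1).trans (hdl x u' _ hx' a2).symm) (Ed_ne (D.hTE _ _ _ ht).1)
    · have c1 := tri_supp hx' a1
      have c2 := tri_supp hx' a2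
      have c3 := tri_supp hx' a3
      obtain ⟨e1, e2, e3⟩ := D.hTE _ _ _ ht
      have l1 := lt _ _ e1
      have l2 := lt _ _ e2
      exfalso; grind
    · have c1 := tri_supp hx b1
      have c2 := tri_supp hx b2
      have c3 := tri_supp hx b3
      obtain ⟨e1, e2, e3⟩ := D.hTE _ _ _ ht
      obtain ⟨e1', e2', e3'⟩ := D.hTE _ _ _ ht'
      have l1 := lt _ _ e1
      have l2 := lt _ _ e2
      have l1' := lt _ _ e1'
      have l2' := lt _ _ e2'
      have : u' = u ∧ v' = v ∧ w' = w := by grind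
      rw [this.1, this.2.1, this.2.2]
  have k0 : kap 0 = 0 := pr_of_le (by norm_num)
  have k1 : kap 1 = 1 := pr_of_ge (by norm_num)
  have hRE : ∀ u v, D.Ed u v → ∀ x : D.E, x.1 ∈ tri u v v → R x (gE u v x) := by
    intro u v h x hx
    obtain ⟨c1, c2, c3, c4⟩ := edge_coord (Ed_ne h) hx
    by_cases a1 : x.1 u = 0
    · have : x.1 v = 1 := by linarith
      refine Or.inl ⟨v, ?_, ?_⟩
      · rw [c4, a1, this]; simp
      · simp only [gE, this, k1]; exact (hD u v h).2.1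
    by_cases a2 : x.1 v = 0
    · have : x.1 u = 1 := by linarith
      refine Or.inl ⟨u, ?_, ?_⟩
      · rw [c4, a2, this]; simp
      · simp only [gE, a2, k0]; exact (hD u v h).1
    exact Or.inr (Or.inl ⟨u, v, h, hx, a1, a2, rfl⟩)
  have hRT : ∀ u v w, D.Tr u v w → ∀ x : D.E, x.1 ∈ tri u v w → R x (gT u v w x) := by
    intro u v w h x hx
    obtain ⟨e1, e2, e3⟩ := D.hTE _ _ _ h
    obtain ⟨c1, c2, c3, c4, c5⟩ := tri_coord (Ed_ne e1) (Ed_ne e2) (Ed_ne e3) hx
    obtain ⟨-, K1, K2, K3, K4⟩ := hK u v w h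
    by_cases a3 : x.1 w = 0
    · have hx' : x.1 ∈ tri u v v :=
        ⟨x.1 u, x.1 v, 0, c1, c2, le_rfl, by linarith, by
          nth_rewrite 1 [c5]; rw [a3]; simp⟩
      have : gT u v w x = gE u v x := by
        simp only [gT, gE, a3, zero_div]
        rw [K1]; congr 2; linarith
      rw [this]; exact hRE u v e1 x hx'
    by_cases a1 : x.1 u = 0
    · have hx' : x.1 ∈ tri v w w :=
        ⟨x.1 v, x.1 w, 0, c2, c3, le_rfl, by linarith, by
          nth_rewrite 1 [c5]; rw [a1]; simp⟩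
      have : gT u v w x = gE v w x := by
        simp only [gT, gE, a1, sub_zero]
        rw [max_eq_left (by norm_num), div_one, K2]
      rw [this]; exact hRE v w e2 x hx'
    by_cases a2 : x.1 v = 0
    · have hx' : x.1 ∈ tri u w w :=
        ⟨x.1 u, x.1 w, 0, c1, c3, le_rfl, by linarith, by
          nth_rewrite 1 [c5]; rw [a2]; simp⟩
      have : gT u v w x = gE u w x := by
        have hs : 1 - x.1 u = x.1 w := by linarith
        simp only [gT, gE, hs]
        by_cases hc : x.1 w ≤ 1 / 3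
        · rw [K4 _ _ hc, show kap (x.1 w) = 0 from pr_of_le (by linarith)]
          exact (hD u w e3).1.symm
        · rw [max_eq_left (by linarith), div_self a3, K3]
      rw [this]; exact hRE u w e3 x hx'
    exact Or.inr (Or.inr ⟨u, v, w, h, hx, a1, a2, a3, rfl⟩)
  have hex : ∀ x : D.E, ∃ y, R x y := by
    intro x
    obtain ⟨u, v, w, h, hx⟩ := x.2
    rcases D.S_iff.mp h with ⟨rfl, rfl⟩ | ⟨he, rfl⟩ | h
    · exact ⟨_, Or.inl ⟨u, tri_self hx, rfl⟩⟩
    · exact ⟨_, hRE _ _ he x hx⟩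
    · exact ⟨_, hRT _ _ _ h x hx⟩
  choose g hg using hex
  have g0 : ∀ u (x : D.E), x.1 ∈ tri u u u → g x = p u := fun u x hx =>
    hfun x _ _ (hg x) (Or.inl ⟨u, tri_self hx, rfl⟩)
  have g1 : ∀ u v, D.Ed u v → ∀ x : D.E, x.1 ∈ tri u v v → g x = gE u v x := fun u v h x hx =>
    hfun x _ _ (hg x) (hRE u v h x hx)
  have g2 : ∀ u v w, D.Tr u v w → ∀ x : D.E, x.1 ∈ tri u v w → g x = gT u v w x :=
    fun u v w h x hx => hfun x _ _ (hg x) (hRT u v w h x hx)
  have hgc : Continuous g := by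
    refine D.continuous_of_pieces fun u v w h => ?_
    rcases D.S_iff.mp h with ⟨rfl, rfl⟩ | ⟨he, rfl⟩ | h
    · exact continuousOn_const.congr fun x hx => g0 u x hx
    · refine ContinuousOn.congr (Continuous.continuousOn ?_) fun x hx => g1 _ _ he x hx
      exact (De u v).continuous.comp (continuous_kap.comp (continuous_ev v))
    · refine ContinuousOn.congr (Continuous.continuousOn ?_) fun x hx => g2 _ _ _ h x hx
      refine (K u v w).continuous.comp (Continuous.prodMk (by fun_prop) ?_)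
      refine Continuous.div (continuous_ev w) (by fun_prop) fun x => ?_
      exact (lt_of_lt_of_le (by norm_num) (le_max_right _ _)).ne'
  have hgm : ∀ u v w, D.S u v w → ∀ x : D.E, x.1 ∈ tri u v w →
      (g x 0).1 ∈ tri u v w ∧ g x 1 = D.pt u0 := by
    intro u v w h x hx
    rcases D.S_iff.mp h with ⟨rfl, rfl⟩ | ⟨he, rfl⟩ | h
    · rw [g0 u x hx, (hp u).1]; exact ⟨dl_mem_tri _ _ _, (hp u).2⟩
    · rw [g1 _ _ he x hx]; exact (hD _ _ he).2.2 _
    · rw [g2 _ _ _ h x hx]; exact (hK _ _ _ h).1 _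
  have hg1 : ∀ x, g x 1 = D.pt u0 := by
    intro x
    obtain ⟨u, v, w, h, hx⟩ := x.2
    exact (hgm u v w h x hx).2
  have hgseg : ∀ (x : D.E) (t : I), ∃ u v w, D.S u v w ∧
      (1 - (t : ℝ)) • x.1 + (t : ℝ) • (g x 0).1 ∈ tri u v w := by
    intro x t
    obtain ⟨u, v, w, h, hx⟩ := x.2
    exact ⟨u, v, w, h, tri_convex _ _ _ hx (hgm u v w h x hx).1 t⟩
  have hev : Continuous fun z : I × D.E => g z.2 z.1 :=
    Continuous.eval (hgc.comp continuous_snd) continuous_fst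
  let r : C(D.E, D.E) := ⟨fun x => g x 0, Continuous.eval hgc continuous_const⟩
  let F1 : (ContinuousMap.id D.E).Homotopy r :=
    ⟨⟨fun z => ⟨(1 - (z.1 : ℝ)) • z.2.1 + (z.1 : ℝ) • (r z.2).1, hgseg z.2 z.1⟩,
      continuous_mk (by fun_prop)⟩, fun x => Subtype.ext (by simp), fun x => Subtype.ext (by simp)⟩
  let F2 : r.Homotopy (ContinuousMap.const _ (D.pt u0)) :=
    ⟨⟨fun z => g z.2 z.1, hev⟩, fun x => rfl, fun x => hg1 x⟩
  exact (contractible_iff_id_nullhomotopic _).mpr ⟨D.pt u0, ⟨F1.trans F2⟩⟩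

end Dat

end Crest.Agent.Lead.CW
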