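import Mathlib

set_option autoImplicit false

open scoped unitInterval
open Set

noncomputable section

namespace Crest.Agent.Lead.CW

abbrev Q {X : Type*} [TopologicalSpace X] (a b : X) := Path.Homotopic.Quotient a b

section groupoid
variable {X Y : Type*} [TopologicalSpace X] [TopologicalSpace Y]

lemma qmap_trans {a b c : X} (p : Q a b) (q : Q b c) (f : C(X, Y)) :
    (p.trans q).map f = (p.map f).trans (q.map f) := by
  induction p using Path.Homotopic.Quotient.ind
  induction q using Path.Homotopic.Quotient.ind
  simp only [← Path.Homotopic.Quotient.mk_trans, ← Path.Homotopic.Quotient.mk_map,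
    Path.map_trans]

lemma qmap_refl (a : X) (f : C(X, Y)) :
    (Path.Homotopic.Quotient.refl a).map f = Path.Homotopic.Quotient.refl (f a) := rfl

lemma qmap_symm {a b : X} (p : Q a b) (f : C(X, Y)) :
    (p.symm).map f = (p.map f).symm := by
  induction p using Path.Homotopic.Quotient.ind
  simp only [← Path.Homotopic.Quotient.mk_symm, ← Path.Homotopic.Quotient.mk_map,
    Path.map_symm]

lemma q_trans_symm_cancel {a b c : X} (p : Q a b) (q : Q a c) :
    p.trans (p.symm.trans q) = q := by
  rw [← Path.Homotopic.Quotient.trans_assoc]; simp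

lemma q_symm_trans_cancel {a b c : X} (p : Q a b) (q : Q b c) :
    p.symm.trans (p.trans q) = q := by
  rw [← Path.Homotopic.Quotient.trans_assoc]; simp

lemma q_symm_trans {a b c : X} (p : Q a b) (q : Q b c) :
    (p.trans q).symm = q.symm.trans p.symm := by
  have h : (p.trans q).trans (q.symm.trans p.symm) = Path.Homotopic.Quotient.refl a := by
    rw [Path.Homotopic.Quotient.trans_assoc, q_trans_symm_cancel]; simp
  calc (p.trans q).symm
      = (p.trans q).symm.trans ((p.trans q).trans (q.symm.trans p.symm)) := by rw [h]; simp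
    _ = q.symm.trans p.symm := q_symm_trans_cancel _ _

/-- surjectivity on fundamental groups from a one-sided homotopy inverse -/
lemma surj_of_homotopy (f : C(X, Y)) (g : C(Y, X))
    (H : (f.comp g).Homotopy (ContinuousMap.id Y)) (x : X) (sg : Path x (g (f x)))
    (L : Q (f x) (f x)) : ∃ α : Q x x, α.map f = L := by
  let τ : Q (f (g (f x))) (f x) := Path.Homotopic.Quotient.mk (H.evalAt (f x))
  have key : ∀ M : Q (f x) (f x), ((M.map g).map f).trans τ = τ.trans M := by
    intro M
    induction M using Path.Homotopic.Quotient.ind with | mk M =>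
    have := Path.Homotopic.map_trans_evalAt H M
    exact Path.Homotopic.Quotient.eq.mpr this
  clear_value τ
  set s : Q x (g (f x)) := Path.Homotopic.Quotient.mk sg
  set κ : Q (f x) (f x) := (s.map f).trans τ with hκ
  refine ⟨s.trans (((κ.symm.trans (L.trans κ)).map g).trans s.symm), ?_⟩
  have h1 : ∀ M : Q (f x) (f x), (M.map g).map f = τ.trans (M.trans τ.symm) := by
    intro M
    have := key M
    rw [← Path.Homotopic.Quotient.trans_assoc, ← this, Path.Homotopic.Quotient.trans_assoc]
    simp
  rw [qmap_trans, qmap_trans, h1, qmap_symm, hκ, q_symm_trans]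
  simp only [Path.Homotopic.Quotient.trans_assoc, q_trans_symm_cancel,
    Path.Homotopic.Quotient.trans_symm, Path.Homotopic.Quotient.trans_refl]

/-- the action of a pair of path classes through a continuous map of two variables -/
def act {Z : Type*} [TopologicalSpace Z] (μ : C(X × Y, Z)) {a b : X} {c d : Y}
    (p : Q a b) (q : Q c d) : Q (μ (a, c)) (μ (b, d)) :=
  (Path.Homotopic.prod p q).map μ

lemma act_trans {Z : Type*} [TopologicalSpace Z] (μ : C(X × Y, Z)) {a b e : X} {c d k : Y}
    (p : Q a b) (q : Q c d) (p' : Q b e) (q' : Q d k) :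
    (act μ p q).trans (act μ p' q') = act μ (p.trans p') (q.trans q') := by
  unfold act
  rw [← qmap_trans]
  congr 1
  exact Path.Homotopic.comp_prod_eq_prod_comp p q p' q'

lemma act_refl {Z : Type*} [TopologicalSpace Z] (μ : C(X × Y, Z)) (a : X) (c : Y) :
    act μ (Path.Homotopic.Quotient.refl a) (Path.Homotopic.Quotient.refl c)
      = Path.Homotopic.Quotient.refl (μ (a, c)) := rfl

lemma tri_obstruction (μ : C(X × Y, X)) (c : Y) {a b d : X} (D1 : Q a b) (D2 : Q b d)
    (D3 : Q a d)
    (hs : ∀ L : Q (μ (a, c)) (μ (a, c)), ∃ ζ : Q c c,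
      act μ (Path.Homotopic.Quotient.refl a) ζ = L) :
    ∃ ζ : Q c c, ∀ α1 α2 α3 : Q c c,
      ζ.trans ((α1.trans α2).trans α3.symm) = Path.Homotopic.Quotient.refl c →
      (act μ D1 α1).trans (act μ D2 α2) = act μ D3 α3 := by
  obtain ⟨ζ, hζ⟩ := hs (act μ ((D1.trans D2).trans D3.symm) (Path.Homotopic.Quotient.refl c))
  refine ⟨ζ, fun α1 α2 α3 h => ?_⟩
  have h1 : act μ ((D1.trans D2).trans D3.symm) ((α1.trans α2).trans α3.symm)
      = Path.Homotopic.Quotient.refl _ := by
    have : act μ ((D1.trans D2).trans D3.symm) ((α1.trans α2).trans α3.symm)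
        = (act μ ((D1.trans D2).trans D3.symm) (Path.Homotopic.Quotient.refl c)).trans
          (act μ (Path.Homotopic.Quotient.refl a) ((α1.trans α2).trans α3.symm)) := by
      rw [act_trans]; simp
    rw [this, ← hζ, act_trans, h]
    simp [act_refl]
  have h2 : (act μ ((D1.trans D2).trans D3.symm) ((α1.trans α2).trans α3.symm)).trans
      (act μ D3 α3) = act μ (D1.trans D2) (α1.trans α2) := by
    rw [act_trans]; simp
  rw [act_trans, ← h2, h1]; simp

/-- the fundamental group of a loop space at the constant loop is commutative -/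
lemma loop_comm (e : X) (α β : Q (Path.refl e) (Path.refl e)) : α.trans β = β.trans α := by
  let μ : C(Path e e × Path e e, Path e e) := HSpace.hmul
  have hc : Path.refl e = μ (Path.refl e, Path.refl e) := (HSpace.hmul_e_e (X := Path e e)).symm
  have hl : ∀ β : Q (Path.refl e) (Path.refl e),
      act μ (Path.Homotopic.Quotient.refl (Path.refl e)) β = β.cast hc.symm hc.symm := by
    intro β
    induction β using Path.Homotopic.Quotient.ind with | mk β =>
    refine Path.Homotopic.Quotient.eq.mpr ⟨?_⟩
    let F := (HSpace.eHmul (X := Path e e))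
    refine ⟨⟨⟨fun z => F (z.1, β z.2), by fun_prop⟩, fun t => ?_, fun t => ?_⟩, ?_⟩
    · exact F.map_zero_left _
    · exact F.map_one_left _
    · intro t s hs
      have hb : β s = HSpace.e := by
        rcases hs with rfl | hs
        · exact β.source
        · rw [Set.mem_singleton_iff.mp hs]; exact β.target
      exact F.eq_fst t hb
  have hr : ∀ β : Q (Path.refl e) (Path.refl e),
      act μ β (Path.Homotopic.Quotient.refl (Path.refl e)) = β.cast hc.symm hc.symm := by
    intro β
    induction β using Path.Homotopic.Quotient.ind with | mk β =>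
    refine Path.Homotopic.Quotient.eq.mpr ⟨?_⟩
    let F := (HSpace.hmulE (X := Path e e))
    refine ⟨⟨⟨fun z => F (z.1, β z.2), by fun_prop⟩, fun t => ?_, fun t => ?_⟩, ?_⟩
    · exact F.map_zero_left _
    · exact F.map_one_left _
    · intro t s hs
      have hb : β s = HSpace.e := by
        rcases hs with rfl | hs
        · exact β.source
        · rw [Set.mem_singleton_iff.mp hs]; exact β.target
      exact F.eq_fst t hb
  have h1 := act_trans μ α (Path.Homotopic.Quotient.refl _) (Path.Homotopic.Quotient.refl _) β
  have h2 := act_trans μ (Path.Homotopic.Quotient.refl _) β α (Path.Homotopic.Quotient.refl _)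
  simp only [Path.Homotopic.Quotient.trans_refl, Path.Homotopic.Quotient.refl_trans] at h1 h2
  rw [← h2, hl, hr] at h1
  clear hl hr h2
  generalize μ (Path.refl e, Path.refl e) = m at hc h1
  subst hc
  simpa using h1

end groupoid

end Crest.Agent.Lead.CW
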