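import Crest.Agent.Lead.CWHomA

set_option autoImplicit false

open scoped unitInterval
open Set

noncomputable section

namespace Crest.Agent.Lead.CW

variable {E : Type} [TopologicalSpace E]

/-- clamp a real number to the unit interval -/
def pr (r : ℝ) : I := projIcc 0 1 zero_le_one r

@[fun_prop] lemma continuous_pr : Continuous pr := continuous_projIcc (h := zero_le_one)

lemma pr_of_le {r : ℝ} (h : r ≤ 0) : pr r = 0 := projIcc_of_le_left _ h
lemma pr_of_ge {r : ℝ} (h : 1 ≤ r) : pr r = 1 := projIcc_of_right_le _ h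
lemma pr_of_eq {r : ℝ} (t : I) (h : r = t) : pr r = t := by
  subst h; exact projIcc_val _ t
lemma pr_coe_of_mem {r : ℝ} (h0 : 0 ≤ r) (h1 : r ≤ 1) : (pr r : ℝ) = r := by
  unfold pr; rw [projIcc_of_mem _ ⟨h0, h1⟩]
@[simp] lemma pr_coe (t : I) : pr t = t := pr_of_eq t rfl
@[simp] lemma pr_zero : pr 0 = 0 := pr_of_le le_rfl
@[simp] lemma pr_one : pr 1 = 1 := pr_of_ge le_rfl

/-- paths that start in `T` and end at `e` -/
def Y (e : E) (T : Set E) : Type := {γ : C(I, E) // γ 0 ∈ T ∧ γ 1 = e}

instance (e : E) (T : Set E) : TopologicalSpace (Y e T) :=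
  inferInstanceAs (TopologicalSpace {γ : C(I, E) // γ 0 ∈ T ∧ γ 1 = e})

lemma Y.continuous_val (e : E) (T : Set E) : Continuous (fun γ : Y e T => γ.1) :=
  continuous_subtype_val

lemma Y.continuous_ev {e : E} {T : Set E} {Z : Type*} [TopologicalSpace Z] {f : Z → Y e T}
    {g : Z → I} (hf : Continuous f) (hg : Continuous g) : Continuous fun z => (f z).1 (g z) := by
  have := (Y.continuous_val e T).comp hf
  exact Continuous.eval this hg

/-- build a continuous map into `Y` from a jointly continuous family -/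
def Y.mkMap {e : E} {T : Set E} {Z : Type*} [TopologicalSpace Z] (F : Z × I → E)
    (hF : Continuous F) (h0 : ∀ z, F (z, 0) ∈ T) (h1 : ∀ z, F (z, 1) = e) : C(Z, Y e T) where
  toFun z := ⟨⟨fun t => F (z, t), by fun_prop⟩, h0 z, h1 z⟩
  continuous_toFun := by
    refine Continuous.subtype_mk ?_ _
    exact ContinuousMap.continuous_of_continuous_uncurry _ hF

@[simp] lemma Y.mkMap_apply {e : E} {T : Set E} {Z : Type*} [TopologicalSpace Z] (F : Z × I → E)
    (hF : Continuous F) (h0 : ∀ z, F (z, 0) ∈ T) (h1 : ∀ z, F (z, 1) = e) (z : Z) (t : I) :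
    (Y.mkMap F hF h0 h1 z).1 t = F (z, t) := rfl

lemma Y.ext {e : E} {T : Set E} {a b : Y e T} (h : ∀ t, a.1 t = b.1 t) : a = b :=
  Subtype.ext (ContinuousMap.ext h)

/-- inclusion -/
def Y.inc {e : E} {T T' : Set E} (h : T ⊆ T') : C(Y e T, Y e T') where
  toFun γ := ⟨γ.1, h γ.2.1, γ.2.2⟩
  continuous_toFun := Continuous.subtype_mk (Y.continuous_val e T) _

/-- concatenation with a loop -/
def mu (e : E) (T : Set E) : C(Y e T × Path e e, Y e T) :=
  Y.mkMap (fun z => if (z.2 : ℝ) ≤ 1 / 2 then z.1.1.1 (pr (2 * z.2)) else z.1.2 (pr (2 * z.2 - 1)))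
    (by
      refine Continuous.if_le ?_ ?_ (by fun_prop) continuous_const ?_
      · exact Y.continuous_ev (by fun_prop) (by fun_prop)
      · exact Continuous.eval (by fun_prop) (by fun_prop)
      · intro z hz
        rw [hz]; norm_num [z.1.1.2.2])
    (by intro z; simpa using z.1.2.1)
    (by intro z; norm_num)

lemma mu_apply (e : E) (T : Set E) (γ : Y e T) (ω : Path e e) (t : I) :
    (mu e T (γ, ω)).1 t = if (t : ℝ) ≤ 1 / 2 then γ.1 (pr (2 * t)) else ω (pr (2 * t - 1)) := rfl

section surj
variable {e : E} {T : Set E} (seg : C(T × I, T)) (q : Y e T)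

/-- the long path used for the homotopy inverse -/
def W (γ : Y e T) (r : ℝ) : E :=
  if r ≤ 1 then q.1 (pr (1 - r)) else
    if r ≤ 2 then (seg (⟨γ.1 0, γ.2.1⟩, pr (r - 1)) : E) else γ.1 (pr (r - 2))

variable (h0 : ∀ x, (seg (x, 0) : E) = q.1 0) (h1 : ∀ x, seg (x, 1) = x)

include h0 h1 in
lemma continuous_W : Continuous fun z : Y e T × ℝ => W seg q z.1 z.2 := by
  unfold W
  refine Continuous.if_le (by fun_prop) ?_ continuous_snd continuous_const ?_
  · refine Continuous.if_le ?_ ?_ continuous_snd continuous_const ?_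
    · refine continuous_subtype_val.comp (seg.continuous.comp (Continuous.prodMk ?_ (by fun_prop)))
      exact Continuous.subtype_mk (Y.continuous_ev continuous_fst continuous_const) _
    · exact Y.continuous_ev continuous_fst (by fun_prop)
    · intro z hz
      rw [hz]; norm_num [h1]
  · intro z hz
    rw [hz]; norm_num [h0]

include h0 h1 in
lemma mu_surj (hq : ∀ t, (seg (⟨q.1 0, q.2.1⟩, t) : E) = q.1 0)
    (L : Q (mu e T (q, Path.refl e)) (mu e T (q, Path.refl e))) :
    ∃ ζ : Q (Path.refl e) (Path.refl e), act (mu e T) (Path.Homotopic.Quotient.refl q) ζ = L := by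
  have hW := continuous_W seg q h0 h1
  have hW3 : ∀ γ : Y e T, W seg q γ 3 = e := by
    intro γ; unfold W; norm_num [γ.2.2]
  let f : C(Path e e, Y e T) := (mu e T).comp ((ContinuousMap.const _ q).prodMk (.id _))
  let g0 : Y e T → Path e e := fun γ =>
    { toFun := fun t => W seg q γ (3 * t)
      continuous_toFun := hW.comp (f := fun t : I => (γ, 3 * (t : ℝ))) (by fun_prop)
      source' := by unfold W; norm_num [q.2.2]
      target' := by simpa using hW3 γ }
  let g : C(Y e T, Path e e) := ⟨g0, Path.continuous_uncurry_iff.mp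
    (hW.comp (f := fun z : Y e T × I => (z.1, 3 * (z.2 : ℝ))) (by fun_prop))⟩
  let Hm : C(I × Y e T, Y e T) := Y.mkMap
    (fun z => W seg q z.1.2
      ((1 - z.1.1) * max (1 - 2 * (z.2 : ℝ)) (6 * z.2 - 3) + z.1.1 * (2 + z.2)))
    (hW.comp (f := fun z : (I × Y e T) × I => (z.1.2,
      ((1 - z.1.1) * max (1 - 2 * (z.2 : ℝ)) (6 * z.2 - 3) + z.1.1 * (2 + z.2)))) (by fun_prop))
    (by
      intro z
      have hs0 := z.1.2.1
      have hs1 := z.1.2.2
      have : (1 - (z.1 : ℝ)) * max (1 - 2 * ((0 : I) : ℝ)) (6 * ((0 : I) : ℝ) - 3)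
          + z.1 * (2 + ((0 : I) : ℝ)) = 1 + z.1 := by
        norm_num; ring
      simp only [this]
      unfold W
      split_ifs with a b
      · rw [pr_of_le (by linarith)]; exact q.2.1
      · exact (seg _).2
      · exact absurd (by linarith) b)
    (by
      intro z
      have : (1 - (z.1 : ℝ)) * max (1 - 2 * ((1 : I) : ℝ)) (6 * ((1 : I) : ℝ) - 3)
          + z.1 * (2 + ((1 : I) : ℝ)) = 3 := by
        norm_num; ring
      simp only [this]; exact hW3 _)
  let H : (f.comp g).Homotopy (ContinuousMap.id _) :=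
    { toContinuousMap := Hm
      map_zero_left := by
        intro γ
        refine Y.ext fun t => ?_
        have ht0 := t.2.1
        have ht1 := t.2.2
        change W seg q γ ((1 - ((0 : I) : ℝ)) * max (1 - 2 * (t : ℝ)) (6 * t - 3)
          + ((0 : I) : ℝ) * (2 + t)) = (mu e T (q, g0 γ)).1 t
        rw [mu_apply]
        split_ifs with a
        · rw [max_eq_left (by linarith)]
          unfold W
          rw [if_pos (by simp; linarith)]
          congr 2; simp
        · rw [max_eq_right (by linarith)]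
          change _ = W seg q γ (3 * (pr (2 * t - 1) : ℝ))
          rw [pr_coe_of_mem (by linarith) (by linarith)]
          congr 1; simp; ring
      map_one_left := by
        intro γ
        refine Y.ext fun t => ?_
        have ht0 := t.2.1
        have ht1 := t.2.2
        change W seg q γ ((1 - ((1 : I) : ℝ)) * max (1 - 2 * (t : ℝ)) (6 * t - 3)
          + ((1 : I) : ℝ) * (2 + t)) = γ.1 t
        have : ((1 - ((1 : I) : ℝ)) * max (1 - 2 * (t : ℝ)) (6 * t - 3)
          + ((1 : I) : ℝ) * (2 + t)) = 2 + t := by simp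
        rw [this]
        unfold W
        rw [if_neg (by linarith)]
        split_ifs with a
        · have : t = 0 := Subtype.ext (by change (t : ℝ) = 0; linarith)
          subst this
          norm_num [h1]
        · congr 1; exact pr_of_eq t (by ring) }
  have hform : ∀ r : ℝ, 0 ≤ r → r ≤ 3 →
      W seg q (f (Path.refl e)) r = q.1 (pr (max (1 - r) (2 * r - 4))) := by
    intro r hr0 hr3
    have hf0 : (f (Path.refl e)).1 0 = q.1 0 := by
      change (mu e T (q, Path.refl e)).1 0 = _
      rw [mu_apply]; simp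
    unfold W
    split_ifs with a b
    · rw [max_eq_left (by linarith)]
    · rw [pr_of_le (r := max _ _) (max_le (by linarith) (by linarith))]
      have : (⟨(f (Path.refl e)).1 0, (f (Path.refl e)).2.1⟩ : T) = ⟨q.1 0, q.2.1⟩ :=
        Subtype.ext hf0
      rw [this, hq]
    · change (mu e T (q, Path.refl e)).1 _ = _
      rw [mu_apply, max_eq_right (by linarith), pr_coe_of_mem (by linarith) (by linarith)]
      split_ifs with c
      · congr 2; ring
      · rw [pr_of_ge (r := 2 * r - 4) (by linarith), q.2.2]; rfl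
  let s0 : I → Path e e := fun s =>
    { toFun := fun t => q.1 (pr ((1 - s) + s * max (1 - 3 * (t : ℝ)) (2 * (3 * t) - 4)))
      continuous_toFun := by fun_prop
      source' := by norm_num [q.2.2]
      target' := by
        have hs := s.2.1
        rw [pr_of_ge (by norm_num; linarith), q.2.2] }
  let sg : Path (Path.refl e) (g (f (Path.refl e))) :=
    { toFun := s0
      continuous_toFun := Path.continuous_uncurry_iff.mp (by
        change Continuous fun z : I × I =>
          q.1 (pr ((1 - z.1) + z.1 * max (1 - 3 * (z.2 : ℝ)) (2 * (3 * z.2) - 4)))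
        fun_prop)
      source' := by
        ext t
        change q.1 (pr ((1 - ((0 : I) : ℝ)) + ((0 : I) : ℝ) * _)) = e
        norm_num [q.2.2]
      target' := by
        ext t
        change q.1 (pr ((1 - ((1 : I) : ℝ)) + ((1 : I) : ℝ) * _)) = W seg q _ (3 * t)
        rw [hform _ (by linarith [t.2.1]) (by linarith [t.2.2])]
        norm_num }
  obtain ⟨α, hα⟩ := surj_of_homotopy f g H (Path.refl e) sg L
  refine ⟨α, ?_⟩
  rw [← hα]
  induction α using Path.Homotopic.Quotient.ind with | mk α => rfl

end surj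

end Crest.Agent.Lead.CW
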