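import Crest.Agent.Lead.CWHomB

set_option autoImplicit false

open scoped unitInterval
open Set

noncomputable section

namespace Crest.Agent.Lead.CW

variable {E : Type} [TopologicalSpace E]

/-- a path to `e` starting in `T` as a point of `Y e T` -/
def toY {e : E} {T : Set E} {a : E} (ha : a ∈ T) (p : Path a e) : Y e T :=
  ⟨p.toContinuousMap, by simpa using ha, by simp⟩

lemma joined_edge {e a b : E} {S : Set E} (ha : a ∈ S) (hb : b ∈ S) (ep : Path a b)
    (hep : ∀ s, ep s ∈ S) (p : Path a e) (p' : Path b e) (h : p.Homotopic (ep.trans p')) :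
    Joined (toY ha p) (toY hb p') := by
  obtain ⟨F⟩ := h
  have j1 : Joined (toY ha p) (toY ha (ep.trans p')) := by
    let M : C(I, Y e S) := Y.mkMap (fun z : I × I => F z) F.continuous
      (by intro z; simpa using ha) (by intro z; simp)
    refine ⟨⟨M, ?_, ?_⟩⟩
    · exact Y.ext fun t => F.map_zero_left t
    · exact Y.ext fun t => F.map_one_left t
  have j2 : Joined (toY ha (ep.trans p')) (toY hb p') := by
    let M : C(I, Y e S) := Y.mkMap
      (fun z : I × I => (ep.trans p') (pr ((1 - z.1) * z.2 + z.1 * ((1 + z.2) / 2))))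
      (by fun_prop)
      (by
        intro s
        have hs0 := s.2.1
        have hs1 := s.2.2
        have hc : ((pr ((1 - s) * ((0 : I) : ℝ) + s * ((1 + ((0 : I) : ℝ)) / 2))) : ℝ) = s / 2 := by
          rw [pr_coe_of_mem] <;> simp <;> linarith
        simp only [Path.trans_apply]
        rw [dif_pos (by rw [hc]; linarith)]
        exact hep _)
      (by
        intro s
        rw [pr_of_ge (by simp)]; simp)
    refine ⟨⟨M, ?_, ?_⟩⟩
    · refine Y.ext fun t => ?_
      change (ep.trans p') (pr ((1 - ((0 : I) : ℝ)) * t + ((0 : I) : ℝ) * ((1 + t) / 2)))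
        = (ep.trans p') t
      simp
    · refine Y.ext fun t => ?_
      have ht0 := t.2.1
      have ht1 := t.2.2
      change (ep.trans p') (pr ((1 - ((1 : I) : ℝ)) * t + ((1 : I) : ℝ) * ((1 + t) / 2))) = p' t
      have hc : ((pr ((1 - ((1 : I) : ℝ)) * t + ((1 : I) : ℝ) * ((1 + t) / 2))) : ℝ)
          = (1 + t) / 2 := by
        rw [pr_coe_of_mem] <;> simp <;> linarith
      simp only [Path.trans_apply]
      split_ifs with c
      · rw [hc] at c
        have : t = 0 := Subtype.ext (by change (t : ℝ) = 0; linarith)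
        subst this
        have : (⟨2 * ((pr ((1 - ((1 : I) : ℝ)) * ((0 : I) : ℝ)
            + ((1 : I) : ℝ) * ((1 + ((0 : I) : ℝ)) / 2))) : ℝ),
            (unitInterval.mul_pos_mem_iff zero_lt_two).2 ⟨(pr _).2.1, by rw [hc]; simp⟩⟩ : I)
            = 1 := Subtype.ext (by simp only [hc]; simp)
        rw [this]; simp
      · congr 1
        exact Subtype.ext (by simp only [hc]; ring)
  exact j1.trans j2

/-- lazy clamp -/
def kap (r : ℝ) : I := pr (3 * r - 1)

@[fun_prop] lemma continuous_kap : Continuous kap := by unfold kap; fun_prop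

theorem core {V : Type} (e : E) (pt : V → E) (Ed : V → V → Prop) (Tr : V → V → V → Prop)
    (eS : V → V → Set E) (tS : V → V → V → Set E)
    (hTE : ∀ u v w, Tr u v w → Ed u v ∧ Ed v w ∧ Ed u w)
    (ep : ∀ u v, Ed u v → Path (pt u) (pt v))
    (hep : ∀ u v h s, ep u v h s ∈ eS u v)
    (hsub : ∀ u v w, Tr u v w → eS u v ⊆ tS u v w ∧ eS v w ⊆ tS u v w ∧ eS u w ⊆ tS u v w)
    (hseg : ∀ u v w, Tr u v w → ∃ seg : C(tS u v w × I, tS u v w),
      (∀ x, (seg (x, 0) : E) = pt u) ∧ (∀ x, seg (x, 1) = x) ∧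
      ∀ (x : tS u v w) t, (x : E) = pt u → (seg (x, t) : E) = pt u)
    (hhom : ∀ u v w (h : Tr u v w), ((ep u v (hTE u v w h).1).trans
      (ep v w (hTE u v w h).2.1)).Homotopic (ep u w (hTE u v w h).2.2))
    (hj : ∀ u, Joined (pt u) e)
    (H1 : ∀ (H : Type) [Group H] (c : V → V → H), (∀ u v w, Tr u v w → c u v * c v w = c u w) →
      ∃ k : V → H, ∀ u v, Ed u v → c u v = (k u)⁻¹ * k v)
    (H2 : ∀ (A : Type) [AddCommGroup A] (z : V → V → V → A), ∃ α : V → V → A,
      ∀ u v w, Tr u v w → α u v + α v w - α u w = z u v w) :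
    ∃ (p : V → C(I, E)) (D : V → V → C(I, C(I, E))) (K : V → V → V → C(ℝ × ℝ, C(I, E))),
      (∀ u, p u 0 = pt u ∧ p u 1 = e) ∧
      (∀ u v, Ed u v → D u v 0 = p u ∧ D u v 1 = p v ∧
        ∀ s, D u v s 0 ∈ eS u v ∧ D u v s 1 = e) ∧
      (∀ u v w, Tr u v w → (∀ z, K u v w z 0 ∈ tS u v w ∧ K u v w z 1 = e) ∧
        (∀ s, K u v w (s, 0) = D u v (kap s)) ∧ (∀ t, K u v w (1, t) = D v w (kap t)) ∧
        (∀ s, K u v w (s, 1) = D u w (kap s)) ∧
        (∀ s t, s ≤ 1 / 3 → K u v w (s, t) = p u)) := by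
  classical
  -- step 0/1 : vertex paths
  let P0 : ∀ u, Q (pt u) e := fun u => Path.Homotopic.Quotient.mk (hj u).somePath
  let eq' : ∀ u v, Ed u v → Q (pt u) (pt v) := fun u v h => Path.Homotopic.Quotient.mk (ep u v h)
  let c : V → V → FundamentalGroup E e := fun u v =>
    if h : Ed u v then (((P0 u).symm.trans ((eq' u v h).trans (P0 v))).symm : Q e e) else 1
  have hc : ∀ u v w, Tr u v w → c u v * c v w = c u w := by
    intro u v w h
    obtain ⟨h1, h2, h3⟩ := hTE u v w h
    have hh : (eq' u v h1).trans (eq' v w h2) = eq' u w h3 :=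
      Path.Homotopic.Quotient.eq.mpr (hhom u v w h)
    simp only [c, dif_pos h1, dif_pos h2, dif_pos h3]
    rw [FundamentalGroup.mul_def, ← q_symm_trans, ← hh]
    simp only [Path.Homotopic.Quotient.trans_assoc, q_trans_symm_cancel]
  obtain ⟨k, hk⟩ := H1 _ c hc
  let P1 : ∀ u, Q (pt u) e := fun u => (P0 u).trans (k u : Q e e)
  have hP1 : ∀ u v (h : Ed u v), P1 u = (eq' u v h).trans (P1 v) := by
    intro u v h
    have h1 := hk u v h
    simp only [c, dif_pos h] at h1
    rw [FundamentalGroup.mul_def, FundamentalGroup.inv_def] at h1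
    have h2 : (P0 u).symm.trans ((eq' u v h).trans (P0 v))
        = Path.Homotopic.Quotient.trans (k u : Q e e) (Path.Homotopic.Quotient.symm (k v)) := by
      have h3 : ∀ {a b : E} (x : Q a b), x.symm.symm = x := by
        intro a b x
        induction x using Path.Homotopic.Quotient.ind
        simp only [← Path.Homotopic.Quotient.mk_symm, Path.symm_symm]
      rw [← h3 ((P0 u).symm.trans ((eq' u v h).trans (P0 v))), h1, q_symm_trans, h3]
    have h4 : (eq' u v h).trans (P0 v) = (P0 u).trans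
        (Path.Homotopic.Quotient.trans (k u : Q e e) (Path.Homotopic.Quotient.symm (k v))) := by
      rw [← h2, q_trans_symm_cancel]
    simp only [P1]
    rw [← Path.Homotopic.Quotient.trans_assoc, h4]
    simp
  choose p1 hp1 using fun u => Path.Homotopic.Quotient.mk_surjective (P1 u)
  have hm0 : ∀ u v, Ed u v → pt u ∈ eS u v := fun u v h => by simpa using hep u v h 0
  have hm1 : ∀ u v, Ed u v → pt v ∈ eS u v := fun u v h => by simpa using hep u v h 1
  have hjoin : ∀ u v (h : Ed u v), Joined (toY (hm0 u v h) (p1 u)) (toY (hm1 u v h) (p1 v)) := by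
    intro u v h
    refine joined_edge _ _ (ep u v h) (hep u v h) _ _ ?_
    refine Path.Homotopic.Quotient.eq.mp ?_
    rw [Path.Homotopic.Quotient.mk_trans, hp1, hp1]
    exact hP1 u v h
  let D0 : ∀ u v (h : Ed u v), Path (toY (hm0 u v h) (p1 u)) (toY (hm1 u v h) (p1 v)) :=
    fun u v h => (hjoin u v h).somePath
  -- step 2 : obstruction
  have hobs : ∀ u v w (h : Tr u v w), ∃ ζ : Q (Path.refl e) (Path.refl e),
      ∀ α1 α2 α3 : Q (Path.refl e) (Path.refl e),
      ζ.trans ((α1.trans α2).trans α3.symm) = Path.Homotopic.Quotient.refl _ →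
      (act (mu e (tS u v w)) ((Path.Homotopic.Quotient.mk (D0 u v (hTE u v w h).1)).map
          (Y.inc (hsub u v w h).1)) α1).trans
        (act (mu e (tS u v w)) ((Path.Homotopic.Quotient.mk (D0 v w (hTE u v w h).2.1)).map
          (Y.inc (hsub u v w h).2.1)) α2)
        = act (mu e (tS u v w)) ((Path.Homotopic.Quotient.mk (D0 u w (hTE u v w h).2.2)).map
          (Y.inc (hsub u v w h).2.2)) α3 := by
    intro u v w h
    obtain ⟨seg, s0, s1, s2⟩ := hseg u v w h
    refine tri_obstruction (mu e (tS u v w)) (Path.refl e) _ _ _ ?_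
    intro L
    have hq0 : (Y.inc (hsub u v w h).1 (toY (hm0 u v (hTE u v w h).1) (p1 u))).1 0 = pt u :=
      (p1 u).source
    refine mu_surj seg _ ?_ s1 ?_ L
    · intro x; rw [s0, hq0]
    · intro t; rw [s2 _ _ hq0, hq0]
  choose ζ hζ using hobs
  let _ : CommGroup (FundamentalGroup (Path e e) (Path.refl e)) :=
    { (inferInstance : Group (FundamentalGroup (Path e e) (Path.refl e))) with
      mul_comm := fun a b => loop_comm e b a }
  obtain ⟨α, hα⟩ := H2 (Additive (FundamentalGroup (Path e e) (Path.refl e)))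
    (fun u v w => if h : Tr u v w then
      - Additive.ofMul (FundamentalGroup.fromPath (ζ u v w h)) else 0)
  choose a ha using fun u v => Path.Homotopic.Quotient.mk_surjective
    (Additive.toMul (α u v) : Q (Path.refl e) (Path.refl e))
  have hrel : ∀ u v w (h : Tr u v w), (ζ u v w h).trans
      (((Path.Homotopic.Quotient.mk (a u v)).trans (Path.Homotopic.Quotient.mk (a v w))).trans
        (Path.Homotopic.Quotient.mk (a u w)).symm) = Path.Homotopic.Quotient.refl _ := by
    intro u v w h
    have h1 := hα u v w h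
    rw [dif_pos h] at h1
    rw [ha, ha, ha]
    have h2 : (Additive.toMul (α u w))⁻¹ * (Additive.toMul (α v w) * Additive.toMul (α u v))
        * FundamentalGroup.fromPath (ζ u v w h) = 1 := by
      have h3 : - α u w + (α v w + α u v)
          + Additive.ofMul (FundamentalGroup.fromPath (ζ u v w h)) = 0 := by
        have := add_eq_zero_iff_eq_neg.mpr h1
        rw [← this]; abel
      exact congrArg Additive.toMul h3
    exact h2
  have hΓ := fun u v w (h : Tr u v w) => Path.Homotopic.Quotient.eq.mp (hζ u v w h _ _ _ (hrel u v w h))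
  let p : V → C(I, E) := fun u => (mu e univ (toY (mem_univ _) (p1 u), Path.refl e)).1
  let D : V → V → C(I, C(I, E)) := fun u v => if h : Ed u v then
    ⟨fun s => (mu e (eS u v) (D0 u v h s, a u v s)).1,
      (Y.continuous_val _ _).comp ((mu e (eS u v)).continuous.comp (by fun_prop))⟩
    else ContinuousMap.const _ (p u)
  have hD : ∀ u v (h : Ed u v) s, D u v s = (mu e (eS u v) (D0 u v h s, a u v s)).1 := by
    intro u v h s; simp only [D, dif_pos h]; rfl
  have hD0 : ∀ u v (h : Ed u v), D u v 0 = p u := by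
    intro u v h; rw [hD u v h, (D0 u v h).source, (a u v).source]; rfl
  have hD1 : ∀ u v (h : Ed u v), D u v 1 = p v := by
    intro u v h; rw [hD u v h, (D0 u v h).target, (a u v).target]; rfl
  let K : V → V → V → C(ℝ × ℝ, C(I, E)) := fun u v w => if h : Tr u v w then
    ⟨fun z => ((hΓ u v w h).some (pr (3 * z.2 - 2), pr (kap z.1 * (1 + kap z.2) / 2))).1,
      (Y.continuous_val _ _).comp ((hΓ u v w h).some.continuous.comp (by fun_prop))⟩
    else ContinuousMap.const _ (p u)
  have hK : ∀ u v w (h : Tr u v w) z, K u v w z =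
      ((hΓ u v w h).some (pr (3 * z.2 - 2), pr (kap z.1 * (1 + kap z.2) / 2))).1 := by
    intro u v w h z; simp only [K, dif_pos h]; rfl
  refine ⟨p, D, K, fun u => ⟨?_, (mu e univ _).2.2⟩, fun u v h => ⟨hD0 u v h, hD1 u v h, ?_⟩,
    fun u v w h => ⟨fun z => ?_, fun s => ?_, fun t => ?_, fun s => ?_, fun s t hs => ?_⟩⟩
  · change (mu e univ (toY (mem_univ _) (p1 u), Path.refl e)).1 0 = _
    rw [mu_apply]; simp [toY]
  · intro s; rw [hD u v h]; exact (mu e _ _).2
  · rw [hK u v w h]; exact ((hΓ u v w h).some _).2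
  · obtain ⟨h1, h2, h3⟩ := hTE u v w h
    have k0 := (kap s).2.1
    have k1 := (kap s).2.2
    have e0 : kap 0 = 0 := pr_of_le (by norm_num)
    rw [hK u v w h, hD u v h1, pr_of_le (by norm_num), ContinuousMap.HomotopyWith.apply_zero]
    have hc : ((pr (kap s * (1 + kap (0 : ℝ)) / 2)) : ℝ) = kap s / 2 := by
      rw [e0, pr_coe_of_mem] <;> simp <;> linarith
    change (Path.trans _ _ (pr (kap s * (1 + kap (0 : ℝ)) / 2)) : Y e (tS u v w)).1 = _
    rw [Path.trans_apply, dif_pos (by rw [hc]; linarith)]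
    have : (⟨2 * ((pr (kap s * (1 + kap (0 : ℝ)) / 2)) : ℝ),
      (unitInterval.mul_pos_mem_iff zero_lt_two).2 ⟨(pr _).2.1, by rw [hc]; linarith⟩⟩ : I)
        = kap s := Subtype.ext (by simp only [hc]; ring)
    rw [this]; rfl
  · obtain ⟨h1, h2, h3⟩ := hTE u v w h
    have k0 := (kap t).2.1
    have k1 := (kap t).2.2
    have e1 : kap 1 = 1 := pr_of_ge (by norm_num)
    rw [hK u v w h]
    by_cases ht : t ≤ 2 / 3
    · rw [hD v w h2, pr_of_le (by simp; linarith), ContinuousMap.HomotopyWith.apply_zero]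
      have hc : ((pr (kap 1 * (1 + kap t) / 2)) : ℝ) = (1 + kap t) / 2 := by
        rw [e1, pr_coe_of_mem] <;> simp <;> linarith
      change (Path.trans _ _ (pr (kap 1 * (1 + kap t) / 2)) : Y e (tS u v w)).1 = _
      rw [Path.trans_apply]
      split_ifs with c
      · rw [hc] at c
        have hk : kap t = 0 := Subtype.ext (by change (kap t : ℝ) = 0; linarith)
        have : (⟨2 * ((pr (kap 1 * (1 + kap t) / 2)) : ℝ),
          (unitInterval.mul_pos_mem_iff zero_lt_two).2 ⟨(pr _).2.1, by rw [hc]; linarith⟩⟩ : I)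
            = 1 := Subtype.ext (by simp only [hc]; rw [hk]; simp)
        rw [this, Path.target, hk, (D0 v w h2).source, (a v w).source]; rfl
      · have : (⟨2 * ((pr (kap 1 * (1 + kap t) / 2)) : ℝ) - 1,
          unitInterval.two_mul_sub_one_mem_iff.2 ⟨(not_le.1 c).le, (pr _).2.2⟩⟩ : I)
            = kap t := Subtype.ext (by simp only [hc]; ring)
        rw [this]; rfl
    · have hk : kap t = 1 := pr_of_ge (by linarith)
      rw [hk, hD1 v w h2, e1, pr_of_ge (r := _ / 2) (by norm_num)]
      exact congrArg Subtype.val ((hΓ u v w h).some.target _)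
  · obtain ⟨h1, h2, h3⟩ := hTE u v w h
    have e1 : kap 1 = 1 := pr_of_ge (by norm_num)
    rw [hK u v w h, hD u w h3, pr_of_ge (by norm_num), ContinuousMap.HomotopyWith.apply_one, e1,
      pr_of_eq (kap s) (by simp; ring)]
    rfl
  · have hk : kap s = 0 := pr_of_le (by linarith)
    rw [hK u v w h, hk, pr_of_le (r := _ / 2) (by simp)]
    exact congrArg Subtype.val ((hΓ u v w h).some.source _)

end Crest.Agent.Lead.CW
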