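import Crest.Agent.Lead.CWHomC

set_option autoImplicit false

open scoped unitInterval
open Set

noncomputable section

namespace Crest.Agent.Lead.CW

open Classical in
/-- vertex as a point of `V → ℝ` -/
def dl {V : Type} (u : V) : V → ℝ := fun y => if y = u then 1 else 0

lemma dl_self {V : Type} (u : V) : dl u u = 1 := by simp [dl]
lemma dl_ne {V : Type} {u y : V} (h : y ≠ u) : dl u y = 0 := by simp [dl, h]

/-- closed (possibly degenerate) triangle -/
def tri {V : Type} (u v w : V) : Set (V → ℝ) :=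
  {x | ∃ a b c : ℝ, 0 ≤ a ∧ 0 ≤ b ∧ 0 ≤ c ∧ a + b + c = 1 ∧ x = a • dl u + b • dl v + c • dl w}

section tri
variable {V : Type}

lemma tri_supp {u v w y : V} {x : V → ℝ} (hx : x ∈ tri u v w) (hy : x y ≠ 0) :
    y = u ∨ y = v ∨ y = w := by
  obtain ⟨a, b, c, -, -, -, -, rfl⟩ := hx
  by_contra h
  push Not at h
  apply hy
  simp [dl_ne h.1, dl_ne h.2.1, dl_ne h.2.2]

lemma tri_exists {u v w : V} {x : V → ℝ} (hx : x ∈ tri u v w) : ∃ y, x y ≠ 0 := by
  obtain ⟨a, b, c, ha, hb, hc, hs, rfl⟩ := hx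
  by_contra h
  push Not at h
  have n : ∀ (p y : V), 0 ≤ dl p y := by
    intro p y; unfold dl; split_ifs <;> norm_num
  have h1 := h u
  have h2 := h v
  have h3 := h w
  simp only [Pi.add_apply, Pi.smul_apply, smul_eq_mul, dl_self] at h1 h2 h3
  nlinarith [mul_nonneg hb (n v u), mul_nonneg hc (n w u), mul_nonneg ha (n u v),
    mul_nonneg hc (n w v), mul_nonneg ha (n u w), mul_nonneg hb (n v w)]

lemma tri_convex (u v w : V) {x y : V → ℝ} (hx : x ∈ tri u v w) (hy : y ∈ tri u v w) (t : I) :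
    (1 - (t : ℝ)) • x + (t : ℝ) • y ∈ tri u v w := by
  obtain ⟨a, b, c, ha, hb, hc, hs, rfl⟩ := hx
  obtain ⟨a', b', c', ha', hb', hc', hs', rfl⟩ := hy
  have h0 := t.2.1
  have h1 : 0 ≤ 1 - (t : ℝ) := by linarith [t.2.2]
  refine ⟨(1 - t) * a + t * a', (1 - t) * b + t * b', (1 - t) * c + t * c', by positivity,
    by positivity, by positivity, ?_, ?_⟩
  · linear_combination (1 - (t : ℝ)) * hs + (t : ℝ) * hs'
  · module

lemma dl_mem_tri (u v w : V) : dl u ∈ tri u v w :=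
  ⟨1, 0, 0, by norm_num, le_rfl, le_rfl, by norm_num, by simp⟩

lemma tri_self {u : V} {x : V → ℝ} (hx : x ∈ tri u u u) : x = dl u := by
  obtain ⟨a, b, c, -, -, -, hs, rfl⟩ := hx
  rw [← add_smul, ← add_smul, hs, one_smul]

lemma tri_isCompact (u v w : V) : IsCompact (tri u v w) := by
  have : tri u v w = (fun z : ℝ × ℝ × ℝ => z.1 • dl u + z.2.1 • dl v + z.2.2 • dl w) ''
      ((Icc 0 1 ×ˢ Icc 0 1 ×ˢ Icc 0 1) ∩ {z | z.1 + z.2.1 + z.2.2 = 1}) := by
    ext x
    constructor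
    · rintro ⟨a, b, c, ha, hb, hc, hs, rfl⟩
      exact ⟨(a, b, c), ⟨⟨⟨ha, by linarith⟩, ⟨hb, by linarith⟩, ⟨hc, by linarith⟩⟩, hs⟩, rfl⟩
    · rintro ⟨⟨a, b, c⟩, ⟨⟨ha, hb, hc⟩, hs⟩, rfl⟩
      exact ⟨a, b, c, ha.1, hb.1, hc.1, hs, rfl⟩
  rw [this]
  refine IsCompact.image ?_ (by fun_prop)
  exact (isCompact_Icc.prod (isCompact_Icc.prod isCompact_Icc)).inter_right
    (isClosed_eq (by fun_prop) continuous_const)

lemma edge_sub1 (u v w : V) : tri u v v ⊆ tri u v w := by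
  rintro x ⟨a, b, c, ha, hb, hc, hs, rfl⟩
  exact ⟨a, b + c, 0, ha, by positivity, le_rfl, by linarith, by module⟩

lemma edge_sub2 (u v w : V) : tri v w w ⊆ tri u v w := by
  rintro x ⟨a, b, c, ha, hb, hc, hs, rfl⟩
  exact ⟨0, a, b + c, le_rfl, ha, by positivity, by linarith, by module⟩

lemma edge_sub3 (u v w : V) : tri u w w ⊆ tri u v w := by
  rintro x ⟨a, b, c, ha, hb, hc, hs, rfl⟩
  exact ⟨a, 0, b + c, ha, le_rfl, by positivity, by linarith, by module⟩

end tri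

/-- the combinatorial data of a coloured, locally finite 2-complex with a free action -/
structure Dat (G V : Type) [Group G] [MulAction G V] where
  col : V → Fin 3
  Ed : V → V → Prop
  Tr : V → V → V → Prop
  free : ∀ (g : G) (v : V), g • v = v → g = 1
  hcol : ∀ (g : G) (v : V), col (g • v) = col v
  hEd : ∀ (g : G) (u v : V), Ed u v → Ed (g • u) (g • v)
  hTr : ∀ (g : G) (u v w : V), Tr u v w → Tr (g • u) (g • v) (g • w)
  hlt : ∀ u v, Ed u v → col u < col v
  hTE : ∀ u v w, Tr u v w → Ed u v ∧ Ed v w ∧ Ed u w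
  hloc : ∀ u, {v | Ed u v ∨ Ed v u}.Finite

variable {G V : Type} [Group G] [MulAction G V]

namespace Dat
variable (D : Dat G V)

/-- `n`-simplices as triples -/
def Sn : ℕ → V → V → V → Prop
  | 0, u, v, w => u = v ∧ v = w
  | 1, u, v, w => D.Ed u v ∧ v = w
  | 2, u, v, w => D.Tr u v w
  | _ + 3, _, _, _ => False

def S (u v w : V) : Prop := ∃ n, D.Sn n u v w

lemma S_iff {u v w : V} : D.S u v w ↔ (u = v ∧ v = w) ∨ (D.Ed u v ∧ v = w) ∨ D.Tr u v w := by
  constructor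
  · rintro ⟨n, hn⟩
    match n, hn with
    | 0, h => exact Or.inl h
    | 1, h => exact Or.inr (Or.inl h)
    | 2, h => exact Or.inr (Or.inr h)
  · rintro (h | h | h)
    exacts [⟨0, h⟩, ⟨1, h⟩, ⟨2, h⟩]

lemma Sn_smul (g : G) {n : ℕ} {u v w : V} (h : D.Sn n u v w) : D.Sn n (g • u) (g • v) (g • w) := by
  match n, h with
  | 0, h => obtain ⟨rfl, rfl⟩ := h; exact ⟨rfl, rfl⟩
  | 1, ⟨h1, h2⟩ => exact ⟨D.hEd g _ _ h1, by rw [h2]⟩
  | 2, h => exact D.hTr g _ _ _ h

def adj (a b : V) : Prop := a = b ∨ D.Ed a b ∨ D.Ed b a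

lemma adj_finite (a : V) : {b | D.adj a b}.Finite := by
  refine ((D.hloc a).insert a).subset ?_
  rintro b (rfl | h)
  · exact Or.inl rfl
  · exact Or.inr h

lemma S_adj {u v w a b : V} (h : D.S u v w) (ha : a = u ∨ a = v ∨ a = w)
    (hb : b = u ∨ b = v ∨ b = w) : D.adj a b := by
  unfold adj
  rcases D.S_iff.mp h with ⟨rfl, rfl⟩ | ⟨h, rfl⟩ | h
  · grind
  · grind
  · obtain ⟨h1, h2, h3⟩ := D.hTE _ _ _ h
    grind

lemma adj_col {a b : V} (h : D.adj a b) (hc : D.col a = D.col b) : a = b := by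
  rcases h with h | h | h
  · exact h
  · exact absurd hc (D.hlt _ _ h).ne
  · exact absurd hc (D.hlt _ _ h).ne'

/-- the geometric realisation -/
def E : Type := {x : V → ℝ // ∃ u v w, D.S u v w ∧ x ∈ tri u v w}

instance : TopologicalSpace D.E :=
  inferInstanceAs (TopologicalSpace {x : V → ℝ // ∃ u v w, D.S u v w ∧ x ∈ tri u v w})

instance : T2Space D.E :=
  inferInstanceAs (T2Space {x : V → ℝ // ∃ u v w, D.S u v w ∧ x ∈ tri u v w})

variable {D}

@[fun_prop] lemma continuous_val : Continuous fun x : D.E => x.1 := continuous_subtype_val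

@[fun_prop] lemma continuous_ev (y : V) : Continuous fun x : D.E => x.1 y :=
  (continuous_apply y).comp continuous_val

lemma continuous_mk {Z : Type*} [TopologicalSpace Z] {f : Z → D.E}
    (h : Continuous fun z => (f z).1) : Continuous f :=
  continuous_induced_rng.mpr h

lemma E_adj (x : D.E) {a b : V} (ha : x.1 a ≠ 0) (hb : x.1 b ≠ 0) : D.adj a b := by
  obtain ⟨u, v, w, h, hx⟩ := x.2
  exact D.S_adj h (tri_supp hx ha) (tri_supp hx hb)

lemma E_exists (x : D.E) : ∃ y, x.1 y ≠ 0 := by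
  obtain ⟨u, v, w, -, hx⟩ := x.2
  exact tri_exists hx

variable (D)

def piece (s : {s : V × V × V // D.S s.1 s.2.1 s.2.2}) : Set D.E :=
  {x | x.1 ∈ tri s.1.1 s.1.2.1 s.1.2.2}

lemma piece_closed (s) : IsClosed (D.piece s) :=
  (tri_isCompact _ _ _).isClosed.preimage continuous_val

lemma piece_compact (s) : IsCompact (D.piece s) := by
  refine Topology.IsInducing.subtypeVal.isCompact_preimage' (tri_isCompact _ _ _) ?_
  intro x hx
  exact ⟨⟨x, _, _, _, s.2, hx⟩, rfl⟩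

lemma piece_cover : ⋃ s, D.piece s = univ := by
  refine eq_univ_of_forall fun x => ?_
  obtain ⟨u, v, w, h, hx⟩ := x.2
  exact mem_iUnion.mpr ⟨⟨(u, v, w), h⟩, hx⟩

lemma star_finite (y : V) :
    {s : {s : V × V × V // D.S s.1 s.2.1 s.2.2} | (D.piece s ∩ {x | x.1 y ≠ 0}).Nonempty}.Finite := by
  refine Finite.of_finite_image (f := Subtype.val) ?_ Subtype.val_injective.injOn
  refine ((D.adj_finite y).prod ((D.adj_finite y).prod (D.adj_finite y))).subset ?_
  rintro _ ⟨s, ⟨x, hx, hy⟩, rfl⟩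
  have := tri_supp hx hy
  exact ⟨D.S_adj s.2 this (by simp), D.S_adj s.2 this (by simp), D.S_adj s.2 this (by simp)⟩

lemma star_open (y : V) : IsOpen {x : D.E | x.1 y ≠ 0} :=
  isOpen_ne_fun (continuous_ev y) continuous_const

lemma piece_locFin : LocallyFinite D.piece := by
  intro x
  obtain ⟨y, hy⟩ := E_exists x
  exact ⟨_, (D.star_open y).mem_nhds hy, D.star_finite y⟩

lemma continuous_of_pieces {Z : Type*} [TopologicalSpace Z] {f : D.E → Z}
    (h : ∀ u v w, D.S u v w → ContinuousOn f {x | x.1 ∈ tri u v w}) : Continuous f :=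
  D.piece_locFin.continuous D.piece_cover D.piece_closed fun s => h _ _ _ s.2

instance : LocallyCompactSpace D.E := by
  have : WeaklyLocallyCompactSpace D.E := ⟨fun x => by
    obtain ⟨y, hy⟩ := E_exists x
    refine ⟨⋃ s ∈ {s | (D.piece s ∩ {x | x.1 y ≠ 0}).Nonempty}, D.piece s,
      (D.star_finite y).isCompact_biUnion fun s _ => D.piece_compact s, ?_⟩
    refine Filter.mem_of_superset ((D.star_open y).mem_nhds hy) fun z hz => ?_
    obtain ⟨u, v, w, h, hx⟩ := z.2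
    exact mem_iUnion₂.mpr ⟨⟨(u, v, w), h⟩, ⟨z, hx, hz⟩, hx⟩⟩
  infer_instance

lemma dl_smul (g : G) (u : V) : (fun y => dl u (g⁻¹ • y)) = dl (g • u) := by
  ext y
  unfold dl
  by_cases h : y = g • u
  · rw [if_pos h, if_pos (inv_smul_eq_iff.mpr h)]
  · rw [if_neg h, if_neg (fun h' => h (inv_smul_eq_iff.mp h'))]

lemma tri_smul (g : G) {u v w : V} {x : V → ℝ} (hx : x ∈ tri u v w) :
    (fun y => x (g⁻¹ • y)) ∈ tri (g • u) (g • v) (g • w) := by
  obtain ⟨a, b, c, ha, hb, hc, hs, rfl⟩ := hx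
  refine ⟨a, b, c, ha, hb, hc, hs, ?_⟩
  rw [← dl_smul, ← dl_smul, ← dl_smul]; rfl

instance : MulAction G D.E where
  smul g x := ⟨fun y => x.1 (g⁻¹ • y), by
    obtain ⟨u, v, w, ⟨n, h⟩, hx⟩ := x.2
    exact ⟨_, _, _, ⟨n, D.Sn_smul g h⟩, tri_smul g hx⟩⟩
  one_smul x := Subtype.ext (by
    change (fun y => x.1 ((1 : G)⁻¹ • y)) = x.1
    simp)
  mul_smul g h x := Subtype.ext (by
    change (fun y => x.1 ((g * h)⁻¹ • y)) = fun y => x.1 (h⁻¹ • g⁻¹ • y)
    simp [mul_smul])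

lemma smul_val (g : G) (x : D.E) (y : V) : (g • x).1 y = x.1 (g⁻¹ • y) := rfl

instance : ContinuousConstSMul G D.E where
  continuous_const_smul g := continuous_mk (by
    change Continuous fun x : D.E => fun y => x.1 (g⁻¹ • y)
    exact continuous_pi fun y => continuous_ev _)

instance : IsCancelSMul G D.E := by
  refine isCancelSMul_iff_eq_one_of_smul_eq.mpr fun g x hx => ?_
  obtain ⟨y, hy⟩ := E_exists x
  have h1 : x.1 (g⁻¹ • y) ≠ 0 := by rw [← D.smul_val, hx]; exact hy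
  have h2 := D.adj_col (E_adj x h1 hy) (D.hcol _ _)
  exact inv_eq_one.mp (D.free _ _ h2)

lemma compact_cover {K : Set D.E} (hK : IsCompact K) :
    ∃ F : Finset V, ∀ x ∈ K, ∃ y ∈ F, x.1 y ≠ 0 := by
  obtain ⟨F, hF⟩ := hK.elim_finite_subcover (fun y : V => {x : D.E | x.1 y ≠ 0}) D.star_open
    (fun x _ => mem_iUnion.mpr (E_exists x))
  refine ⟨F, fun x hx => ?_⟩
  simpa using hF hx

instance : ProperlyDiscontinuousSMul G D.E where
  finite_disjoint_inter_image {K L} hK hL := by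
    obtain ⟨F, hF⟩ := D.compact_cover hK
    obtain ⟨F', hF'⟩ := D.compact_cover hL
    have : (⋃ y ∈ F, ⋃ z ∈ {b | D.adj y b}, ⋃ y' ∈ F', {g : G | g • z = y'}).Finite := by
      refine F.finite_toSet.biUnion fun y _ => (D.adj_finite y).biUnion fun z _ =>
        F'.finite_toSet.biUnion fun y' _ => Set.Subsingleton.finite ?_
      intro g hg g' hg'
      have : (g'⁻¹ * g) • z = z := by
        rw [mul_smul, show g • z = y' from hg, inv_smul_eq_iff]; exact hg'.symm
      exact (inv_mul_eq_one.mp (D.free _ _ this)).symm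
    refine this.subset fun g hg => ?_
    obtain ⟨_, ⟨x, hx, rfl⟩, hx'⟩ := hg
    obtain ⟨y, hy, h1⟩ := hF x hx
    obtain ⟨y', hy', h2⟩ := hF' _ hx'
    simp only [mem_iUnion]
    exact ⟨y, hy, g⁻¹ • y', E_adj x h1 h2, y', hy', smul_inv_smul g y'⟩

end Dat

end Crest.Agent.Lead.CW
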