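import Crest.Agent.H9.FdI

set_option autoImplicit false
open CategoryTheory Abelian

namespace Crest.Agent.Lead.FD
open Crest.Agent.H9.Fd

variable {A : Type} [Ring A]

section ses
variable {X Y Z : Type} [AddCommGroup X] [Module A X] [AddCommGroup Y] [Module A Y]
  [AddCommGroup Z] [Module A Z]

theorem se' (f : X →ₗ[A] Y) (g : Y →ₗ[A] Z) (inj : Function.Injective f)
    (ex : Function.Exact f g) (surj : Function.Surjective g) :
    (ModuleCat.shortComplexOfCompEqZero f g ex.linearMap_comp_eq_zero).ShortExact :=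
  ModuleCat.shortComplex_shortExact _ ex inj surj

theorem v1 (f : X →ₗ[A] Y) (g : Y →ₗ[A] Z) (inj : Function.Injective f)
    (ex : Function.Exact f g) (surj : Function.Surjective g) (S : ModuleCat.{0} A) (n : ℕ)
    (h2 : V S n Y) (h3 : V S (n + 1) Z) : V S n X := by
  intro x₁
  obtain ⟨x₂, rfl⟩ := Ext.contravariant_sequence_exact₁ (se' f g inj ex surj) S x₁
    (add_comm 1 n) (h3 _)
  rw [h2 x₂, Ext.comp_zero]

theorem v3 (f : X →ₗ[A] Y) (g : Y →ₗ[A] Z) (inj : Function.Injective f)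
    (ex : Function.Exact f g) (surj : Function.Surjective g) (S : ModuleCat.{0} A) (n : ℕ)
    (h1 : V S n X) (h2 : V S (n + 1) Y) : V S (n + 1) Z := by
  intro x₃
  obtain ⟨x₁, rfl⟩ := Ext.contravariant_sequence_exact₃ (se' f g inj ex surj) S x₃ (h2 _)
    (add_comm 1 n)
  rw [h1 x₁, Ext.comp_zero]

theorem p3 (f : X →ₗ[A] Y) (g : Y →ₗ[A] Z) (inj : Function.Injective f)
    (ex : Function.Exact f g) (surj : Function.Surjective g) (n : ℕ)
    (h1 : PD (A := A) n X) (h2 : PD (A := A) (n + 1) Y) : PD (A := A) (n + 1) Z :=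
  (se' f g inj ex surj).hasProjectiveDimensionLT_X₃ n h1 h2

theorem pd_proj (h : Module.Projective A X) (n : ℕ) : PD (A := A) (n + 1) X := by
  have : HasProjectiveDimensionLT (ModuleCat.of A X) 1 := inferInstance
  exact hasProjectiveDimensionLT_of_ge (ModuleCat.of A X) 1 _ (by omega)

theorem v_proj (h : Module.Projective A X) (S : ModuleCat.{0} A) (n : ℕ) : V S (n + 1) X := by
  have : HasProjectiveDimensionLT (ModuleCat.of A X) 1 := inferInstance
  exact fun e => e.eq_zero_of_hasProjectiveDimensionLT 1 (by omega)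

theorem v_zero_iff (S : ModuleCat.{0} A) : V S 0 X ↔ ∀ f : X →ₗ[A] S, f = 0 := by
  constructor
  · intro h f
    have := h (Ext.mk₀ (ModuleCat.ofHom f))
    have h2 : ModuleCat.ofHom f = 0 := (Ext.mk₀_bijective _ _).1 (by rw [this, Ext.mk₀_zero])
    have h3 := congrArg ModuleCat.Hom.hom h2
    simpa using h3
  · intro h e
    obtain ⟨u, rfl⟩ := (Ext.mk₀_bijective _ _).2 e
    have : u = 0 := ModuleCat.hom_ext (h u.hom)
    rw [this, Ext.mk₀_zero]

theorem ex_range {d2 : X →ₗ[A] Y} {d1 : Y →ₗ[A] Z} (h : Function.Exact d2 d1) :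
    Function.Exact (LinearMap.range d2).subtype d1.rangeRestrict := by
  intro x
  constructor
  · intro hx
    have : d1 x = 0 := congrArg Subtype.val hx
    obtain ⟨y, hy⟩ := (h x).1 this
    exact ⟨⟨x, y, hy⟩, rfl⟩
  · rintro ⟨⟨_, y, rfl⟩, rfl⟩
    exact Subtype.ext ((h _).2 ⟨y, rfl⟩)

theorem ex_range' {d2 : X →ₗ[A] Y} {d1 : Y →ₗ[A] Z} (h : Function.Exact d2 d1) :
    Function.Exact (LinearMap.range d2).subtype d1 := by
  intro x
  constructor
  · intro hx
    obtain ⟨y, hy⟩ := (h x).1 hx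
    exact ⟨⟨x, y, hy⟩, rfl⟩
  · rintro ⟨⟨_, y, rfl⟩, rfl⟩
    exact (h _).2 ⟨y, rfl⟩

theorem ex_range'' {d2 : X →ₗ[A] Y} {d1 : Y →ₗ[A] Z} (h : Function.Exact d2 d1) :
    Function.Exact d2 d1.rangeRestrict := by
  intro x
  rw [← h x]
  exact ⟨fun h => congrArg Subtype.val h, fun h => Subtype.ext h⟩

theorem v_of_bij (f : X →ₗ[A] Y) (hf : Function.Bijective f) (S : ModuleCat.{0} A) (n : ℕ)
    (h : V S n Y) : V S n X := by
  intro e
  let i : ModuleCat.of A X ≅ ModuleCat.of A Y := (LinearEquiv.ofBijective f hf).toModuleIso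
  rw [← e.mk₀_id_comp, ← i.hom_inv_id, ← Ext.mk₀_comp_mk₀, Ext.comp_assoc_of_second_deg_zero,
    h ((Ext.mk₀ i.inv).comp e (zero_add n)), Ext.comp_zero]

end ses

theorem homStmt : HomStmt where
  se f g inj ex surj S n :=
    ⟨fun h1 h3 => (se' f g inj ex surj).hasProjectiveDimensionLT_X₂ n h1 h3,
      p3 f g inj ex surj n, v1 f g inj ex surj S n⟩
  pdv {A} _ {X} _ _ S n m hnm h := by
    have : HasProjectiveDimensionLT (ModuleCat.of A X) n := h
    exact ⟨hasProjectiveDimensionLT_of_ge (ModuleCat.of A X) n m hnm,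
      fun e => e.eq_zero_of_hasProjectiveDimensionLT n hnm⟩
  equiv {A} _ {X Y} _ _ _ _ f hf S n := by
    let e := LinearEquiv.ofBijective f hf
    refine ⟨⟨fun h => ?_, fun h => ?_⟩, v_of_bij e.symm.toLinearMap e.symm.bijective S n,
      v_of_bij f hf S n⟩
    · have : HasProjectiveDimensionLT (ModuleCat.of A X) n := h
      exact hasProjectiveDimensionLT_of_iso e.toModuleIso n
    · have : HasProjectiveDimensionLT (ModuleCat.of A Y) n := h
      exact hasProjectiveDimensionLT_of_iso e.symm.toModuleIso n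
  res ε d1 d2 d3 d4 p0 p1 p2 p3' p4 surj e0 e1 e2 e3 inj S := by
    have s3 := d3.surjective_rangeRestrict
    have s2 := d2.surjective_rangeRestrict
    have s1 := d1.surjective_rangeRestrict
    have x3 := ex_range'' e3
    have x2 := ex_range e2
    have x1 := ex_range e1
    have x0 := ex_range' e0
    refine ⟨?_, fun h => ?_, fun h hv => ?_⟩
    · have a3 := p3 _ _ inj x3 s3 1 (pd_proj p4 0) (pd_proj p3' 1)
      have a2 := p3 _ _ Subtype.val_injective x2 s2 2 a3 (pd_proj p2 2)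
      have a1 := p3 _ _ Subtype.val_injective x1 s1 3 a2 (pd_proj p1 3)
      exact p3 _ _ Subtype.val_injective x0 surj 4 a1 (pd_proj p0 4)
    · have a3 := v3 _ _ inj x3 s3 S 0 ((v_zero_iff S).2 h) (v_proj p3' S 0)
      have a2 := v3 _ _ Subtype.val_injective x2 s2 S 1 a3 (v_proj p2 S 1)
      have a1 := v3 _ _ Subtype.val_injective x1 s1 S 2 a2 (v_proj p1 S 2)
      exact v3 _ _ Subtype.val_injective x0 surj S 3 a1 (v_proj p0 S 3)
    · have a1 := v1 _ _ Subtype.val_injective x0 surj S 3 (v_proj p0 S 2) hv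
      have a2 := v1 _ _ Subtype.val_injective x1 s1 S 2 (v_proj p1 S 1) a1
      have a3 := v1 _ _ Subtype.val_injective x2 s2 S 1 (v_proj p2 S 0) a2
      exact (v_zero_iff S).1 (v1 _ _ inj x3 s3 S 0 ((v_zero_iff S).2 h) a3)

end Crest.Agent.Lead.FD
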