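import Mathlib

/-! A Jacobsthal type bound by the pure sieve. -/

set_option autoImplicit false

namespace Crest.Agent.Lead.IM
open Finset

lemma prod_one_sub_ge (P : Finset ℕ) (hP : ∀ p ∈ P, 2 ≤ p) :
    1 / ((P.card : ℝ) + 1) ≤ ∏ p ∈ P, (1 - 1 / (p : ℝ)) := by
  induction P using Finset.induction_on_max with
  | empty => simp
  | insert a s ha ih =>
    have hna : a ∉ s := fun h => lt_irrefl _ (ha a h)
    have ih' := ih (fun p hp => hP p (mem_insert_of_mem hp))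
    have hc : s.card + 2 ≤ a := by
      have h1 : s ⊆ Finset.Ico 2 a := fun p hp =>
        mem_Ico.2 ⟨hP p (mem_insert_of_mem hp), ha p hp⟩
      have h2 := card_le_card h1
      have h3 := hP a (mem_insert_self _ _)
      simp at h2; omega
    rw [prod_insert hna, card_insert_of_notMem hna]
    have hc' : (s.card : ℝ) + 2 ≤ a := by exact_mod_cast hc
    have h0 : (0 : ℝ) ≤ s.card := by positivity
    have h4 : ((s.card : ℝ) + 1) / (s.card + 2) ≤ 1 - 1 / (a : ℝ) := by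
      have : 1 / (a : ℝ) ≤ 1 / ((s.card : ℝ) + 2) := one_div_le_one_div_of_le (by positivity) hc'
      have e : ((s.card : ℝ) + 1) / (s.card + 2) = 1 - 1 / ((s.card : ℝ) + 2) := by
        field_simp; ring
      linarith
    calc 1 / (((s.card + 1 : ℕ) : ℝ) + 1)
        = ((s.card : ℝ) + 1) / (s.card + 2) * (1 / ((s.card : ℝ) + 1)) := by
          push_cast; field_simp; ring
      _ ≤ _ := mul_le_mul h4 ih' (by positivity) (le_trans (by positivity) h4)

lemma prod_one_add_le (P : Finset ℕ) (hP : ∀ p ∈ P, 2 ≤ p) :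
    ∏ p ∈ P, (1 + 2 * (1 / (p : ℝ))) ≤ ((P.card : ℝ) + 1) ^ 2 := by
  have h1 := prod_one_sub_ge P hP
  have hpos : ∀ p ∈ P, (0 : ℝ) < 1 - 1 / (p : ℝ) := fun p hp => by
    have : (2 : ℝ) ≤ p := by exact_mod_cast hP p hp
    have : 1 / (p : ℝ) ≤ 1 / 2 := one_div_le_one_div_of_le (by norm_num) this
    linarith
  have h2 : (∏ p ∈ P, (1 + 2 * (1 / (p : ℝ)))) * (∏ p ∈ P, (1 - 1 / (p : ℝ))) ^ 2 ≤ 1 := by
    rw [← prod_pow, ← prod_mul_distrib]
    refine prod_le_one (fun p hp => by have := hpos p hp; positivity) (fun p hp => ?_)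
    have h3 := hpos p hp
    have h4 : (0 : ℝ) ≤ 1 / (p : ℝ) := by positivity
    set t := 1 / (p : ℝ)
    nlinarith [mul_nonneg h4 h4, mul_nonneg (mul_nonneg h4 h4) h3.le]
  have h5 : (0 : ℝ) ≤ ∏ p ∈ P, (1 + 2 * (1 / (p : ℝ))) := prod_nonneg (fun p _ => by positivity)
  have h6 : (1 / ((P.card : ℝ) + 1)) ^ 2 ≤ (∏ p ∈ P, (1 - 1 / (p : ℝ))) ^ 2 :=
    pow_le_pow_left₀ (by positivity) h1 2
  have h7 := (mul_le_mul_of_nonneg_left h6 h5).trans h2
  rw [div_pow, one_pow, mul_one_div, div_le_one (by positivity)] at h7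
  exact h7

lemma trunc_ge (P : Finset ℕ) (hP : ∀ p ∈ P, 2 ≤ p) (m : ℕ) (h1 : 2 * (P.card + 1) ^ 3 ≤ 2 ^ m) :
    1 / (2 * ((P.card : ℝ) + 1)) ≤
      ∑ T ∈ P.powerset.filter (fun T => T.card ≤ m), (-1 : ℝ) ^ T.card * ∏ p ∈ T, (1 / (p : ℝ)) := by
  have e1 : ∏ p ∈ P, (1 - 1 / (p : ℝ)) =
      ∑ T ∈ P.powerset, (-1 : ℝ) ^ T.card * ∏ p ∈ T, (1 / (p : ℝ)) := by
    have := prod_one_add (f := fun p : ℕ => -(1 / (p : ℝ))) P
    simp only [← sub_eq_add_neg] at this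
    rw [this]
    refine sum_congr rfl (fun T _ => ?_)
    rw [prod_neg]
  have e2 : ∏ p ∈ P, (1 + 2 * (1 / (p : ℝ))) =
      ∑ T ∈ P.powerset, (2 : ℝ) ^ T.card * ∏ p ∈ T, (1 / (p : ℝ)) := by
    rw [prod_one_add]
    refine sum_congr rfl (fun T _ => ?_)
    rw [prod_mul_distrib, prod_const]
  have h2 := prod_one_sub_ge P hP
  have h3 := prod_one_add_le P hP
  rw [e1, ← sum_filter_add_sum_filter_not _ (fun T => T.card ≤ m)] at h2
  have h4 : (2 : ℝ) ^ m * ∑ T ∈ P.powerset.filter (fun T => ¬ T.card ≤ m),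
      (-1 : ℝ) ^ T.card * ∏ p ∈ T, (1 / (p : ℝ)) ≤ ((P.card : ℝ) + 1) ^ 2 := by
    refine le_trans ?_ h3
    rw [e2, mul_sum]
    refine le_trans (sum_le_sum (g := fun T : Finset ℕ => (2 : ℝ) ^ T.card * ∏ p ∈ T, (1 / (p : ℝ)))
      (fun T hT => ?_)) (sum_le_sum_of_subset_of_nonneg (filter_subset _ _) (fun T _ _ => by
        have : (0 : ℝ) ≤ ∏ p ∈ T, (1 / (p : ℝ)) := prod_nonneg (fun p _ => by positivity)
        positivity))
    have h5 : (0 : ℝ) ≤ ∏ p ∈ T, (1 / (p : ℝ)) := prod_nonneg (fun p _ => by positivity)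
    have h6 : m ≤ T.card := by simp at hT; omega
    have h7 : (2 : ℝ) ^ m ≤ 2 ^ T.card := pow_le_pow_right₀ (by norm_num) h6
    have h8 : (-1 : ℝ) ^ T.card ≤ 1 := by
      rcases neg_one_pow_eq_or ℝ T.card with h | h <;> rw [h] <;> norm_num
    rw [← mul_assoc]
    refine mul_le_mul_of_nonneg_right ?_ h5
    have : (0 : ℝ) < 2 ^ m := by positivity
    nlinarith
  have h9 : 2 * ((P.card : ℝ) + 1) ^ 3 ≤ 2 ^ m := by exact_mod_cast h1
  set r : ℝ := (P.card : ℝ) + 1 with hr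
  have hr0 : 0 < r := by positivity
  set X := ∑ T ∈ P.powerset.filter (fun T => ¬ T.card ≤ m),
      (-1 : ℝ) ^ T.card * ∏ p ∈ T, (1 / (p : ℝ))
  have h10 : X ≤ 1 / (2 * r) := by
    by_contra hc
    push Not at hc
    have h11 : 0 < 1 / (2 * r) := by positivity
    have h12 : 2 * r ^ 3 * (1 / (2 * r)) < 2 ^ m * X :=
      mul_lt_mul' h9 hc h11.le (by positivity)
    have e : 2 * r ^ 3 * (1 / (2 * r)) = r ^ 2 := by field_simp
    linarith
  have e : 1 / r = 1 / (2 * r) + 1 / (2 * r) := by field_simp; ring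
  linarith

lemma card_small (P : Finset ℕ) (m : ℕ) :
    (P.powerset.filter (fun T => T.card ≤ m)).card ≤ (m + 1) * (P.card + 1) ^ m := by
  have h1 : P.powerset.filter (fun T => T.card ≤ m) ⊆
      (range (m + 1)).biUnion (fun k => P.powersetCard k) := by
    intro T hT
    simp only [mem_filter, mem_powerset] at hT
    simp only [mem_biUnion, mem_range, mem_powersetCard]
    exact ⟨T.card, by omega, hT.1, rfl⟩
  refine (card_le_card h1).trans (card_biUnion_le.trans ?_)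
  have h2 : ∀ k ∈ range (m + 1), (P.powersetCard k).card ≤ (P.card + 1) ^ m := by
    intro k hk
    rw [card_powersetCard]
    refine (Nat.choose_le_pow _ _).trans ((Nat.pow_le_pow_left (Nat.le_succ _) _).trans
      (Nat.pow_le_pow_right (by omega) (by simp at hk; omega)))
  simpa using sum_le_card_nsmul _ _ _ h2

lemma bonf (U : Finset ℕ) (hU : U.Nonempty) (m : ℕ) (hm : Odd m) :
    ∑ T ∈ U.powerset.filter (fun T => T.card ≤ m), (-1 : ℤ) ^ T.card ≤ 0 := by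
  obtain ⟨n, hn⟩ : ∃ n, U.card = n + 1 := ⟨U.card - 1, by have := hU.card_pos; omega⟩
  rw [sum_filter, sum_powerset_apply_card (fun k => if k ≤ m then (-1 : ℤ) ^ k else 0), hn]
  have e : ∑ k ∈ range (n + 1 + 1), (n + 1).choose k • (if k ≤ m then (-1 : ℤ) ^ k else 0) =
      ∑ k ∈ range (m + 1), (-1 : ℤ) ^ k * ((n + 1).choose k : ℤ) := by
    have a1 : ∑ k ∈ range (n + 1 + 1), (n + 1).choose k • (if k ≤ m then (-1 : ℤ) ^ k else 0) =
        ∑ k ∈ range (n + 1 + 1 + (m + 1)), (n + 1).choose k • (if k ≤ m then (-1 : ℤ) ^ k else 0) := by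
      refine sum_subset (range_mono (by omega)) (fun k _ hk => ?_)
      rw [Nat.choose_eq_zero_of_lt (by simp at hk; omega)]; simp
    have a2 : ∑ k ∈ range (m + 1), (-1 : ℤ) ^ k * ((n + 1).choose k : ℤ) =
        ∑ k ∈ range (m + 1), (n + 1).choose k • (if k ≤ m then (-1 : ℤ) ^ k else 0) := by
      refine sum_congr rfl (fun k hk => ?_)
      rw [if_pos (by simp at hk; omega)]; simp [mul_comm]
    rw [a1, a2]
    refine (sum_subset (range_mono (by omega)) (fun k _ hk => ?_)).symm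
    rw [if_neg (by simp at hk; omega)]; simp
  rw [e, Int.alternating_sum_range_choose_eq_choose, hm.neg_one_pow]
  simp

lemma card_dvd_Ioc (a y d : ℕ) (hd : 0 < d) :
    |(((Ioc a (a + y)).filter (fun x => d ∣ x)).card : ℝ) - y / d| ≤ 1 := by
  have h1 : ((Ioc a (a + y)).filter (fun x => d ∣ x)).card + a / d = (a + y) / d := by
    rw [← Nat.Ioc_filter_dvd_card_eq_div, ← Nat.Ioc_filter_dvd_card_eq_div, ← card_union_of_disjoint,
      ← filter_union]
    · congr 2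
      ext x; simp; omega
    · refine disjoint_filter_filter ?_
      rw [disjoint_left]; intro x h1 h2; simp at h1 h2; omega
  have hd' : (0 : ℝ) < d := by exact_mod_cast hd
  have b1 : ∀ n : ℕ, ((n / d : ℕ) : ℝ) ≤ n / d ∧ (n : ℝ) / d - 1 ≤ ((n / d : ℕ) : ℝ) := by
    intro n
    refine ⟨Nat.cast_div_le, ?_⟩
    have := Nat.lt_div_mul_add (a := n) hd
    have h2 : (n : ℝ) < (n / d : ℕ) * d + d := by exact_mod_cast this
    rw [sub_le_iff_le_add, div_le_iff₀ hd']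
    nlinarith
  have h3 : (((Ioc a (a + y)).filter (fun x => d ∣ x)).card : ℝ) + ((a / d : ℕ) : ℝ) =
      (((a + y) / d : ℕ) : ℝ) := by exact_mod_cast h1
  have h4 := b1 a
  have h5 := b1 (a + y)
  push_cast at h5
  rw [add_div] at h5
  rw [abs_le]; constructor <;> linarith [h4.1, h4.2, h5.1, h5.2]

theorem jac (P : Finset ℕ) (hP : ∀ p ∈ P, p.Prime) (m a y : ℕ) (hm : Odd m)
    (h1 : 2 * (P.card + 1) ^ 3 ≤ 2 ^ m)
    (h2 : 2 * (P.card + 1) * ((m + 1) * (P.card + 1) ^ m) < y) :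
    ∃ x ∈ Ioc a (a + y), ∀ p ∈ P, ¬ p ∣ x := by
  by_contra hc
  push Not at hc
  set F := P.powerset.filter (fun T => T.card ≤ m) with hF
  have a1 : ∀ x ∈ Ioc a (a + y), ∑ T ∈ F, (if (∏ p ∈ T, p) ∣ x then (-1 : ℝ) ^ T.card else 0) ≤ 0 := by
    intro x hx
    obtain ⟨p, hp, hpx⟩ := hc x hx
    have h3 := bonf (P.filter (fun p => p ∣ x)) ⟨p, mem_filter.2 ⟨hp, hpx⟩⟩ m hm
    have h4 : ((∑ T ∈ (P.filter (fun p => p ∣ x)).powerset.filter (fun T => T.card ≤ m),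
        (-1 : ℤ) ^ T.card : ℤ) : ℝ) ≤ 0 := by exact_mod_cast h3
    push_cast at h4
    rw [← sum_filter]
    refine le_of_eq_of_le (sum_congr ?_ (fun _ _ => rfl)) h4
    ext T
    simp only [hF, mem_filter, mem_powerset]
    constructor
    · rintro ⟨⟨h5, h6⟩, h7⟩
      exact ⟨fun q hq => mem_filter.2 ⟨h5 hq, (dvd_prod_of_mem _ hq).trans h7⟩, h6⟩
    · rintro ⟨h5, h6⟩
      refine ⟨⟨fun q hq => (mem_filter.1 (h5 hq)).1, h6⟩, ?_⟩
      exact Finset.prod_primes_dvd x (fun q hq => (hP q (mem_filter.1 (h5 hq)).1).prime)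
        (fun q hq => (mem_filter.1 (h5 hq)).2)
  have a2 := sum_nonpos a1
  rw [sum_comm] at a2
  have a3 : ∀ T ∈ F, y * ((-1 : ℝ) ^ T.card * ∏ p ∈ T, (1 / (p : ℝ))) - 1 ≤
      ∑ x ∈ Ioc a (a + y), (if (∏ p ∈ T, p) ∣ x then (-1 : ℝ) ^ T.card else 0) := by
    intro T hT
    have hT' : T ⊆ P := by simp only [hF, mem_filter, mem_powerset] at hT; exact hT.1
    have h3 := card_dvd_Ioc a y (∏ p ∈ T, p) (prod_pos (fun p hp => (hP p (hT' hp)).pos))
    rw [← sum_filter, sum_const, nsmul_eq_mul]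
    have e : ∏ p ∈ T, (1 / (p : ℝ)) = 1 / ((∏ p ∈ T, p : ℕ) : ℝ) := by
      push_cast; rw [prod_div_distrib, prod_const_one]
    rw [e]
    rw [abs_le] at h3
    have e2 : (y : ℝ) / ((∏ p ∈ T, p : ℕ) : ℝ) = y * (1 / ((∏ p ∈ T, p : ℕ) : ℝ)) := by ring
    rw [e2] at h3
    rcases neg_one_pow_eq_or ℝ T.card with h | h <;> rw [h] <;> linarith [h3.1, h3.2]
  have a4 := (sum_le_sum a3).trans a2
  rw [sum_sub_distrib, ← mul_sum, sum_const, nsmul_eq_mul, mul_one] at a4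
  have a5 := trunc_ge P (fun p hp => (hP p hp).two_le) m h1
  have a6 : (F.card : ℝ) ≤ ((m + 1) * (P.card + 1) ^ m : ℕ) := by exact_mod_cast card_small P m
  have a7 : 2 * ((P.card : ℝ) + 1) * ((m + 1) * (P.card + 1) ^ m : ℕ) < y := by exact_mod_cast h2
  have a8 : (y : ℝ) * (1 / (2 * ((P.card : ℝ) + 1))) ≤ ((m + 1) * (P.card + 1) ^ m : ℕ) := by
    have := mul_le_mul_of_nonneg_left a5 (Nat.cast_nonneg (α := ℝ) y)
    linarith
  rw [mul_one_div, div_le_iff₀ (by positivity)] at a8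
  linarith

end Crest.Agent.Lead.IM
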