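import Crest.Agent.H9.IMI
import Crest.Agent.Lead.IMJac

/-! Row 326: greedy search of pairwise coprime moduli. -/

set_option autoImplicit false

namespace Crest.Agent.Lead.IM
open Crest.Agent.H3.Ptime Crest.Agent.H9.IM

lemma ev_pow (c k : ℕ) : ∃ n0 : ℕ, ∀ n ≥ n0, c * n ^ k ≤ 2 ^ n := by
  have h := tendsto_pow_const_div_const_pow_of_one_lt k (r := 2) (by norm_num)
  have h2 := h.eventually (gt_mem_nhds (show (0 : ℝ) < 1 / (c + 1) by positivity))
  obtain ⟨n0, hn⟩ := Filter.eventually_atTop.1 h2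
  refine ⟨n0, fun n h => ?_⟩
  have h3 := hn n h
  rw [div_lt_div_iff₀ (by positivity) (by positivity)] at h3
  have h4 : (c : ℝ) * n ^ k ≤ 2 ^ n := by
    have : (0 : ℝ) ≤ (n : ℝ) ^ k := by positivity
    nlinarith
  exact_mod_cast h4

section
variable {α β : Type} [Enc α] [Enc β]

@[fun_prop] theorem PT_nprod {l : α → List ℕ} (hl : PT l) : PT (fun a => (l a).prod) :=
  (PT.toNat (PT.iprod (PT.map (f := fun _ (x : ℕ) => (x : ℤ)) hl (by fun_prop)))).of_eq (fun a => by
    have := Nat.cast_list_prod (R := ℤ) (l a)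
    exact (congrArg Int.toNat this.symm).trans (Int.toNat_natCast _))

@[fun_prop] theorem PT_getD {l : α → List β} {n : α → ℕ} {d : α → β} (hl : PT l) (hn : PT n)
    (hd : PT d) : PT (fun a => (l a).getD (n a) (d a)) :=
  ((hl.drop hn).headD hd).of_eq (fun a => by
    simp [List.getD_eq_getElem?_getD, List.headD_eq_head?_getD, List.head?_drop])
end

def invs (D P x : ℕ) : List ℕ := (List.range D).filter (fun c => decide (c * P % x = 1 % x))

def gstep (D K S : ℕ) (Q : List ℕ) (x : ℕ) : List ℕ :=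
  bif (decide (Q.length < K) && decide (D - D / (2 * K) < x) && !(invs D (S * Q.prod) x).isEmpty)
    then Q ++ [x] else Q

def gQ (D K S n : ℕ) : List ℕ := (List.range n).foldl (gstep D K S) []

def gC (D S : ℕ) (Q : List ℕ) : List ℕ :=
  (List.range Q.length).map (fun j => (invs D (S * (Q.take j).prod) (Q.getD j 1)).headD 0)

def cop (x : List Unit × ℕ × ℕ) : List ℕ × List ℕ :=
  (gQ x.1.length x.2.1 x.2.2 (x.1.length + 1),
    gC x.1.length x.2.2 (gQ x.1.length x.2.1 x.2.2 (x.1.length + 1)))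

theorem PT_invs {α : Type} [Enc α] {u : α → List Unit} {P x : α → ℕ} (hu : PT u) (hP : PT P)
    (hx : PT x) : PT (fun a => invs (u a).length (P a) (x a)) := by
  unfold invs
  exact PT.filter hu.rangeL (by fun_prop)

theorem PT_gQ : PT (fun x : List Unit × ℕ × ℕ => gQ x.1.length x.2.1 x.2.2 (x.1.length + 1)) := by
  unfold gQ
  have h1 : PT (fun x : List Unit × ℕ × ℕ => List.range (x.1.length + 1)) :=
    (PT.rangeL (l := fun x : List Unit × ℕ × ℕ => () :: x.1) (by fun_prop)).of_eq (by simp)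
  refine PT.foldl_add (f := fun (x : List Unit × ℕ × ℕ) => gstep x.1.length x.2.1 x.2.2) h1
    (PT.const _) ?_ (fun p => sz p.2 + 1) ((PT.snd PT.id').szb.add (PB.const 1)) ?_
  · unfold gstep
    have h2 := PT_invs (α := (List Unit × ℕ × ℕ) × List ℕ × ℕ) (u := fun p => p.1.1)
      (P := fun p => p.1.2.2 * p.2.1.prod) (x := fun p => p.2.2) (by fun_prop) (by fun_prop)
      (by fun_prop)
    exact PT.cond (PT.and (by fun_prop) h2.isEmpty.not) (by fun_prop) (by fun_prop)
  · intro a c x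
    unfold gstep
    have := sz_append c [x]
    rw [sz_cons, sz_nil] at this
    simp only
    cases (decide (c.length < a.2.1) && decide (a.1.length - a.1.length / (2 * a.2.1) < x) &&
      !(invs a.1.length (a.2.2 * c.prod) x).isEmpty) <;> simp <;> omega

theorem PT_cop : PT cop := by
  have h : PT (fun y : (List Unit × ℕ × ℕ) × List ℕ => gC y.1.1.length y.1.2.2 y.2) := by
    unfold gC
    refine PT.map (PT.rangeL (by fun_prop)) (PT.headD ?_ (PT.const _))
    exact PT_invs (α := ((List Unit × ℕ × ℕ) × List ℕ) × ℕ) (u := fun p => p.1.1.1)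
      (P := fun p => p.1.1.2.2 * (p.1.2.take p.2).prod) (x := fun p => p.1.2.getD p.2 1)
      (by fun_prop) (by fun_prop) (by fun_prop)
  have h2 := PT.comp (f := fun x : List Unit × ℕ × ℕ => (x, gQ x.1.length x.2.1 x.2.2 (x.1.length + 1)))
    h (PT.id'.pair PT_gQ)
  exact PT_gQ.pair h2

lemma gQ_succ (D K S n : ℕ) : gQ D K S (n + 1) = gstep D K S (gQ D K S n) n := by
  simp [gQ, List.range_succ]

lemma gstep_cases (D K S : ℕ) (Q : List ℕ) (x : ℕ) :
    (gstep D K S Q x = Q ++ [x] ∧ Q.length < K ∧ D - D / (2 * K) < x ∧ invs D (S * Q.prod) x ≠ []) ∨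
    (gstep D K S Q x = Q ∧
      ¬ (Q.length < K ∧ D - D / (2 * K) < x ∧ invs D (S * Q.prod) x ≠ [])) := by
  unfold gstep
  by_cases h : Q.length < K ∧ D - D / (2 * K) < x ∧ invs D (S * Q.prod) x ≠ []
  · left
    have : (invs D (S * Q.prod) x).isEmpty = false := by simpa using h.2.2
    simp [h.1, h.2.1, h.2.2, this]
  · right
    refine ⟨?_, h⟩
    have : (decide (Q.length < K) && decide (D - D / (2 * K) < x) &&
        !(invs D (S * Q.prod) x).isEmpty) = false := by
      by_contra hc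
      apply h
      simpa [and_assoc] using hc
    rw [this]; rfl

lemma gQ_inv (D K S n : ℕ) : (gQ D K S n).length ≤ K ∧
    (∀ x ∈ gQ D K S n, D - D / (2 * K) < x ∧ x < n) ∧
    ∀ j < (gQ D K S n).length,
      invs D (S * ((gQ D K S n).take j).prod) ((gQ D K S n).getD j 1) ≠ [] := by
  induction n with
  | zero => simp [gQ]
  | succ n ih =>
    rw [gQ_succ]
    rcases gstep_cases D K S (gQ D K S n) n with ⟨e, h1, h2, h3⟩ | ⟨e, -⟩
    · rw [e]
      refine ⟨by simp; omega, fun x hx => ?_, fun j hj => ?_⟩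
      · rcases List.mem_append.1 hx with hx | hx
        · have := ih.2.1 x hx; omega
        · simp at hx; omega
      · simp at hj
        rcases Nat.lt_or_ge j (gQ D K S n).length with h | h
        · have := ih.2.2 j h
          rwa [List.take_append_of_le_length h.le, List.getD_append _ _ _ _ h]
        · have : j = (gQ D K S n).length := by omega
          subst this
          simpa using h3
    · rw [e]
      exact ⟨ih.1, fun x hx => by have := ih.2.1 x hx; omega, ih.2.2⟩

lemma gQ_prefix (D K S n k : ℕ) : gQ D K S n <+: gQ D K S (n + k) := by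
  induction k with
  | zero => exact List.prefix_refl _
  | succ k ih =>
    rw [← add_assoc, gQ_succ]
    rcases gstep_cases D K S (gQ D K S (n + k)) (n + k) with ⟨e, -⟩ | ⟨e, -⟩ <;> rw [e]
    · exact ih.trans (List.prefix_append _ _)
    · exact ih

lemma gQ_full (D K S x : ℕ) (hx : D - D / (2 * K) < x) (hx' : x ≤ D) (h1 : 1 < x)
    (hc : Nat.Coprime (S * (gQ D K S (D + 1)).prod) x) : (gQ D K S (D + 1)).length = K := by
  by_contra hne
  have h2 := (gQ_inv D K S (D + 1)).1
  obtain ⟨k, hk⟩ : ∃ k, D + 1 = x + 1 + k := ⟨D - x, by omega⟩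
  have p1 := gQ_prefix D K S (x + 1) k
  have p0 := gQ_prefix D K S x (1 + k)
  rw [← add_assoc, ← hk] at p0
  rw [← hk, gQ_succ] at p1
  have hc0 : Nat.Coprime (S * (gQ D K S x).prod) x :=
    hc.coprime_dvd_left (Nat.mul_dvd_mul_left _ p0.sublist.prod_dvd_prod)
  rcases gstep_cases D K S (gQ D K S x) x with ⟨e, -⟩ | ⟨-, h⟩
  · rw [e] at p1
    have h3 : x ∣ (gQ D K S (D + 1)).prod := List.dvd_prod (p1.subset (by simp))
    have := (Nat.coprime_self x).1 (Nat.Coprime.coprime_dvd_left (h3.mul_left S) hc)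
    omega
  · apply h
    refine ⟨lt_of_le_of_lt p0.length_le (by omega), hx, ?_⟩
    obtain ⟨m, hm, hm'⟩ := Nat.exists_mul_mod_eq_one_of_coprime hc0 h1
    refine List.ne_nil_of_mem (a := m) ?_
    simp only [invs, List.mem_filter, List.mem_range, decide_eq_true_eq]
    exact ⟨by omega, by rw [mul_comm, hm', Nat.mod_eq_of_lt h1]⟩

lemma card_pf (N b : ℕ) (h0 : 0 < N) (h : N ≤ 2 ^ b) : N.primeFactors.card ≤ b := by
  have h1 : 2 ^ N.primeFactors.card ≤ ∏ p ∈ N.primeFactors, p :=
    Finset.pow_card_le_prod _ _ _ (fun p hp => (Nat.prime_of_mem_primeFactors hp).two_le)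
  have h2 := Nat.le_of_dvd h0 (Nat.prod_primeFactors_dvd N)
  exact (Nat.pow_le_pow_iff_right (by norm_num)).1 (h1.trans (h2.trans h))

lemma ev_size (c : ℕ) : ∃ B0 : ℕ, ∀ B ≥ B0, c * (2 * B).size ^ 2 ≤ B := by
  obtain ⟨n0, h⟩ := ev_pow (4 * c) 2
  refine ⟨2 ^ n0, fun B hB => ?_⟩
  have h1 : n0 < (2 * B).size := Nat.lt_size.2 (by omega)
  have h2 := h _ h1.le
  have h3 : 2 ^ ((2 * B).size - 1) ≤ 2 * B := Nat.lt_size.1 (by omega)
  have h4 : 2 ^ (2 * B).size = 2 * 2 ^ ((2 * B).size - 1) := by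
    rw [← pow_succ']; congr 1; omega
  rw [mul_assoc] at h2
  omega

theorem copStmt : CopStmt := by
  refine ⟨cop, PT_cop, fun E => ?_⟩
  obtain ⟨B0, hB0⟩ := ev_size (20 * (E + 1) ^ 2)
  refine ⟨B0 + 2, fun B hB K s hK hKE => ?_⟩
  simp only [cop, List.length_replicate]
  set D := 2 ^ B with hD
  set Q := gQ D K (2 ^ s) (D + 1) with hQ
  obtain ⟨i1, i2, i3⟩ := gQ_inv D K (2 ^ s) (D + 1)
  rw [← hQ] at i1 i2 i3
  have hD4 : 4 ≤ D := Nat.pow_le_pow_right (n := 2) (by norm_num) (show 2 ≤ B by omega)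
  have hdiv : D / (2 * K) ≤ D / 4 := Nat.div_le_div_left (by omega) (by norm_num)
  have hQ1 : ∀ x ∈ Q, 0 < x ∧ x ≤ D := fun x hx => by have := i2 x hx; omega
  have hlen : Q.length = K := by
    set L := (2 * B).size with hL
    set A := L * (E + 1) with hA
    have hL1 : 2 * B < 2 ^ L := Nat.lt_size_self _
    have hL0 : 1 ≤ L := Nat.size_pos.2 (by omega)
    have hA1 : 1 ≤ A := Nat.mul_pos hL0 (by omega)
    have hR : B * K + 2 ≤ 2 ^ A := by
      have h1 : (2 * B) ^ (E + 1) ≤ 2 ^ A := by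
        rw [hA, pow_mul]; exact Nat.pow_le_pow_left hL1.le _
      have h2 : 1 ≤ (2 * B) ^ E := Nat.one_le_pow _ _ (by omega)
      rw [pow_succ] at h1
      have : 2 ≤ B := by omega
      nlinarith
    have hp0 : 0 < Q.prod := List.prod_pos (fun x hx => (hQ1 x hx).1)
    have hp1 : Q.prod ≤ 2 ^ (B * K) := by
      refine (List.prod_le_pow_card Q D (fun x hx => (hQ1 x hx).2)).trans ?_
      rw [pow_mul]; exact Nat.pow_le_pow_right (by omega) i1
    set P := insert 2 Q.prod.primeFactors with hP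
    have hc : P.card + 1 ≤ 2 ^ A := by
      have h1 := card_pf _ _ hp0 hp1
      have h2 : P.card ≤ _ := Finset.card_insert_le 2 Q.prod.primeFactors
      omega
    have hKA : K ≤ 2 ^ A := by nlinarith
    have hAB : 20 * A ^ 2 ≤ B := by
      have := hB0 B (by omega)
      rw [hA, mul_pow]; nlinarith
    obtain ⟨x, hx, hx'⟩ := jac P (fun p hp => by
        rcases Finset.mem_insert.1 hp with rfl | hp
        · exact Nat.prime_two
        · exact Nat.prime_of_mem_primeFactors hp) (4 * A + 1) (D - D / (2 * K)) (D / (2 * K))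
      ⟨2 * A, by ring⟩ (by
        have h1 := Nat.pow_le_pow_left hc 3
        have h2 : (2 ^ A) ^ 3 * 2 ≤ 2 ^ (4 * A + 1) := by
          rw [← pow_mul, ← pow_succ]; exact Nat.pow_le_pow_right (by norm_num) (by omega)
        omega) (by
        have h1 := Nat.pow_le_pow_left hc (4 * A + 1)
        have h2 : 4 * A + 1 + 1 ≤ 2 ^ (4 * A + 1) := Nat.lt_two_pow_self
        have h3 : 2 * (P.card + 1) * ((4 * A + 1 + 1) * (P.card + 1) ^ (4 * A + 1)) ≤
            2 * 2 ^ A * (2 ^ (4 * A + 1) * (2 ^ A) ^ (4 * A + 1)) := by gcongr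
        refine lt_of_le_of_lt h3 ?_
        rw [Nat.lt_iff_add_one_le, Nat.le_div_iff_mul_le (by omega)]
        have h4 : 1 ≤ 2 * 2 ^ A * (2 ^ (4 * A + 1) * (2 ^ A) ^ (4 * A + 1)) := Nat.succ_le_of_lt (by positivity)
        calc _ ≤ (2 * (2 * 2 ^ A * (2 ^ (4 * A + 1) * (2 ^ A) ^ (4 * A + 1)))) * (2 * 2 ^ A) := by
              gcongr; omega
          _ = 2 ^ (4 * A ^ 2 + 7 * A + 4) := by ring
          _ ≤ D := Nat.pow_le_pow_right (by norm_num) (by nlinarith))
    simp only [Finset.mem_Ioc] at hx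
    refine gQ_full D K (2 ^ s) x hx.1 (by omega) (by omega) ?_
    rw [← hQ]
    refine Nat.coprime_of_dvd (fun p hp h1 h2 => hx' p ?_ h2)
    rcases (Nat.Prime.dvd_mul hp).1 h1 with h | h
    · have := (Nat.prime_dvd_prime_iff_eq hp Nat.prime_two).1 (hp.dvd_of_dvd_pow h)
      simp [hP, this]
    · exact Finset.mem_insert_of_mem (Nat.mem_primeFactors.2 ⟨hp, h, hp0.ne'⟩)
  have hhead : ∀ j < Q.length, (invs D (2 ^ s * (Q.take j).prod) (Q.getD j 1)).headD 0 ∈
      invs D (2 ^ s * (Q.take j).prod) (Q.getD j 1) := by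
    intro j hj
    have := i3 j hj
    generalize invs D (2 ^ s * (Q.take j).prod) (Q.getD j 1) = l at this
    cases l with
    | nil => exact absurd rfl this
    | cons a l => simp
  refine ⟨hlen, by simp [gC, hlen], hQ1, fun c hc => ?_, fun j hj => ?_, ?_⟩
  · simp only [gC, List.mem_map, List.mem_range] at hc
    obtain ⟨j, hj, rfl⟩ := hc
    have := hhead j hj
    exact List.mem_range.1 (List.mem_filter.1 this).1
  · have h1 := hhead j (by omega)
    have e : (gC D (2 ^ s) Q).getD j 0 =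
        (invs D (2 ^ s * (Q.take j).prod) (Q.getD j 1)).headD 0 := by
      simp [gC, List.getD_eq_getElem?_getD, hlen, hj]
    rw [e]
    simpa [Nat.ModEq] using (List.mem_filter.1 h1).2
  · have h1 : (D - D / (2 * K)) ^ K ≤ Q.prod := by
      rw [← hlen]; exact List.pow_card_le_prod Q _ (fun x hx => by rw [hlen]; exact (i2 x hx).1.le)
    have hK0 : (0 : ℝ) < K := by exact_mod_cast (by omega : 0 < K)
    have h2 : (D : ℝ) * (1 - 1 / (2 * K)) ≤ ((D - D / (2 * K) : ℕ) : ℝ) := by
      rw [Nat.cast_sub (Nat.div_le_self _ _)]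
      have : ((D / (2 * K) : ℕ) : ℝ) ≤ D / (2 * K) := by
        have := Nat.cast_div_le (α := ℝ) (m := D) (n := 2 * K)
        push_cast at this; exact this
      rw [mul_sub, mul_one, mul_one_div]; linarith
    have hK1 : (1 : ℝ) / (2 * K) ≤ 1 := by
      rw [div_le_one (by positivity)]
      have : (2 : ℝ) ≤ K := by exact_mod_cast hK
      linarith
    have h3 : 1 + (K : ℝ) * (-(1 / (2 * K))) ≤ (1 + -(1 / (2 * K))) ^ K :=
      one_add_mul_le_pow (by linarith) K
    have e : 1 + (K : ℝ) * (-(1 / (2 * K))) = 1 / 2 := by field_simp; ring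
    rw [e, ← sub_eq_add_neg] at h3
    have h4 : ((D : ℝ) * (1 - 1 / (2 * K))) ^ K ≤ Q.prod := by
      refine (pow_le_pow_left₀ (mul_nonneg (by positivity) (by linarith)) h2 K).trans ?_
      exact_mod_cast h1
    rw [mul_pow] at h4
    have h5 : (0 : ℝ) ≤ (D : ℝ) ^ K := by positivity
    have h6 : (D : ℝ) ^ K ≤ 4 * Q.prod := by nlinarith
    exact_mod_cast h6

end Crest.Agent.Lead.IM
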