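import Crest.Agent.H4.IMCell
import Crest.Agent.H6.IMCore
import Crest.Agent.H3.IMArr2

/-! Row 326, final step: digits, carries and the convolution identity. -/

set_option autoImplicit false
set_option linter.unusedVariables false

namespace Crest.Agent.Lead.IM
open Crest.Agent.H3.Ptime Crest.Agent.H9.IM Crest.Agent.H4.IM Finset

instance : Fact CoreStmt := ⟨coreStmt⟩

def cstep (y : (List Unit × ℕ) × ℕ) : (List Unit × ℕ) × List Bool :=
  ((y.1.1, (y.1.2 + y.2) / 2 ^ y.1.1.length), tb y.1.1.length (y.1.2 + y.2))

lemma lin_cstep : Lin cstep := by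
  unfold cstep
  have h1 : Lin (fun y : (List Unit × ℕ) × ℕ => y.1.2 + y.2) := by fun_prop
  have h2 : Lin (fun y : (List Unit × ℕ) × ℕ => y.1.1) := by fun_prop
  exact (h2.pair (cc_shr h1 h2)).pair (cc_tb h1 h2)

lemma scan_cstep (u : List Unit) : ∀ (l : List ℕ) (c : ℕ),
    ob ((scan cstep (u, c) l).2.flatten ++ (scan cstep (u, c) l).1.2.bits) =
      c + Nat.ofDigits (2 ^ u.length) l
  | [], c => by simp [scan, ob_bits]
  | d :: l, c => by
    have ih := scan_cstep u l ((c + d) / 2 ^ u.length)
    simp only [scan, cstep, List.flatten_cons, List.append_assoc] at ih ⊢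
    rw [ob_append, ih, ob_tb, tb_length, Nat.ofDigits_cons, mul_add, ← add_assoc, Nat.mod_add_div]
    ring

lemma visits_cstep (u : List Unit) (hu : 1 ≤ u.length) (W : ℕ) : ∀ (l : List ℕ) (c : ℕ),
    (∀ d ∈ l, d < 2 ^ W) → c ≤ 2 ^ W → ∀ y ∈ visits cstep (u, c) l, y.1.1 = u ∧ y.1.2 ≤ 2 ^ W
  | [], c, _, _ => by simp [visits]
  | d :: l, c, h, hc => by
    intro y hy
    simp only [visits, List.mem_cons] at hy
    rcases hy with rfl | hy
    · exact ⟨rfl, hc⟩
    · refine visits_cstep u hu W l _ (fun e he => h e (by simp [he])) ?_ y hy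
      have h1 := h d (by simp)
      have h2 : 2 ^ 1 ≤ 2 ^ u.length := Nat.pow_le_pow_right (by norm_num) hu
      refine (Nat.div_le_div_left h2 (by norm_num)).trans ?_
      simp only [pow_one]
      omega

theorem cc_od : CC (fun x : List Unit × List ℕ => Nat.ofDigits (2 ^ x.1.length) x.2)
    (fun x T => ∃ W, 1 ≤ x.1.length ∧ (∀ d ∈ x.2, d < 2 ^ W) ∧
      x.2.length * (W + x.1.length + 1) ≤ T) := by
  have h := (coreStmt.scan' lin_cstep).comp3
    (f := fun x : List Unit × List ℕ => ((x.1, (0 : ℕ)), x.2))
    (S := fun x T => ∃ W, 1 ≤ x.1.length ∧ (∀ d ∈ x.2, d < 2 ^ W) ∧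
      x.2.length * (W + x.1.length + 1) ≤ T) (by fun_prop) 10 (by
      rintro ⟨u, l⟩ T ⟨W, h1, h2, h3⟩
      refine ⟨l.length * (10 * (W + u.length + 1)), ⟨fun _ => 0, fun _ _ => trivial, ?_⟩, ?_⟩
      · have h4 := visits_cstep u h1 W l 0 h2 (Nat.zero_le _)
        have := List.sum_le_card_nsmul ((visits cstep (u, 0) l).map (fun y => 0 + sz y.1))
          (10 * (W + u.length + 1)) (by
            intro z hz
            obtain ⟨⟨⟨u', c⟩, d⟩, hy, rfl⟩ := List.mem_map.1 hz
            obtain ⟨e, hc⟩ := h4 _ hy
            simp only at e hc ⊢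
            subst e
            have := sz_le_pow hc
            rw [sz_pair, sz_units]; omega)
        simpa [visits_length] using this
      · simp only at h3 ⊢; nlinarith)
  exact (cc_ob (cc_append (cc_flatten h.snd) h.fst.snd.bits)).of_eq (fun x => by
    rw [scan_cstep]; simp)

lemma ofDigits_bound (w W : ℕ) (hw : 1 ≤ w) : ∀ l : List ℕ, (∀ d ∈ l, d < 2 ^ W) →
    Nat.ofDigits (2 ^ w) l + 2 ^ W ≤ 2 ^ W * (2 ^ w) ^ l.length
  | [], _ => by simp
  | d :: l, h => by
    have ih := ofDigits_bound w W hw l (fun e he => h e (by simp [he]))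
    have h1 := h d (by simp)
    have h2 : 2 ^ 1 ≤ 2 ^ w := Nat.pow_le_pow_right (by norm_num) hw
    rw [Nat.ofDigits_cons, List.length_cons, pow_succ]
    nlinarith

/-! ### the binary size in unary -/

def hstep (s : List Unit × List Unit) : List Unit × List Unit :=
  (List.replicate (chunks 2 s.1).length (), () :: s.2)

lemma hstep_iter (u : List Unit) (i : ℕ) : (hstep^[i] (u, [])).1.length = u.length / 2 ^ i ∧
    (hstep^[i] (u, [])).2.length = i := by
  induction i with
  | zero => simp
  | succ i ih =>
    rw [Function.iterate_succ_apply']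
    simp [hstep, chunks, ih.1, ih.2, pow_succ, Nat.div_div_eq_div_mul]

lemma sum_half (n m : ℕ) : ∑ i ∈ range m, n / 2 ^ i + 2 * (n / 2 ^ m) ≤ 2 * n := by
  induction m with
  | zero => simp
  | succ m ih =>
    rw [sum_range_succ, pow_succ, ← Nat.div_div_eq_div_mul]
    omega

lemma size_sq_le (n : ℕ) : (n.size + 1) * (n.size + 1) ≤ 9 * (n + 1) := by
  rcases Nat.eq_zero_or_pos n with rfl | h
  · simp
  · have h1 := Nat.size_pos.2 h
    have h2 : 2 ^ (n.size - 1) ≤ n := Nat.lt_size.1 (by omega)
    obtain ⟨j, hj⟩ : ∃ j, n.size = j + 1 := ⟨n.size - 1, by omega⟩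
    rw [hj] at h2 ⊢
    simp only [Nat.add_sub_cancel] at h2
    have : ∀ j : ℕ, (j + 1 + 1) * (j + 1 + 1) ≤ 9 * 2 ^ j := by
      intro j
      induction j with
      | zero => simp
      | succ j ih =>
        have : j + 1 ≤ 2 ^ j := Nat.lt_two_pow_self
        rw [pow_succ]; nlinarith
    have := this j
    omega

theorem lin_usize {α : Type} [Enc α] :
    Lin (fun l : List α => List.replicate l.length.size ()) := by
  have h1 : Lin hstep := by
    unfold hstep
    exact (cc_repl () (cc_chunks (m := fun _ => [(), ()]) (CC.const _) (by fun_prop))).pair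
      (by fun_prop)
  have h2 : Lin (fun s : List Unit × List Unit => !s.1.isEmpty) := by fun_prop
  have h3 := (coreStmt.loop h1 h2 (fun s => s.1.length.size)).comp3
    (f := fun l : List α => (List.replicate l.length (), ([] : List Unit)))
    (S := fun _ _ => True) ((cc_repl () CC.id').pair (CC.const _)) 40 (by
      intro l T _
      set u := List.replicate l.length () with hu
      have hl : u.length = l.length := by simp [hu]
      refine ⟨40 * (l.length + 1), ⟨fun i hi => ?_, ?_, fun _ => 0, fun _ _ => ⟨trivial, fun _ => trivial⟩,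
        ?_⟩, by have := length_le_sz l; omega⟩
      · have h4 := (hstep_iter u i).1
        have h5 : 2 ^ i ≤ u.length := Nat.lt_size.1 hi
        have h6 : 0 < u.length / 2 ^ i := Nat.div_pos h5 (by positivity)
        simp only [Bool.not_eq_true', List.isEmpty_eq_false_iff]
        exact List.ne_nil_of_length_pos (by omega)
      · have h4 := (hstep_iter u u.length.size).1
        rw [Nat.div_eq_of_lt (Nat.lt_size_self _)] at h4
        simp [List.length_eq_zero_iff.1 h4]
      · have h4 : ∀ i ∈ range (u.length.size + 1), 0 + sz (hstep^[i] (u, [])) ≤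
            2 * (u.length / 2 ^ i) + 3 * (u.length.size + 1) := by
          intro i hi
          have h5 := hstep_iter u i
          rw [show hstep^[i] (u, []) = ((hstep^[i] (u, [])).1, (hstep^[i] (u, [])).2) from rfl, sz_pair,
            sz_units, sz_units, h5.1, h5.2]
          have := mem_range.1 hi
          omega
        refine (sum_le_sum h4).trans ?_
        rw [sum_add_distrib, ← mul_sum, sum_const, card_range, smul_eq_mul]
        have h5 := sum_half u.length (u.length.size + 1)
        have h6 := size_sq_le u.length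
        rw [← hl]
        nlinarith [Nat.zero_le (u.length / 2 ^ (u.length.size + 1))])
  refine h3.snd.of_eq (fun l => ?_)
  have := (hstep_iter (List.replicate l.length ()) (List.replicate l.length ()).length.size).2
  exact List.eq_replicate_iff.2 ⟨by simpa using this, fun _ _ => rfl⟩

/-! ### values -/

lemma chunks_val (b k : ℕ) (hk : 0 < k) : ∀ (n : ℕ) (l : List ℕ), l.length / k = n →
    Nat.ofDigits (b ^ k) ((chunks k l).map (Nat.ofDigits b)) = Nat.ofDigits b (l.take (k * n))
  | 0, l, h => by simp [chunks, h]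
  | n + 1, l, h => by
    have h1 : k ≤ l.length := by
      by_contra hc
      rw [Nat.div_eq_of_lt (by omega)] at h; omega
    have h2 : (l.take k).length = k := by simp [h1]
    have ih := chunks_val b k hk n (l.drop k) (by
      rw [List.length_drop, ← Nat.add_right_cancel_iff (n := 1), ← Nat.add_div_right _ hk,
        Nat.sub_add_cancel h1, h])
    have e : chunks k l = l.take k :: chunks k (l.drop k) := by
      conv_lhs => rw [← List.take_append_drop k l]
      exact chunks_cons hk _ _ h2
    rw [e, List.map_cons, Nat.ofDigits_cons, ih, mul_add, mul_one, add_comm (k * n), List.take_add,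
      Nat.ofDigits_append, h2]

lemma chunks_map {α β : Type} (f : α → β) (k : ℕ) (l : List α) :
    chunks k (l.map f) = (chunks k l).map (List.map f) := by
  simp [chunks, List.map_take, List.map_drop]

lemma chunks_mem {α : Type} {k : ℕ} {l c : List α} (h : c ∈ chunks k l) :
    c.length = k ∧ ∀ x ∈ c, x ∈ l := by
  simp only [chunks, List.mem_map, List.mem_range] at h
  obtain ⟨j, hj, rfl⟩ := h
  refine ⟨?_, fun x hx => List.mem_of_mem_drop (List.mem_of_mem_take hx)⟩
  have h1 : (j + 1) * k ≤ l.length := (Nat.mul_le_mul_right _ hj).trans (Nat.div_mul_le_self _ _)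
  simp only [List.length_take, List.length_drop]
  rw [add_mul] at h1; omega

/-- the cells of a number -/
def cells (β V : ℕ) (x : List Bool) : Arr :=
  chunks V ((chunks β (x.reverse ++ List.replicate (β * V) false)).map ob)

lemma cells_length (β V : ℕ) (hβ : 0 < β) (hV : 0 < V) (x : List Bool) :
    (cells β V x).length = x.length / (β * V) + 1 := by
  simp only [cells, chunks, List.length_map, List.length_range, List.length_append,
    List.length_reverse, List.length_replicate]
  rw [Nat.div_div_eq_div_mul, Nat.add_div_right _ (by positivity)]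

lemma cells_bd (β V : ℕ) (x : List Bool) : Bd V β (cells β V x) := by
  intro c hc
  refine ⟨(chunks_mem hc).1, fun d hd => ?_⟩
  obtain ⟨e, he, rfl⟩ := List.mem_map.1 ((chunks_mem hc).2 d hd)
  have := ob_lt e
  rwa [(chunks_mem he).1] at this

lemma ob_rev (x : List Bool) : ob x.reverse = Crest.LogicCS.IntMul.bitsVal x := by
  rw [← ofB_reverse, List.reverse_reverse]
  unfold ofB Crest.LogicCS.IntMul.bitsVal
  congr 1
  funext n b
  cases b <;> simp [Nat.bit_val]

lemma cells_val (β V : ℕ) (hβ : 0 < β) (hV : 0 < V) (x : List Bool) :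
    Nat.ofDigits (2 ^ (β * V)) ((cells β V x).map (Nat.ofDigits (2 ^ β))) =
      Crest.LogicCS.IntMul.bitsVal x := by
  set y := x.reverse ++ List.replicate (β * V) false with hy
  have hv : ob y = Crest.LogicCS.IntMul.bitsVal x := by
    rw [hy, ob_append, ob_replicate, ob_rev]; simp
  have hlt : Crest.LogicCS.IntMul.bitsVal x < 2 ^ x.length := by
    rw [← ob_rev]; simpa using ob_lt x.reverse
  have hyl : y.length = x.length + β * V := by simp [hy]
  have h1 : Nat.ofDigits (2 ^ β) ((chunks β y).map ob) = Crest.LogicCS.IntMul.bitsVal x := by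
    have := chunks_val 2 β hβ _ (y.map (fun b => b.toNat)) rfl
    rw [chunks_map, List.map_map, ← List.map_take] at this
    refine this.trans ?_
    change ob _ = _
    rw [ob_take, hv, Nat.mod_eq_of_lt (hlt.trans_le (Nat.pow_le_pow_right (by norm_num) ?_))]
    rw [List.length_map, hyl, Nat.add_mul_div_left _ _ hβ]
    have := Nat.lt_mul_div_succ x.length hβ
    nlinarith
  rw [pow_mul]
  unfold cells
  rw [← hy, chunks_val _ V hV _ _ rfl, ← Nat.ofDigits_mod_pow_eq_ofDigits_take _ (by positivity), h1,
    Nat.mod_eq_of_lt]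
  · refine hlt.trans_le ?_
    rw [← pow_mul]
    refine Nat.pow_le_pow_right (by norm_num) ?_
    simp only [chunks, List.length_map, List.length_range]
    rw [hyl, Nat.div_div_eq_div_mul, Nat.add_div_right _ (by positivity), ← mul_assoc]
    exact (Nat.lt_mul_div_succ x.length (by positivity)).le
  · intro d hd
    obtain ⟨e, he, rfl⟩ := List.mem_map.1 hd
    have := ob_lt e
    rwa [(chunks_mem he).1] at this

lemma ofDigits_sum (b : ℕ) : ∀ l : List ℕ,
    Nat.ofDigits b l = ∑ i ∈ range l.length, l.getD i 0 * b ^ i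
  | [] => by simp
  | d :: l => by
    rw [Nat.ofDigits_cons, ofDigits_sum b l, List.length_cons, sum_range_succ', mul_sum, add_comm]
    simp only [List.getD_cons_succ, List.getD_cons_zero, pow_zero, mul_one, add_left_inj]
    exact sum_congr rfl (fun i _ => by ring)

lemma cauchy (X V : ℕ) (f g : ℕ → ℕ) (hf : ∀ x, V ≤ x → f x = 0) (hg : ∀ x, V ≤ x → g x = 0) :
    ∑ e ∈ range (2 * V), (∑ x ∈ range (e + 1), f x * g (e - x)) * X ^ e =
      (∑ x ∈ range V, f x * X ^ x) * ∑ y ∈ range V, g y * X ^ y := by
  have e1 : ∀ e ∈ range (2 * V), (∑ x ∈ range (e + 1), f x * g (e - x)) * X ^ e =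
      ∑ x ∈ range (e + 1), (fun x y => (f x * X ^ x) * (g y * X ^ y)) x (e - x) := by
    intro e _
    rw [sum_mul]
    refine sum_congr rfl (fun x hx => ?_)
    have : X ^ e = X ^ x * X ^ (e - x) := by
      rw [← pow_add]; congr 1; have := mem_range.1 hx; omega
    rw [this]; ring
  rw [sum_congr rfl e1, sum_range_diag_flip (2 * V) (fun x y => (f x * X ^ x) * (g y * X ^ y)),
    sum_mul_sum]
  symm
  refine (sum_congr rfl (fun x hx => ?_)).trans (sum_subset (range_mono (by omega)) (fun x _ hx => ?_))
  · have := mem_range.1 hx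
    refine sum_subset (range_mono (by omega)) (fun y _ hy => ?_)
    rw [hg y (by simpa using hy)]; simp
  · rw [hf x (by simpa using hx)]; simp

lemma conv_val (X Y V M : ℕ) (A B : Arr) (hA : ∀ c ∈ A, c.length = V) (hB : ∀ c ∈ B, c.length = V)
    (hl : B.length = A.length) (hM : 2 * M ≤ A.length) (h0 : 0 < A.length)
    (hA0 : ∀ i, M ≤ i → Nat.ofDigits X (A.getD i []) = 0)
    (hB0 : ∀ i, M ≤ i → Nat.ofDigits X (B.getD i []) = 0) :
    Nat.ofDigits Y ((convA A B).map (Nat.ofDigits X)) =
      Nat.ofDigits Y (A.map (Nat.ofDigits X)) * Nat.ofDigits Y (B.map (Nat.ofDigits X)) := by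
  have hh : (A.headD []).length = V := by
    cases A with
    | nil => simp at h0
    | cons c A => exact hA c (by simp)
  have gA : ∀ i < A.length, (A.getD i []).length = V := fun i hi => by
    rw [List.getD_eq_getElem _ _ hi]; exact hA _ (List.getElem_mem _)
  have gB : ∀ i < A.length, (B.getD i []).length = V := fun i hi => by
    rw [List.getD_eq_getElem _ _ (hl ▸ hi)]; exact hB _ (List.getElem_mem _)
  have eM : ∀ (C : Arr) (i : ℕ), (C.map (Nat.ofDigits X)).getD i 0 = Nat.ofDigits X (C.getD i []) := by
    intro C i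
    exact List.getD_map (l := C) (d := []) (Nat.ofDigits X)
  rw [ofDigits_sum, ofDigits_sum, ofDigits_sum, sum_mul_sum]
  simp only [List.length_map, eM, hl]
  have e0 : (convA A B).length = A.length := by simp [convA]
  rw [e0]
  have e1 : ∀ m ∈ range A.length, Nat.ofDigits X ((convA A B).getD m []) * Y ^ m =
      ∑ i ∈ range A.length, ∑ j ∈ range A.length, if (i + j) % A.length = m then
        Nat.ofDigits X (A.getD i []) * Nat.ofDigits X (B.getD j []) * Y ^ m else 0 := by
    intro m hm
    have hm' := mem_range.1 hm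
    have e2 : (convA A B).getD m [] = (List.range (2 * V)).map (fun e =>
        ∑ x ∈ range (e + 1), cconv A.length (fun i => (A.getD i []).getD x 0)
          (fun i => (B.getD i []).getD (e - x) 0) m) := by
      simp [convA, List.getD_eq_getElem?_getD, hm', ← hh]
    rw [e2, ofDigits_sum, List.length_map, List.length_range]
    have e3 : ∀ e ∈ range (2 * V), ((List.range (2 * V)).map (fun e =>
        ∑ x ∈ range (e + 1), cconv A.length (fun i => (A.getD i []).getD x 0)
          (fun i => (B.getD i []).getD (e - x) 0) m)).getD e 0 * X ^ e =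
        ∑ i ∈ range A.length, ∑ j ∈ range A.length, if (i + j) % A.length = m then
          (∑ x ∈ range (e + 1), (A.getD i []).getD x 0 * (B.getD j []).getD (e - x) 0) * X ^ e
          else 0 := by
      intro e he
      rw [List.getD_eq_getElem _ _ (by simpa using he), List.getElem_map, List.getElem_range]
      unfold cconv
      rw [sum_comm, sum_mul]
      refine sum_congr rfl (fun i _ => ?_)
      rw [sum_comm, sum_mul]
      refine sum_congr rfl (fun j _ => ?_)
      split_ifs <;> simp
    rw [sum_congr rfl e3, sum_comm, sum_mul]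
    refine sum_congr rfl (fun i hi => ?_)
    rw [sum_comm, sum_mul]
    refine sum_congr rfl (fun j hj => ?_)
    split_ifs
    · rw [cauchy X V (fun x => (A.getD i []).getD x 0) (fun x => (B.getD j []).getD x 0)
        (fun x hx => List.getD_eq_default _ _ (by rw [gA i (mem_range.1 hi)]; exact hx))
        (fun x hx => List.getD_eq_default _ _ (by rw [gB j (mem_range.1 hj)]; exact hx)),
        ofDigits_sum, ofDigits_sum, gA i (mem_range.1 hi), gB j (mem_range.1 hj)]
    · simp
  rw [sum_congr rfl e1, sum_comm]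
  refine sum_congr rfl (fun i _ => ?_)
  rw [sum_comm]
  refine sum_congr rfl (fun j _ => ?_)
  rw [sum_ite_eq, if_pos (mem_range.2 (Nat.mod_lt _ h0))]
  by_cases hi : M ≤ i
  · simp [hA0 i hi, -List.getD_eq_getElem?_getD]
  by_cases hj : M ≤ j
  · simp [hB0 j hj, -List.getD_eq_getElem?_getD]
  rw [Nat.mod_eq_of_lt (by omega), pow_add]; ring

lemma conv_bd (V w : ℕ) (A B : Arr) (hA : Bd V w A) (hB : Bd V w B) (h0 : 0 < A.length) :
    ∀ c ∈ convA A B, c.length = 2 * V ∧
      ∀ d ∈ c, d ≤ 2 * V * (A.length * (A.length * (2 ^ w * 2 ^ w))) := by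
  have hh : (A.headD []).length = V := by
    cases A with
    | nil => simp at h0
    | cons c A => exact (hA c (by simp)).1
  have g : ∀ C : Arr, Bd V w C → ∀ i x, (C.getD i []).getD x 0 ≤ 2 ^ w := by
    intro C hC i x
    by_cases hi : i < C.length
    · rw [List.getD_eq_getElem _ _ hi]
      by_cases hx : x < C[i].length
      · rw [List.getD_eq_getElem _ _ hx]
        exact ((hC _ (List.getElem_mem _)).2 _ (List.getElem_mem _)).le
      · rw [List.getD_eq_default _ _ (by omega)]; exact Nat.zero_le _
    · rw [List.getD_eq_default C _ (by omega)]; simp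
  intro c hc
  obtain ⟨m, -, rfl⟩ := List.mem_map.1 hc
  refine ⟨by simp [← hh], fun d hd => ?_⟩
  obtain ⟨e, he, rfl⟩ := List.mem_map.1 hd
  rw [List.mem_range, hh] at he
  refine (sum_le_card_nsmul _ _ (A.length * (A.length * (2 ^ w * 2 ^ w))) (fun x _ => ?_)).trans
    (by rw [card_range, smul_eq_mul]; exact Nat.mul_le_mul_right _ (by omega))
  unfold cconv
  refine (sum_le_card_nsmul _ _ (A.length * (2 ^ w * 2 ^ w)) (fun i _ => ?_)).trans (by simp)
  refine (sum_le_card_nsmul _ _ (2 ^ w * 2 ^ w) (fun j _ => ?_)).trans (by simp)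
  split_ifs
  · exact Nat.mul_le_mul (g A hA _ _) (g B hB _ _)
  · exact Nat.zero_le _

end Crest.Agent.Lead.IM
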