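import Crest.Agent.Lead.IMF1
import Crest.Agent.Lead.IMCop
import Crest.Agent.H3.IMBridge

/-! Row 326, final step: assembly of the multiplication algorithm. -/

set_option autoImplicit false
set_option linter.unusedVariables false

namespace Crest.Agent.Lead.IM
open Crest.Agent.H3.Ptime Crest.Agent.H9.IM Crest.Agent.H4.IM Finset
open Crest.LogicCS.IntMul

def CostB : Prop := ∀ (E k l K B : ℕ) (hE : (E : ℝ) = 2 ^ 42) (h1 : B ^ E ≤ l) (h2 : l < (B + 1) ^ E)
  (h3 : K + 1 ≤ l) (h4 : K * (B + 1) ≤ 2 * l) (h5 : 2 ≤ l) (h6 : 1 ≤ B),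
  ((l ^ (4 * k) : ℕ) : ℝ) * (((l ^ 3 : ℕ) : ℝ) + 1) ^ (1 + gam) *
    (((K : ℝ) + 1) ^ th * ((B : ℝ) + 1) ^ 2 + K * ((B : ℝ) + 1) ^ th + 1) + ((l ^ 4 : ℕ) : ℝ) ^ k +
    ((((l ^ (4 * k) : ℕ) : ℝ) + 1) * (((l ^ 3 : ℕ) : ℝ) + 1)) ^ (1 + 1 / (2 * (4 * (k : ℝ) + 5))) ≤
    19 * ((l ^ 3 * l ^ (4 * k) : ℕ) : ℝ) * (l : ℝ) ^ (1 - 1 / (2 : ℝ) ^ 182)

def ParF : Prop := ∀ (E k c j B0 : ℕ) (hE : 3 ≤ E), ∃ l0 : ℕ, ∀ n l B W M ell K s : ℕ, l = n.size →
  l0 ≤ l → B = Nat.nthRoot E l → W = l ^ 3 * l ^ (4 * k) → M = n / W + 1 → ell = (8 * M).size →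
  K = ell / (B + 1) → s = ell - K * B → B0 ≤ B ∧ 1 ≤ B ∧ B ≤ K ∧ K ≤ s ∧ s ≤ K + B ∧ 2 ≤ K ∧
  K ≤ (2 * B) ^ E ∧ s + B * K = ell ∧ ell ≤ l + 3 ∧ K + 1 ≤ l ∧ K * (B + 1) ≤ 2 * l ∧
  K * (ell + 1) * 8 ≤ 2 ^ ((B - 1) / 2) ∧ c * (ell + 1) ^ 2 + (l ^ (4 * k)).size ≤ l ^ 3 ∧
  (l ^ (4 * k)).size + 2 * ell + 1 ≤ l ^ 3 ∧ 100 ≤ l ∧ W ≤ n ∧ ((2 ^ B + 1) * l ^ 4) ^ j ≤ n

lemma cc_pt {α β γ : Type} [Enc α] [Enc β] [Enc γ] {g : β → γ} (hg : PT g) :
    ∃ j0, ∀ J ≥ j0, ∀ (f : α → β) (S : α → ℕ → Prop), CC f S →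
      (∀ a T, S a T → sz (f a) ^ J ≤ T) → CC (fun a => g (f a)) S := by
  obtain ⟨j0, h⟩ := CC.ofPT hg
  exact ⟨j0, fun J hJ f S hf hS => h.comp2 hf (fun a T hT =>
    (Nat.pow_le_pow_right (sz_pos _) hJ).trans (hS a T hT))⟩

lemma PT_repl {α : Type} [Enc α] {e : α → ℕ} (he : PT e) (hb : PB e) :
    PT (fun a => List.replicate (e a) ()) :=
  (PT.map (f := fun _ (_ : ℕ) => ()) (he.range hb) (PT.const _)).of_eq (fun a => by simp)

lemma nthRoot_le (E : ℕ) (hE : E ≠ 0) (l : ℕ) : Nat.nthRoot E l ≤ l :=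
  (Nat.le_self_pow hE _).trans (Nat.pow_nthRoot_le (Or.inl hE))

lemma PT_root (E : ℕ) (hE : E ≠ 0) : PT (fun u : List Unit => Nat.nthRoot E u.length) := by
  have h1 : PT (fun p : List Unit × ℕ => (p.2 + 1) ^ E) :=
    PT.pow (by fun_prop) (PT.const _) (PB.const _)
  refine (PT.length (PT.filter (f := fun (u : List Unit) (b : ℕ) => decide ((b + 1) ^ E ≤ u.length))
    (PT.rangeL PT.id') (h1.le (by fun_prop)))).of_eq (fun u => ?_)
  obtain ⟨d, hd⟩ := Nat.exists_eq_add_of_le (nthRoot_le E hE u.length)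
  have e : (fun b : ℕ => decide ((b + 1) ^ E ≤ u.length)) =
      fun b => decide (b < Nat.nthRoot E u.length) := by
    funext b; simp only [← Nat.le_nthRoot_iff hE, Nat.succ_le_iff]
  rw [e]
  generalize Nat.nthRoot E u.length = r at hd
  rw [hd, List.range_add, List.filter_append, List.filter_eq_self.2 (by simp),
    List.filter_eq_nil_iff.2 (by simp)]
  simp

abbrev XX := List Bool × List Bool

def pl (x : XX) : ℕ := x.1.length.size
def pM (k : ℕ) (x : XX) : ℕ := x.1.length / (pl x ^ 3 * pl x ^ (4 * k)) + 1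
def qB (E l : ℕ) : ℕ := Nat.nthRoot E l
def qe (M : ℕ) : ℕ := (8 * M).size
def qK (E l M : ℕ) : ℕ := qe M / (qB E l + 1)
def qs (E l M : ℕ) : ℕ := qe M - qK E l M * qB E l
def qq (f : List Unit × ℕ × ℕ → List ℕ × List ℕ) (E l M : ℕ) : TQ :=
  (2 ^ qB E l, 2 ^ qs E l M, f (List.replicate (2 ^ qB E l) (), qK E l M, 2 ^ qs E l M))
def pA (β V r : ℕ) (y : List Bool) : Arr := cells β V y ++ List.replicate r (List.replicate V 0)

lemma PT_g2 (E : ℕ) (hE : E ≠ 0) : PT (fun p : List Unit × ℕ =>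
    (2 ^ qB E p.1.length, qK E p.1.length p.2, 2 ^ qs E p.1.length p.2)) := by
  have hB : PT (fun p : List Unit × ℕ => qB E p.1.length) := (PT_root E hE).comp (PT.fst PT.id')
  have hB' : PB (fun p : List Unit × ℕ => qB E p.1.length) :=
    (PB.length (PT.fst PT.id')).of_le (fun p => nthRoot_le E hE _)
  have he : PT (fun p : List Unit × ℕ => qe p.2) := by unfold qe; fun_prop
  have he' : PB (fun p : List Unit × ℕ => qe p.2) := PB.natSize (by fun_prop)
  have hK : PT (fun p : List Unit × ℕ => qK E p.1.length p.2) := he.div (hB.add (PT.const _))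
  have hs : PT (fun p : List Unit × ℕ => qs E p.1.length p.2) := he.sub (hK.mul hB)
  exact (PT.pow (PT.const _) hB hB').pair (hK.pair (PT.pow (PT.const _) hs (PB.sub he')))

lemma pA_bd (β V r : ℕ) (y : List Bool) : Bd V β (pA β V r y) := by
  intro c hc
  rcases List.mem_append.1 hc with h | h
  · exact cells_bd β V y c h
  · rw [List.eq_of_mem_replicate h]
    exact ⟨by simp, fun x hx => by rw [List.eq_of_mem_replicate hx]; positivity⟩

lemma pA_val (β V r : ℕ) (hβ : 0 < β) (hV : 0 < V) (y : List Bool) :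
    Nat.ofDigits (2 ^ (β * V)) ((pA β V r y).map (Nat.ofDigits (2 ^ β))) = bitsVal y := by
  unfold pA
  rw [List.map_append, List.map_replicate, Nat.ofDigits_replicate_zero,
    Nat.ofDigits_append_replicate_zero, cells_val β V hβ hV]

lemma pA_zero (β V r : ℕ) (y : List Bool) (i : ℕ) (hi : (cells β V y).length ≤ i) :
    Nat.ofDigits (2 ^ β) ((pA β V r y).getD i []) = 0 := by
  unfold pA
  rw [List.getD_append_right _ _ _ _ hi]
  by_cases h : i - (cells β V y).length < r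
  · rw [List.getD_eq_getElem _ _ (by simpa using h)]; simp
  · rw [List.getD_eq_default _ _ (by simpa using h)]; rfl

lemma sz_small (l : List ℕ) (B : ℕ) (h : ∀ x ∈ l, x ≤ 2 ^ B) : sz l ≤ l.length * (4 * B + 9) + 1 :=
  sz_le_mul l _ (fun x hx => sz_le_pow (h x hx))

set_option maxHeartbeats 4000000 in
theorem cc_big (hCost : CostB) (hPar : ParF) (hC : ConvStmt) : ∃ l0 : ℕ,
    CC (fun x : XX => bitsVal x.1 * bitsVal x.2) (fun x T => x.1.length = x.2.length ∧ l0 ≤ pl x ∧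
      (x.1.length : ℝ) * (pl x : ℝ) ^ (1 - 1 / (2 : ℝ) ^ 182) ≤ T) := by
  obtain ⟨c, k, hConv⟩ := hC
  obtain ⟨E, hE, hE3⟩ : ∃ E : ℕ, (E : ℝ) = 2 ^ 42 ∧ 3 ≤ E := ⟨2 ^ 42, by norm_num, by norm_num⟩
  have hE0 : E ≠ 0 := by omega
  obtain ⟨f, hf, hcop⟩ := copStmt
  obtain ⟨B0, hB0⟩ := hcop E
  have g1 : PT (fun u : List Unit => (List.replicate (u.length ^ 3) (),
      List.replicate (u.length ^ (4 * k)) (), List.replicate (u.length ^ 3 * u.length ^ (4 * k)) ())) := by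
    have a1 : ∀ j, PT (fun u : List Unit => u.length ^ j) := fun j =>
      PT.pow (by fun_prop) (PT.const _) (PB.const _)
    have a2 : ∀ j, PB (fun u : List Unit => u.length ^ j) := fun j => (PB.length PT.id').pow j
    exact (PT_repl (a1 _) (a2 _)).pair ((PT_repl (a1 _) (a2 _)).pair
      (PT_repl ((a1 _).mul (a1 _)) ((a2 _).mul (a2 _))))
  have g4 : PT (fun p : TQ × ℕ => tM p.1 - p.2) := by unfold tM; fun_prop
  obtain ⟨j1, c1⟩ := cc_pt (α := XX) g1
  obtain ⟨j2, c2⟩ := cc_pt (α := XX) (PT_g2 E hE0)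
  obtain ⟨j3, c3⟩ := cc_pt (α := XX) hf
  obtain ⟨j4, c4⟩ := cc_pt (α := XX) g4
  obtain ⟨J, hJ⟩ : ∃ J, J = j1 + j2 + j3 + j4 + k + 1 := ⟨_, rfl⟩
  obtain ⟨l0, hl0⟩ := hPar E k c J B0 hE3
  refine ⟨l0, ?_⟩
  set S : XX → ℕ → Prop := fun x T => x.1.length = x.2.length ∧ l0 ≤ pl x ∧
      (x.1.length : ℝ) * (pl x : ℝ) ^ (1 - 1 / (2 : ℝ) ^ 182) ≤ T with hS
  -- numerical facts
  have key : ∀ x T, S x T → ∃ l B M e K s : ℕ, pl x = l ∧ qB E l = B ∧ pM k x = M ∧ qe M = e ∧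
      qK E l M = K ∧ qs E l M = s ∧ x.1.length ≤ T ∧ TP (qq f E l M) ∧ tN (qq f E l M) = 2 ^ e ∧
      tN (qq f E l M) ≤ 4 * tM (qq f E l M) ∧ tM (qq f E l M) ≤ 2 ^ e ∧ 2 * M ≤ tM (qq f E l M) ∧
      2 ^ e * (l ^ 3 * l ^ (4 * k)) ≤ 32 * x.1.length ∧ tK (qq f E l M) = K ∧
      sz (qq f E l M) ≤ 20 * l ^ 2 ∧ (∀ z, z ≤ (2 ^ B + 1) * l ^ 4 → z ^ J ≤ T) ∧
      1 ≤ B ∧ B ≤ K ∧ s ≤ e ∧ e ≤ l + 3 ∧ K + 1 ≤ l ∧ K * (B + 1) ≤ 2 * l ∧
      c * (e + 1) ^ 2 + (l ^ (4 * k)).size ≤ l ^ 3 ∧ (l ^ (4 * k)).size + 2 * e + 1 ≤ l ^ 3 ∧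
      100 ≤ l ∧ ((2 ^ B + 1) * l ^ 4) ^ J ≤ x.1.length := by
    rintro x T ⟨s1, s2, s3⟩
    obtain ⟨f0, f1, f2, f3, f4, f5, f6, f7, f8, f9, f10, f11, f12, f13, f14, f15, f16⟩ :=
      hl0 x.1.length (pl x) (qB E (pl x)) _ (pM k x) (qe (pM k x)) (qK E (pl x) (pM k x))
        (qs E (pl x) (pM k x)) rfl s2 rfl rfl rfl rfl rfl rfl
    have hM : pM k x = x.1.length / (pl x ^ 3 * pl x ^ (4 * k)) + 1 := rfl
    have hlt : 8 * pM k x < 2 ^ qe (pM k x) := Nat.lt_size_self _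
    have hle : 2 ^ qe (pM k x) ≤ 16 * pM k x := by
      have h1 : 0 < qe (pM k x) := Nat.size_pos.2 (by rw [hM]; positivity)
      have h2 : 2 ^ (qe (pM k x) - 1) ≤ 8 * pM k x := Nat.lt_size.1 (by unfold qe at *; omega)
      have h3 : 2 ^ qe (pM k x) = 2 * 2 ^ (qe (pM k x) - 1) := by
        rw [← pow_succ']; congr 1; omega
      omega
    obtain ⟨r1, r2, r3, r4, r5, r6⟩ := hB0 _ f0 _ (qs E (pl x) (pM k x)) f5 f6
    have hq : qq f E (pl x) (pM k x) = (2 ^ qB E (pl x), 2 ^ qs E (pl x) (pM k x),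
      f (List.replicate (2 ^ qB E (pl x)) (), qK E (pl x) (pM k x), 2 ^ qs E (pl x) (pM k x))) := rfl
    refine ⟨_, _, _, _, _, _, rfl, rfl, rfl, rfl, rfl, rfl, ?_⟩
    rw [hq]
    generalize f (List.replicate (2 ^ qB E (pl x)) (), qK E (pl x) (pM k x),
      2 ^ qs E (pl x) (pM k x)) = r at *
    generalize qs E (pl x) (pM k x) = s at *
    generalize qK E (pl x) (pM k x) = K at *
    generalize qe (pM k x) = e at *
    generalize qB E (pl x) = B at *
    generalize pM k x = M at *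
    generalize pl x = l at *
    obtain ⟨Q, C⟩ := r
    simp only at r1 r2 r3 r4 r5 r6
    have hT : x.1.length ≤ T := by
      have h1 : (1 : ℝ) ≤ (l : ℝ) ^ (1 - 1 / (2 : ℝ) ^ 182) :=
        Real.one_le_rpow (by exact_mod_cast (by omega : 1 ≤ l)) (by norm_num)
      have h2 : (x.1.length : ℝ) ≤ T := le_trans (le_mul_of_one_le_right (by positivity) h1) s3
      exact_mod_cast h2
    have hN : tN (2 ^ B, 2 ^ s, Q, C) = 2 ^ e := by
      simp only [tN, tK, r1]; rw [← pow_mul, ← pow_add, f7]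
    have hN2 : 2 ^ s * (2 ^ B) ^ K = 2 ^ e := by rw [← pow_mul, ← pow_add, f7]
    have hNM : 2 ^ e ≤ 4 * tM (2 ^ B, 2 ^ s, Q, C) := by
      simp only [tM]; rw [← hN2, mul_left_comm]; exact Nat.mul_le_mul_left _ r6
    have hMN : tM (2 ^ B, 2 ^ s, Q, C) ≤ 2 ^ e := by
      simp only [tM]; rw [← hN2, ← r1]
      exact Nat.mul_le_mul_left _ (List.prod_le_pow_card _ _ (fun y hy => (r3 y hy).2))
    refine ⟨hT, ⟨B, s, rfl, rfl, f1, by simpa [tK, r1] using f2, by simpa [tK, r1] using f3,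
      by simpa [tK, r1] using f4, by simp [tK, r1, r2], r3, r4, by simpa [tK, r1] using r5, ?_⟩,
      hN, hN ▸ hNM, hMN, by omega, ?_, r1, ?_, fun z hz => ?_, f1, f2, by omega, f8, f9, f10, f12,
      f13, f14, f16⟩
    · rw [hN, Nat.log_pow (by norm_num)]; simpa [tK, r1] using f11
    · have h1 := Nat.div_mul_le_self x.1.length (l ^ 3 * l ^ (4 * k))
      have h2 := Nat.mul_le_mul_right (l ^ 3 * l ^ (4 * k)) hle
      rw [hM] at h2
      nlinarith
    · rw [sz_pair, sz_pair, sz_pair]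
      have h1 := sz_le_pow (le_refl (2 ^ B))
      have h2 := sz_le_pow (le_refl (2 ^ s))
      have h3 := sz_small Q B (fun y hy => (r3 y hy).2)
      have h4 := sz_small C B (fun y hy => (r4 y hy).le)
      rw [r1] at h3; rw [r2] at h4
      have h5 : K * (4 * B + 9) ≤ l * (5 * l) := Nat.mul_le_mul (by omega) (by omega)
      nlinarith
    · exact (Nat.pow_le_pow_left hz _).trans (f16.trans hT)
  -- the computation
  have d1 : CC (fun x : XX => x.1) S := by fun_prop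
  have d2 : CC (fun x : XX => x.2) S := by fun_prop
  have ul : CC (fun x : XX => List.replicate (pl x) ()) S := CC.comp lin_usize d1
  have big : ∀ l B z : ℕ, 100 ≤ l → z ≤ 50 * l ^ 2 → z ≤ (2 ^ B + 1) * l ^ 4 := by
    intro l B z h1 h2
    have h3 : 50 * l ^ 2 ≤ l ^ 2 * l ^ 2 := Nat.mul_le_mul_right _ (by nlinarith)
    calc z ≤ 1 * l ^ 4 := by rw [one_mul]; exact h2.trans (h3.trans (le_of_eq (by ring)))
      _ ≤ _ := Nat.mul_le_mul_right _ (Nat.le_add_left _ _)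
  have u1 := c1 J (by omega) _ S ul (fun x T hT => by
    obtain ⟨l, B, M, e, K, s, e1, -, -, -, -, -, -, -, -, -, -, -, -, -, -, hz, -, -, -, -, -, -, -, -,
      h100, -⟩ := key x T hT
    refine hz _ (big l B _ h100 ?_)
    rw [sz_units, e1, List.length_replicate]; nlinarith)
  simp only [List.length_replicate] at u1
  have uβ := u1.fst
  have uV := u1.snd.fst
  have uW := u1.snd.snd
  have hob : Lin ob := cc_ob CC.id'
  have cel : ∀ {y : XX → List Bool}, CC y S →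
      CC (fun x => cells (pl x ^ 3) (pl x ^ (4 * k)) (y x)) S := fun hy =>
    (cc_chunks uV (cc_map hob (cc_chunks uβ (cc_append (cc_reverse hy) (cc_repl false uW))))).of_eq
      (fun x => by simp only [List.length_replicate]; rfl)
  have clen : ∀ x T (y : List Bool), S x T → y.length = x.1.length →
      (cells (pl x ^ 3) (pl x ^ (4 * k)) y).length = pM k x := by
    intro x T y hT hy
    obtain ⟨l, B, M, e, K, s, e1, -, -, -, -, -, -, -, -, -, -, -, -, -, -, hz, -, -, -, -, -, -, -, -,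
      h100, -⟩ := key x T hT
    have : 0 < pl x := by omega
    rw [cells_length _ _ (by positivity) (by positivity), hy]; rfl
  have hW : ∀ l : ℕ, 100 ≤ l → 100 * l ≤ l ^ 3 * l ^ (4 * k) := fun l h => by
    have h1 : 1 ≤ l ^ (4 * k) := Nat.one_le_pow _ _ (by omega)
    have h2 : 100 * l ≤ l ^ 3 := by
      have : 100 ≤ l * l := by nlinarith
      calc 100 * l ≤ l * l * l := Nat.mul_le_mul_right _ this
        _ = _ := by ring
    nlinarith
  have uM : CC (fun x => pM k x) S :=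
    (CC_length.comp3 (cel d1) 32 (fun x T hT => by
      rw [clen x T _ hT rfl]
      obtain ⟨l, B, M, e, K, s, e1, -, e3, -, -, -, hT', -, -, -, h1, h2, h3, -, -, -, -, -, -, h4, -, -,
        -, -, h100, -⟩ := key x T hT
      refine ⟨_, ⟨e, by omega, le_rfl⟩, ?_⟩
      have h5 := hW l h100
      rw [e3]
      have h6 : M * (4 * e + 8) ≤ 2 ^ e * (l ^ 3 * l ^ (4 * k)) := Nat.mul_le_mul (by omega) (by omega)
      omega)).congr (fun x T hT => clen x T _ hT rfl)
  have u2 := c2 J (by omega) _ S (ul.pair uM) (fun x T hT => by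
    obtain ⟨l, B, M, e, K, s, e1, -, e3, -, -, -, -, -, -, -, h1, h2, -, -, -, hz, -, -, -, h4, -, -,
      -, -, h100, -⟩ := key x T hT
    refine hz _ (big l B _ h100 ?_)
    rw [sz_pair, sz_units, e1, e3, List.length_replicate]
    have := sz_le_pow (show M ≤ 2 ^ e by omega)
    nlinarith)
  simp only [List.length_replicate] at u2
  have uD := coreStmt.unary.comp2 u2.fst (fun x T hT => by
    obtain ⟨l, B, M, e, K, s, e1, e2, -, -, -, -, hT', -, -, -, -, -, -, -, -, hz, -, h1, -, -, h2, -,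
      -, -, h100, -⟩ := key x T hT
    simp only [e1, e2]
    have h3 := sz_le_pow (le_refl (2 ^ B))
    have h4 : 2 ^ B * (sz (2 ^ B) + 1) ≤ (2 ^ B + 1) * l ^ 4 :=
      Nat.mul_le_mul (by omega) (by
        have h := big l 0 (2 * (sz (2 ^ B) + 1)) h100 (by nlinarith)
        simp only [pow_zero] at h; omega)
    have h5 := hz _ h4
    exact (Nat.le_self_pow (by omega) _).trans h5)
  have u3 := c3 J (by omega) _ S (uD.pair u2.snd) (fun x T hT => by
    obtain ⟨l, B, M, e, K, s, e1, e2, e3, -, e5, e6, -, -, -, -, -, -, -, -, -, hz, -, -, h1, h2, h3, -,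
      -, -, h100, -⟩ := key x T hT
    simp only [e1, e2, e3, e5, e6]
    refine hz _ ?_
    rw [sz_pair, sz_pair, sz_units, List.length_replicate]
    have h4 := sz_le_pow (show K ≤ 2 ^ l from (Nat.lt_two_pow_self (n := K)).le.trans
      (Nat.pow_le_pow_right (by norm_num) (by omega)))
    have h5 := sz_le_pow (le_refl (2 ^ s))
    have h6 := big l 0 (2 * (8 * l + 40)) h100 (by nlinarith)
    simp only [pow_zero] at h6
    have h7 : 2 ^ B * 2 ≤ 2 ^ B * l ^ 4 := Nat.mul_le_mul_left _ (by omega)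
    rw [add_mul]; omega)
  have uq : CC (fun x => qq f E (pl x) (pM k x)) S := u2.fst.pair (u2.snd.snd.pair u3)
  have u4 := c4 J (by omega) _ S (uq.pair uM) (fun x T hT => by
    obtain ⟨l, B, M, e, K, s, e1, -, e3, -, -, -, -, -, -, -, h1, h2, -, -, h3, hz, -, -, -, h4, -, -,
      -, -, h100, -⟩ := key x T hT
    refine hz _ (big l B _ h100 ?_)
    rw [sz_pair, e1, e3]
    have := sz_le_pow (show M ≤ 2 ^ e by omega)
    nlinarith)
  have uR := coreStmt.unary.comp3 u4 32 (fun x T hT => by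
    obtain ⟨l, B, M, e, K, s, e1, -, e3, -, -, -, hT', -, -, -, h1, h2, h3, -, -, -, -, -, -, h4, -, -,
      -, -, h100, -⟩ := key x T hT
    refine ⟨_, le_rfl, ?_⟩
    simp only [e1, e3]
    have h5 := hW l h100
    have h7 := sz_le_pow (show tM (qq f E l M) - M ≤ 2 ^ e by omega)
    have h6 : (tM (qq f E l M) - M) * (sz (tM (qq f E l M) - M) + 1) ≤
      2 ^ e * (l ^ 3 * l ^ (4 * k)) := Nat.mul_le_mul (by omega) (by omega)
    omega)
  have uZ := cc_mapE (f := fun y : List ℕ × Unit => y.1) (by fun_prop) (cc_repl (0 : ℕ) uV) uR 32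
    (fun x T hT => by
      obtain ⟨l, B, M, e, K, s, e1, -, e3, -, -, -, hT', -, -, -, h1, h2, h3, -, -, -, -, -, -, h4, -, -,
        -, -, h100, -⟩ := key x T hT
      simp only [e1, e3, List.length_replicate]
      have h7 := sz_small (List.replicate (l ^ (4 * k)) 0) 0 (fun y hy => by
        rw [List.eq_of_mem_replicate hy]; exact Nat.zero_le _)
      rw [List.length_replicate] at h7
      have h8 : 1 ≤ l ^ (4 * k) := Nat.one_le_pow _ _ (by omega)
      have h9 : 100 ≤ l ^ 3 := h100.trans (Nat.le_self_pow (by norm_num) _)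
      have h6 : (tM (qq f E l M) - M) * sz (List.replicate (l ^ (4 * k)) 0) ≤
        2 ^ e * (l ^ 3 * l ^ (4 * k)) := Nat.mul_le_mul (by omega) (by nlinarith)
      omega)
  have uA : ∀ {y : XX → List Bool}, CC y S → CC (fun x => pA (pl x ^ 3) (pl x ^ (4 * k))
      (tM (qq f E (pl x) (pM k x)) - pM k x) (y x)) S := fun hy =>
    (cc_append (cel hy) uZ).of_eq (fun x => by simp [pA])
  have alen : ∀ x T (y : List Bool), S x T → y.length = x.1.length →
      (pA (pl x ^ 3) (pl x ^ (4 * k)) (tM (qq f E (pl x) (pM k x)) - pM k x) y).length =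
        tM (qq f E (pl x) (pM k x)) := by
    intro x T y hT hy
    rw [pA, List.length_append, clen x T y hT hy, List.length_replicate]
    obtain ⟨l, B, M, e, K, s, e1, -, e3, -, -, -, -, -, -, -, -, h2, -⟩ := key x T hT
    rw [e1, e3]; omega
  have uC := (hConv (1 / (2 * (4 * (k : ℝ) + 5))) (by positivity)).comp3
    ((uq.pair uβ).pair ((uA d1).pair (uA d2))) 609 (fun x T hT => by
      have a1 := alen x T _ hT rfl
      have a2 := alen x T _ hT hT.1.symm
      have b1 := pA_bd (pl x ^ 3) (pl x ^ (4 * k)) (tM (qq f E (pl x) (pM k x)) - pM k x) x.1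
      have b2 := pA_bd (pl x ^ 3) (pl x ^ (4 * k)) (tM (qq f E (pl x) (pM k x)) - pM k x) x.2
      have s3 := hT.2.2
      obtain ⟨l, B, M, e, K, s, e1, e2, e3, -, -, -, hT', h1, h2, h3, -, -, h4, h5, h6, -, h7, -, -, h8,
        h9, h10, h11, -, h100, h12⟩ := key x T hT
      simp only [e1, e3] at a1 a2 b1 b2 s3 ⊢
      refine ⟨609 * T, ⟨l ^ (4 * k), l ^ 4, h1, h3, a1, a2, by simpa using b1, by simpa using b2, ?_, ?_, ?_,
        ?_, ?_⟩, by omega⟩
      · rw [h2, Nat.log_pow (by norm_num), List.length_replicate]; exact h11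
      · rw [sz_pair, sz_units, List.length_replicate]
        have : 100 * l ^ 3 ≤ l ^ 4 := by rw [pow_succ' l 3]; exact Nat.mul_le_mul_right _ h100
        have : 100 * l ^ 2 ≤ l ^ 3 := by rw [pow_succ' l 2]; exact Nat.mul_le_mul_right _ h100
        have : 1 ≤ l ^ 2 := Nat.one_le_pow _ _ (by omega)
        omega
      · rw [h2]
        refine Nat.pow_le_pow_right (by norm_num) ?_
        have := big l 0 (2 * e) h100 (by nlinarith)
        simp only [pow_zero] at this; omega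
      · exact (by omega : 2 ≤ l).trans (Nat.le_self_pow (by norm_num) _)
      · have hc := hCost E k l K B hE (e2 ▸ Nat.pow_nthRoot_le (Or.inl hE0))
          (e2 ▸ Nat.lt_pow_nthRoot_add_one hE0 l) h9 h10 (by omega) h7
        have eX : tX (qq f E l M) = ((K : ℝ) + 1) ^ th * ((B : ℝ) + 1) ^ 2 + K * ((B : ℝ) + 1) ^ th := by
          unfold tX
          rw [h5]
          simp only [qq, e2, Nat.log_pow (show 1 < 2 by norm_num)]
        have eD : (qq f E l M).1 = 2 ^ B := by simp only [qq, e2]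
        rw [eX, eD, h2, List.length_replicate]
        have p1 : ((2 ^ e : ℕ) : ℝ) * ((l ^ 3 * l ^ (4 * k) : ℕ) : ℝ) ≤ 32 * x.1.length := by
          exact_mod_cast h4
        have p2 : ((((2 ^ B : ℕ) : ℝ) + 1) * ((l ^ 4 : ℕ) : ℝ)) ^ k ≤ T := by
          have := (Nat.pow_le_pow_right (by positivity) (show k ≤ J by omega)).trans (h12.trans hT')
          exact_mod_cast this
        have p3 := mul_le_mul_of_nonneg_left hc (show (0 : ℝ) ≤ ((2 ^ e : ℕ) : ℝ) by positivity)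
        have p4 : (0 : ℝ) ≤ (l : ℝ) ^ (1 - 1 / (2 : ℝ) ^ 182) := by positivity
        have p5 := mul_le_mul_of_nonneg_right p1 p4
        push_cast [Nat.cast_mul 609] at *
        nlinarith)
  have hod : CC (fun y : List Unit × List ℕ => Nat.ofDigits (2 ^ y.1.length) y.2) _ := cc_od
  have cb : ∀ x T, S x T → ∀ d ∈ convA (pA (pl x ^ 3) (pl x ^ (4 * k))
      (tM (qq f E (pl x) (pM k x)) - pM k x) x.1) (pA (pl x ^ 3) (pl x ^ (4 * k))
      (tM (qq f E (pl x) (pM k x)) - pM k x) x.2), d.length = 2 * pl x ^ (4 * k) ∧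
      ∀ z ∈ d, z < 2 ^ (3 * pl x ^ 3) := by
    intro x T hT d hd
    have a1 := alen x T _ hT rfl
    obtain ⟨l, B, M, e, K, s, e1, e2, e3, -, -, -, -, -, -, -, h1, h2, -, -, -, -, -, -, -, -,
      -, -, -, h3, h100, -⟩ := key x T hT
    have hM : 0 < M := by rw [← e3]; exact Nat.succ_pos _
    have := conv_bd _ _ _ _ (pA_bd _ _ _ _) (pA_bd _ _ _ _) (by rw [a1, e1, e3]; omega) d hd
    rw [a1] at this
    simp only [e1, e3] at this ⊢
    refine ⟨this.1, fun z hz => (this.2 z hz).trans_lt ?_⟩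
    have h4 := Nat.lt_size_self (l ^ (4 * k))
    calc _ ≤ 2 * l ^ (4 * k) * (2 ^ e * (2 ^ e * (2 ^ l ^ 3 * 2 ^ l ^ 3))) := by gcongr
      _ < 2 * 2 ^ (l ^ (4 * k)).size * (2 ^ e * (2 ^ e * (2 ^ l ^ 3 * 2 ^ l ^ 3))) := by gcongr
      _ = 2 ^ ((l ^ (4 * k)).size + 2 * e + 1 + 2 * l ^ 3) := by ring
      _ ≤ _ := Nat.pow_le_pow_right (by norm_num) (by omega)
  have clen2 : ∀ x T, S x T → (convA (pA (pl x ^ 3) (pl x ^ (4 * k))
      (tM (qq f E (pl x) (pM k x)) - pM k x) x.1) (pA (pl x ^ 3) (pl x ^ (4 * k))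
      (tM (qq f E (pl x) (pM k x)) - pM k x) x.2)).length = tM (qq f E (pl x) (pM k x)) := by
    intro x T hT
    refine Eq.trans ?_ (alen x T _ hT rfl); simp [convA]
  have uI := (CC.mapCU (f := fun (u : List Unit) (d : List ℕ) => Nat.ofDigits (2 ^ u.length) d)
    hod).comp3 (uβ.pair uC) 640 (fun x T hT => by
      have a1 := clen2 x T hT
      have a2 := cb x T hT
      obtain ⟨l, B, M, e, K, s, e1, e2, e3, -, -, -, hT', -, -, -, h1, -, h2, -, -, -, -, -, -, -,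
        -, -, -, -, h100, -⟩ := key x T hT
      simp only [e1, e3] at a1 a2 ⊢
      have h8 : 1 ≤ l ^ (4 * k) := Nat.one_le_pow _ _ (by omega)
      have h9 : 1 ≤ l ^ 3 := Nat.one_le_pow _ _ (by omega)
      refine ⟨_, ⟨2 * l ^ (4 * k) * (4 * l ^ 3 + 1), fun d hd => ⟨3 * l ^ 3, by simpa using h9,
        (a2 d hd).2, ?_⟩, le_rfl⟩, ?_⟩
      · simp only [(a2 d hd).1, List.length_replicate]; exact le_of_eq (by ring)
      · rw [a1, sz_units, List.length_replicate]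
        have h6 : tM (qq f E l M) * (2 * l ^ (4 * k) * (4 * l ^ 3 + 1) + (2 * l ^ 3 + 1)) ≤
          2 ^ e * (20 * (l ^ 3 * l ^ (4 * k))) := Nat.mul_le_mul h1 (by nlinarith)
        rw [mul_left_comm (2 ^ e)] at h6
        omega)
  have uO := hod.comp3 (uW.pair uI) 640 (fun x T hT => by
      have a1 := clen2 x T hT
      have a2 := cb x T hT
      obtain ⟨l, B, M, e, K, s, e1, e2, e3, -, -, -, hT', -, -, -, h1, -, h2, -, -, -, -, -, -, -,
        -, -, -, -, h100, -⟩ := key x T hT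
      simp only [e1, e3] at a1 a2 ⊢
      have h8 : 1 ≤ l ^ (4 * k) := Nat.one_le_pow _ _ (by omega)
      have h9 : 1 ≤ l ^ 3 := Nat.one_le_pow _ _ (by omega)
      refine ⟨_, ⟨3 * l ^ 3 + l ^ 3 * (2 * l ^ (4 * k)), by
        rw [List.length_replicate]; exact Nat.mul_pos h9 h8,
        fun z hz => ?_, le_rfl⟩, ?_⟩
      · obtain ⟨d, hd, rfl⟩ := List.mem_map.1 hz
        have := ofDigits_bound (l ^ 3) (3 * l ^ 3) h9 d (a2 d hd).2
        rw [(a2 d hd).1, ← pow_mul, ← pow_add] at this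
        rw [List.length_replicate]
        have h0 : 0 < 2 ^ (3 * l ^ 3) := by positivity
        omega
      · rw [List.length_map, a1, List.length_replicate]
        have h6 : tM (qq f E l M) * (3 * l ^ 3 + l ^ 3 * (2 * l ^ (4 * k)) + l ^ 3 * l ^ (4 * k) + 1) ≤
          2 ^ e * (20 * (l ^ 3 * l ^ (4 * k))) := Nat.mul_le_mul h1 (by nlinarith)
        rw [mul_left_comm (2 ^ e)] at h6
        omega)
  refine uO.congr (fun x T hT => ?_)
  have a1 := alen x T _ hT rfl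
  have a2 := alen x T _ hT hT.1.symm
  have a3 := clen x T _ hT rfl
  have a4 := clen x T _ hT hT.1.symm
  obtain ⟨l, B, M, e, K, s, e1, e2, e3, -, -, -, -, -, -, -, -, h1, -, -, -, -, -, -, -, -,
    -, -, -, -, h100, -⟩ := key x T hT
  have hM : 0 < M := by rw [← e3]; exact Nat.succ_pos _
  simp only [e1, e3, List.length_replicate] at a1 a2 a3 a4 ⊢
  have h0 : 0 < l := by omega
  rw [conv_val _ _ (l ^ (4 * k)) M _ _ (fun d hd => (pA_bd _ _ _ _ d hd).1)
    (fun d hd => (pA_bd _ _ _ _ d hd).1) (by rw [a1, a2]) (by rw [a1]; exact h1) (by rw [a1]; omega)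
    (fun i hi => pA_zero _ _ _ _ _ (by rw [a3]; exact hi))
    (fun i hi => pA_zero _ _ _ _ _ (by rw [a4]; exact hi)),
    pA_val _ _ _ (by positivity) (by positivity), pA_val _ _ _ (by positivity) (by positivity)]

end Crest.Agent.Lead.IM
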