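import Crest.Agent.Lead.IMF2

/-! Row 326, final step: small inputs, output format and the time bound. -/

set_option autoImplicit false
set_option linter.unusedVariables false

namespace Crest.Agent.Lead.IM
open Crest.Agent.H3.Ptime Crest.Agent.H9.IM Crest.Agent.H4.IM Finset
open Crest.LogicCS.IntMul Crest.DTime

theorem cc_all (hCost : CostB) (hPar : ParF) (hC : ConvStmt) (hN : NumStmt) :
    CC (fun x : XX => (tb (x.1 ++ x.2).length (bitsVal x.1 * bitsVal x.2)).reverse)
      (fun x T => x.1.length = x.2.length ∧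
        (x.1.length : ℝ) * (pl x : ℝ) ^ (1 - 1 / (2 : ℝ) ^ 182) ≤ T) := by
  obtain ⟨l0, hb⟩ := cc_big hCost hPar hC
  set S : XX → ℕ → Prop := fun x T => x.1.length = x.2.length ∧
        (x.1.length : ℝ) * (pl x : ℝ) ^ (1 - 1 / (2 : ℝ) ^ 182) ≤ T with hS
  have v : ∀ {y : XX → List Bool} {S' : XX → ℕ → Prop}, CC y S' → CC (fun x => bitsVal (y x)) S' :=
    fun hy => (cc_ob (cc_reverse hy)).of_eq (fun x => ob_rev _)
  have hs : CC (fun x : XX => bitsVal x.1 * bitsVal x.2)
      (fun x T => x.1.length = x.2.length ∧ pl x ≤ l0) :=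
    (hN.mul 1 one_pos).comp3 ((v (y := fun x => x.1) (by fun_prop)).pair
      (v (y := fun x => x.2) (by fun_prop))) ((8 * 2 ^ l0 + 20) ^ 2) (fun x T hT => by
        refine ⟨(8 * 2 ^ l0 + 20) ^ 2, ?_, Nat.le_mul_of_pos_right _ (by omega)⟩
        have h0 : x.1.length < 2 ^ l0 := Nat.size_le.1 hT.2
        have h1 : ∀ y : List Bool, y.length = x.1.length → sz (bitsVal y) ≤ 4 * 2 ^ l0 + 8 := by
          intro y hy
          have h2 := ob_lt y.reverse
          rw [ob_rev, List.length_reverse, hy] at h2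
          exact sz_le_pow (h2.le.trans (Nat.pow_le_pow_right (by norm_num) h0.le))
        have h2 := h1 _ rfl
        have h3 := h1 _ hT.1.symm
        rw [sz_pair, one_add_one_eq_two, Real.rpow_two]
        exact_mod_cast Nat.pow_le_pow_left (by omega) 2)
  have ul : CC (fun x : XX => List.replicate (pl x) ()) S :=
    CC.comp lin_usize (show CC (fun x : XX => x.1) S by fun_prop)
  have hc := (cc_drop ul (CC.const (List.replicate l0 ()))).isEmpty
  have h := CC.branch hc hs hb (fun x T hT h => ⟨hT.1, by simp at h; omega⟩)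
    (fun x T hT h => ⟨hT.1, by simp at h; omega, hT.2⟩)
  have h' : CC (fun x : XX => bitsVal x.1 * bitsVal x.2) S := h.of_eq (fun x => by simp)
  exact cc_reverse (cc_tb h' (by fun_prop))

theorem final (hCost : CostB) (hPar : ParF) (hC : ConvStmt) (hN : NumStmt) (hT : TMStmt) :
    ∃ c : ℕ, TimeBoundComputable EqLenPair.enc (Computability.encodingList Bool).encode mulOutput
      (fun N => c * ⌈(N : ℝ) * (Real.logb 2 N) ^ (1 - 1 / (2 : ℝ) ^ 182)⌉₊ + c) := by
  obtain ⟨c, hc⟩ := hT _ _ (fun n => ⌈(n : ℝ) * (n.size : ℝ) ^ (1 - 1 / (2 : ℝ) ^ 182)⌉₊)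
    (cc_all hCost hPar hC hN) (fun x => ⟨⟨x.2, Nat.le_ceil _⟩, by
      simp only [mulOutput, toBits, tb, List.length_append, ← x.2, two_mul]⟩)
  refine ⟨2 * c, hc _ (fun n => ?_)⟩
  have h1 := le_rate (2 * n)
  have h2 : ⌈(n : ℝ) * (n.size : ℝ) ^ (1 - 1 / (2 : ℝ) ^ 182)⌉₊ ≤ rate (2 * n) := by
    refine Nat.ceil_mono ?_
    rcases Nat.eq_zero_or_pos n with rfl | hn
    · simp
    · have h3 : 2 ^ n.size ≤ 2 * n := by
        have h4 := Nat.size_pos.2 hn
        have h5 : 2 ^ (n.size - 1) ≤ n := Nat.lt_size.1 (by omega)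
        have h6 : 2 ^ n.size = 2 * 2 ^ (n.size - 1) := by rw [← pow_succ']; congr 1; omega
        omega
      have h4 : (n.size : ℝ) ≤ Real.logb 2 ((2 * n : ℕ) : ℝ) := by
        rw [Real.le_logb_iff_rpow_le (by norm_num) (by positivity), Real.rpow_natCast]
        exact_mod_cast h3
      refine mul_le_mul (by push_cast; linarith [Nat.cast_nonneg (α := ℝ) n])
        (Real.rpow_le_rpow (by positivity) h4 (by norm_num)) (by positivity) (by positivity)
  change _ ≤ 2 * c * rate (2 * n) + 2 * c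
  calc _ ≤ c * (2 * rate (2 * n) + 2) := Nat.mul_le_mul_left _ (by omega)
    _ = _ := by ring

end Crest.Agent.Lead.IM
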