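import Crest.Agent.H9.IMI

/-! Row 326: polynomial-time approximation of roots of unity. -/

set_option autoImplicit false

namespace Crest.Agent.Lead.IM
open Crest.Agent.H3.Ptime Crest.Agent.H9.IM Finset

/-- fixed-point arctangent of `1 / k` -/
def atn (k q : ℕ) : ℤ :=
  ∑ j ∈ range q, bif j.bodd then -((2 ^ q / (k ^ (2 * min j q + 1) * (2 * j + 1)) : ℕ) : ℤ)
    else ((2 ^ q / (k ^ (2 * min j q + 1) * (2 * j + 1)) : ℕ) : ℤ)

lemma div_floor (a d : ℕ) (hd : 0 < d) :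
    (a : ℝ) / d - 1 ≤ ((a / d : ℕ) : ℝ) ∧ ((a / d : ℕ) : ℝ) ≤ a / d := by
  refine ⟨?_, Nat.cast_div_le⟩
  have hd' : (0 : ℝ) < d := by exact_mod_cast hd
  have := Nat.lt_div_mul_add (a := a) hd
  have h2 : (a : ℝ) < (a / d : ℕ) * d + d := by exact_mod_cast this
  rw [sub_le_iff_le_add, div_le_iff₀ hd']
  nlinarith

lemma atn_err (k q : ℕ) (hk : 2 ≤ k) :
    |(atn k q : ℝ) / 2 ^ q - Real.arctan (k : ℝ)⁻¹| ≤ (q + 1) / 2 ^ q := by
  have hk' : (2 : ℝ) ≤ k := by exact_mod_cast hk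
  have hx0 : (0 : ℝ) ≤ (k : ℝ)⁻¹ := by positivity
  have hx1 : (k : ℝ)⁻¹ ≤ 1 / 2 := by rw [one_div]; exact inv_anti₀ (by norm_num) hk'
  set x : ℝ := (k : ℝ)⁻¹ with hx
  set f : ℕ → ℝ := fun j => x ^ (2 * j + 1) / ((2 * j + 1 : ℕ) : ℝ) with hf
  have hs : HasSum (fun j => (-1 : ℝ) ^ j * f j) (Real.arctan x) := by
    have := Real.hasSum_arctan (x := x) (by rw [Real.norm_of_nonneg hx0]; linarith)
    simpa only [hf, mul_div_assoc] using this
  have hb : ∀ j, f j ≤ (1 / 2) ^ j := fun j => by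
    have h1 : x ^ (2 * j + 1) ≤ (1 / 2) ^ j :=
      (pow_le_pow_left₀ hx0 hx1 _).trans (pow_le_pow_of_le_one (by norm_num) (by norm_num) (by omega))
    refine le_trans (div_le_self (by positivity) ?_) h1
    exact_mod_cast (by omega : 1 ≤ 2 * j + 1)
  have ha : Antitone f := by
    intro i j hij
    refine div_le_div₀ (by positivity) (pow_le_pow_of_le_one hx0 (by linarith) (by omega))
      (by positivity) (by exact_mod_cast (by omega : 2 * i + 1 ≤ 2 * j + 1))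
  have hsum : Summable f := Summable.of_nonneg_of_le (fun j => by positivity) hb
    (summable_geometric_of_lt_one (by norm_num) (by norm_num))
  have h1 := alternating_series_error_bound f ha hsum q
  rw [hs.tsum_eq] at h1
  have h2 : |(atn k q : ℝ) / 2 ^ q - ∑ i ∈ range q, (-1) ^ i * f i| ≤ q / 2 ^ q := by
    unfold atn
    rw [Int.cast_sum]
    rw [sum_div, ← sum_sub_distrib]
    refine (abs_sum_le_sum_abs _ _).trans ((sum_le_card_nsmul _ _ (1 / 2 ^ q) (fun j hj => ?_)).trans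
      (by simp [div_eq_mul_inv]))
    rw [min_eq_left (mem_range.1 hj).le]
    have h3 := div_floor (2 ^ q) (k ^ (2 * j + 1) * (2 * j + 1)) (by positivity)
    have e : (((2 ^ q : ℕ) : ℝ)) / ((k ^ (2 * j + 1) * (2 * j + 1) : ℕ) : ℝ) = 2 ^ q * f j := by
      simp only [hf, hx]; push_cast; rw [inv_pow]; field_simp
    rw [e] at h3
    generalize (2 ^ q / (k ^ (2 * j + 1) * (2 * j + 1)) : ℕ) = t at h3 ⊢
    have hq : (0 : ℝ) < 2 ^ q := by positivity
    have h4 : |(t : ℝ) / 2 ^ q - f j| ≤ 1 / 2 ^ q := by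
      have e2 : (t : ℝ) / 2 ^ q - f j = (t - 2 ^ q * f j) / 2 ^ q := by field_simp
      rw [e2, abs_div, abs_of_pos hq]
      gcongr
      rw [abs_le]; constructor <;> linarith [h3.1, h3.2]
    cases hj2 : j.bodd
    · have : Even j := by rw [Nat.even_iff, Nat.mod_two_of_bodd, hj2]; rfl
      simpa [this.neg_one_pow] using h4
    · have : Odd j := by rw [Nat.odd_iff, Nat.mod_two_of_bodd, hj2]; rfl
      rw [this.neg_one_pow, ← abs_neg]
      refine le_of_eq_of_le (congrArg _ ?_) h4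
      simp only [cond_true, Int.cast_neg, Int.cast_natCast]; ring
  have h5 := hb q
  rw [one_div, inv_pow, ← one_div] at h5
  rw [add_div]
  calc _ ≤ |(atn k q : ℝ) / 2 ^ q - ∑ i ∈ range q, (-1) ^ i * f i| +
        |Real.arctan x - ∑ i ∈ range q, (-1) ^ i * f i| := by
        rw [abs_sub_comm (Real.arctan x)]; exact abs_sub_le _ _ _
    _ ≤ _ := by linarith

def trm (t Q n m : ℕ) : ℤ := ∏ i ∈ range n, if i < m then (t : ℤ) else (Q : ℤ) * ((i : ℤ) + 1)

def cls (t Q n P c : ℕ) : ℕ :=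
  (∑ m ∈ range n, if m % 4 = c then trm t Q n m else 0).toNat * P / (trm t Q n 0).toNat

lemma trm_nonneg (t Q n m : ℕ) : 0 ≤ trm t Q n m :=
  prod_nonneg (fun i _ => by split_ifs <;> positivity)

lemma trm_eq (t Q n m : ℕ) (hQ : 0 < Q) (hm : m ≤ n) :
    (trm t Q n m : ℝ) = trm t Q n 0 * (((t : ℝ) / Q) ^ m / m.factorial) := by
  obtain ⟨k, rfl⟩ := Nat.exists_eq_add_of_le hm
  have hQ' : (0 : ℝ) < Q := by exact_mod_cast hQ
  unfold trm
  rw [prod_range_add, prod_range_add]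
  have e1 : ∏ i ∈ range m, (if i < m then (t : ℤ) else (Q : ℤ) * ((i : ℤ) + 1)) = (t : ℤ) ^ m := by
    rw [prod_congr rfl (fun i hi => if_pos (mem_range.1 hi))]; simp
  have e2 : ∏ i ∈ range m, (if i < 0 then (t : ℤ) else (Q : ℤ) * ((i : ℤ) + 1)) =
      (Q : ℤ) ^ m * m.factorial := by
    simp only [Nat.not_lt_zero, if_false, prod_mul_distrib, prod_const, card_range]
    rw [← prod_range_add_one_eq_factorial]; push_cast; rfl
  have e3 : ∏ i ∈ range k, (if m + i < m then (t : ℤ) else (Q : ℤ) * (((m + i : ℕ) : ℤ) + 1)) =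
      ∏ i ∈ range k, (if m + i < 0 then (t : ℤ) else (Q : ℤ) * (((m + i : ℕ) : ℤ) + 1)) :=
    prod_congr rfl (fun i _ => by rw [if_neg (by omega), if_neg (by omega)])
  rw [e1, e2, e3]
  have : (0 : ℝ) < m.factorial := by exact_mod_cast m.factorial_pos
  push_cast
  rw [div_pow]; field_simp

lemma trm_pos (t Q n : ℕ) (hQ : 0 < Q) : 0 < trm t Q n 0 :=
  prod_pos (fun i _ => by simp only [Nat.not_lt_zero, if_false]; positivity)

lemma cls_err (t Q n P c : ℕ) (hQ : 0 < Q) :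
    P * (∑ m ∈ range n, if m % 4 = c then ((t : ℝ) / Q) ^ m / m.factorial else 0) - 1 ≤
      cls t Q n P c ∧
    (cls t Q n P c : ℝ) ≤
      P * (∑ m ∈ range n, if m % 4 = c then ((t : ℝ) / Q) ^ m / m.factorial else 0) := by
  have h0 := trm_pos t Q n hQ
  have h1 : 0 ≤ ∑ m ∈ range n, if m % 4 = c then trm t Q n m else 0 :=
    sum_nonneg (fun m _ => by split_ifs; exacts [trm_nonneg _ _ _ _, le_rfl])
  have h2 := div_floor ((∑ m ∈ range n, if m % 4 = c then trm t Q n m else 0).toNat * P)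
    (trm t Q n 0).toNat (by omega)
  have e : ((((∑ m ∈ range n, if m % 4 = c then trm t Q n m else 0).toNat * P : ℕ) : ℝ)) /
      ((trm t Q n 0).toNat : ℝ) =
      P * (∑ m ∈ range n, if m % 4 = c then ((t : ℝ) / Q) ^ m / m.factorial else 0) := by
    have a1 : (((∑ m ∈ range n, if m % 4 = c then trm t Q n m else 0).toNat : ℕ) : ℝ) =
        ((∑ m ∈ range n, if m % 4 = c then trm t Q n m else 0 : ℤ) : ℝ) := by
      rw [← Int.cast_natCast, Int.toNat_of_nonneg h1]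
    have a2 : (((trm t Q n 0).toNat : ℕ) : ℝ) = (trm t Q n 0 : ℝ) := by
      rw [← Int.cast_natCast, Int.toNat_of_nonneg h0.le]
    have h0' : (0 : ℝ) < trm t Q n 0 := by exact_mod_cast h0
    rw [Nat.cast_mul, a1, a2, div_eq_iff h0'.ne', Int.cast_sum, mul_comm, mul_assoc, sum_mul]
    congr 1
    refine sum_congr rfl (fun m hm => ?_)
    split_ifs
    · rw [trm_eq t Q n m hQ (mem_range.1 hm).le]; ring
    · simp
  rw [e] at h2
  exact h2

lemma taylor_split (y : ℝ) (n : ℕ) :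
    ∑ m ∈ range n, ((y : ℂ) * Complex.I) ^ m / m.factorial =
      (((∑ m ∈ range n, if m % 4 = 0 then y ^ m / m.factorial else 0) -
        (∑ m ∈ range n, if m % 4 = 2 then y ^ m / m.factorial else 0) : ℝ) : ℂ) +
      (((∑ m ∈ range n, if m % 4 = 1 then y ^ m / m.factorial else 0) -
        (∑ m ∈ range n, if m % 4 = 3 then y ^ m / m.factorial else 0) : ℝ) : ℂ) * Complex.I := by
  push_cast
  rw [← sum_sub_distrib, ← sum_sub_distrib, sum_mul, ← sum_add_distrib]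
  refine sum_congr rfl (fun m _ => ?_)
  rw [mul_pow, Complex.I_pow_eq_pow_mod]
  have : m % 4 < 4 := Nat.mod_lt _ (by norm_num)
  generalize m % 4 = r at this
  interval_cases r <;> simp <;> ring

def ang (a : ℤ) (b q : ℕ) : ℕ :=
  8 * (atn 2 q + atn 3 q).toNat * ((a.toNat + (-a).toNat * (b - 1)) % b) / b

def rt0 (t Q n P : ℕ) : ℤ × ℤ :=
  ((cls t Q n P 0 : ℤ) - cls t Q n P 2, (cls t Q n P 1 : ℤ) - cls t Q n P 3)

def rt (x : ℤ × ℕ × List Unit) : ℤ × ℤ :=
  rt0 (ang x.1 x.2.1 (2 * x.2.2.length + 12)) (2 ^ (2 * x.2.2.length + 12)) (x.2.2.length + 26)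
    (2 ^ x.2.2.length)

lemma rt0_err (t Q n p : ℕ) (hQ : 0 < Q) :
    ‖toC p (rt0 t Q n (2 ^ p)) - ∑ m ∈ range n, ((((t : ℝ) / Q : ℝ) : ℂ) * Complex.I) ^ m / m.factorial‖ ≤
      3 / 2 / 2 ^ p := by
  rw [taylor_split]
  have c0 := cls_err t Q n (2 ^ p) 0 hQ
  have c1 := cls_err t Q n (2 ^ p) 1 hQ
  have c2 := cls_err t Q n (2 ^ p) 2 hQ
  have c3 := cls_err t Q n (2 ^ p) 3 hQ
  unfold toC rt0
  generalize (∑ m ∈ range n, if m % 4 = 0 then ((t : ℝ) / Q) ^ m / m.factorial else 0) = s0 at *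
  generalize (∑ m ∈ range n, if m % 4 = 1 then ((t : ℝ) / Q) ^ m / m.factorial else 0) = s1 at *
  generalize (∑ m ∈ range n, if m % 4 = 2 then ((t : ℝ) / Q) ^ m / m.factorial else 0) = s2 at *
  generalize (∑ m ∈ range n, if m % 4 = 3 then ((t : ℝ) / Q) ^ m / m.factorial else 0) = s3 at *
  generalize cls t Q n (2 ^ p) 0 = f0 at *
  generalize cls t Q n (2 ^ p) 1 = f1 at *
  generalize cls t Q n (2 ^ p) 2 = f2 at *
  generalize cls t Q n (2 ^ p) 3 = f3 at *
  push_cast at c0 c1 c2 c3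
  have hp : (0 : ℝ) < 2 ^ p := by positivity
  have e : ((((f0 : ℤ) - f2 : ℤ) : ℂ) + (((f1 : ℤ) - f3 : ℤ) : ℂ) * Complex.I) / 2 ^ p -
      (((s0 - s2 : ℝ) : ℂ) + ((s1 - s3 : ℝ) : ℂ) * Complex.I) =
      ((((f0 - f2 - 2 ^ p * (s0 - s2) : ℝ) : ℂ) + ((f1 - f3 - 2 ^ p * (s1 - s3) : ℝ) : ℂ) * Complex.I)) /
        ((2 ^ p : ℝ) : ℂ) := by
    push_cast; field_simp; ring
  rw [e, norm_div, Complex.norm_real, Real.norm_of_nonneg hp.le]
  gcongr
  refine (Complex.norm_le_sqrt_two_mul_max _).trans ?_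
  have h2 : √2 ≤ 3 / 2 := by rw [Real.sqrt_le_left (by norm_num)]; norm_num
  have h3 : max |((((f0 - f2 - 2 ^ p * (s0 - s2) : ℝ) : ℂ) +
      ((f1 - f3 - 2 ^ p * (s1 - s3) : ℝ) : ℂ) * Complex.I)).re|
      |((((f0 - f2 - 2 ^ p * (s0 - s2) : ℝ) : ℂ) +
      ((f1 - f3 - 2 ^ p * (s1 - s3) : ℝ) : ℂ) * Complex.I)).im| ≤ 1 := by
    simp only [Complex.add_re, Complex.add_im, Complex.mul_re, Complex.mul_im, Complex.ofReal_re,
      Complex.ofReal_im, Complex.I_re, Complex.I_im, mul_zero, mul_one, sub_zero, add_zero, zero_add,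
      zero_mul]
    refine max_le ?_ ?_ <;> rw [abs_le] <;> constructor <;> nlinarith [c0.1, c0.2, c1.1, c1.2, c2.1, c2.2, c3.1, c3.2]
  calc _ ≤ 3 / 2 * 1 := mul_le_mul h2 h3 (le_max_of_le_left (abs_nonneg _)) (by norm_num)
    _ = _ := by norm_num

lemma ang_err (a : ℤ) (b q : ℕ) (hb : 0 < b) (hq : (2 * q + 2 : ℝ) / 2 ^ q ≤ 1 / 2) :
    ∃ θ : ℝ, 0 ≤ θ ∧ θ ≤ 2 * Real.pi ∧ ee (a / b) = Complex.exp (θ * Complex.I) ∧
      |(ang a b q : ℝ) / ((2 ^ q : ℕ) : ℝ) - θ| ≤ (16 * q + 17) / 2 ^ q := by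
  set r := (a.toNat + (-a).toNat * (b - 1)) % b with hr
  have hrb : r < b := Nat.mod_lt _ hb
  have hb' : (0 : ℝ) < b := by exact_mod_cast hb
  have hrb' : (r : ℝ) / b ≤ 1 := by rw [div_le_one hb']; exact_mod_cast hrb.le
  have hr0 : (0 : ℝ) ≤ r / b := by positivity
  have hpi := Real.pi_gt_three
  refine ⟨2 * Real.pi * (r / b), by positivity, by nlinarith, ?_, ?_⟩
  · obtain ⟨k, hk⟩ : ∃ k : ℤ, a = r + b * k := by
      have h1 := Nat.mod_add_div (a.toNat + (-a).toNat * (b - 1)) b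
      rw [← hr] at h1
      have h2 : (r : ℤ) + b * ((a.toNat + (-a).toNat * (b - 1)) / b : ℕ) =
          a.toNat + (-a).toNat * ((b : ℤ) - 1) := by
        have : ((b - 1 : ℕ) : ℤ) = b - 1 := by omega
        rw [← this]; exact_mod_cast h1
      have h3 : a = a.toNat - (-a).toNat := by omega
      refine ⟨((a.toNat + (-a).toNat * (b - 1)) / b : ℕ) - (-a).toNat, ?_⟩
      linear_combination h3 - h2
    unfold ee
    have hbc : (b : ℂ) ≠ 0 := by exact_mod_cast hb.ne'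
    have e : 2 * (Real.pi : ℂ) * (((a : ℝ) / b : ℝ) : ℂ) * Complex.I =
        ((2 * Real.pi * (r / b) : ℝ) : ℂ) * Complex.I + k * (2 * Real.pi * Complex.I) := by
      rw [hk]; push_cast; field_simp
    rw [e, Complex.exp_add, Complex.exp_int_mul_two_pi_mul_I, mul_one]
  · have h2 := atn_err 2 q le_rfl
    have h3 := atn_err 3 q (by norm_num)
    have h4 := Real.arctan_inv_2_add_arctan_inv_3
    push_cast at h2 h3
    have hq0 : (0 : ℝ) < 2 ^ q := by positivity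
    have h5 : |((atn 2 q + atn 3 q : ℤ) : ℝ) / 2 ^ q - Real.pi / 4| ≤ (2 * q + 2) / 2 ^ q := by
      rw [← h4]; push_cast
      have e : (2 * q + 2 : ℝ) / 2 ^ q = (q + 1) / 2 ^ q + (q + 1) / 2 ^ q := by ring
      rw [e, add_div]
      rw [abs_le] at h2 h3 ⊢
      constructor <;> linarith [h2.1, h2.2, h3.1, h3.2]
    have h6 : 0 ≤ atn 2 q + atn 3 q := by
      have := (abs_le.1 h5).1
      have h7 : (0 : ℝ) ≤ ((atn 2 q + atn 3 q : ℤ) : ℝ) / 2 ^ q := by linarith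
      have h8 := (div_nonneg_iff.1 h7).resolve_right (fun h => absurd h.2 (not_le.2 hq0))
      exact_mod_cast h8.1
    have h7 := div_floor (8 * (atn 2 q + atn 3 q).toNat * r) b hb
    have e1 : (((atn 2 q + atn 3 q).toNat : ℕ) : ℝ) = ((atn 2 q + atn 3 q : ℤ) : ℝ) := by
      rw [← Int.cast_natCast, Int.toNat_of_nonneg h6]
    unfold ang
    rw [← hr]
    generalize (8 * (atn 2 q + atn 3 q).toNat * r / b : ℕ) = t at h7 ⊢
    rw [Nat.cast_mul, Nat.cast_mul, e1] at h7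
    generalize ((atn 2 q + atn 3 q : ℤ) : ℝ) = A at h5 h7
    push_cast at h7 ⊢
    have e2 : (t : ℝ) / 2 ^ q - 2 * Real.pi * (r / b) =
        (t - 8 * A * r / b) / 2 ^ q + 8 * (r / b) * (A / 2 ^ q - Real.pi / 4) := by
      field_simp; ring
    have e3 : (16 * q + 17 : ℝ) / 2 ^ q = 1 / 2 ^ q + 8 * 1 * ((2 * q + 2) / 2 ^ q) := by ring
    rw [e2, e3]
    refine (abs_add_le _ _).trans (add_le_add ?_ ?_)
    · rw [abs_div, abs_of_pos hq0]
      gcongr
      rw [abs_le]; constructor <;> linarith [h7.1, h7.2]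
    · rw [abs_mul, abs_of_nonneg (by positivity)]
      gcongr

theorem PT_rt : PT rt := by
  have hatn : ∀ k, PT (fun u : List Unit => atn k u.length) := by
    intro k
    unfold atn
    have hb : PB (fun p : List Unit × ℕ => p.1.length) := PB.length (by fun_prop)
    have h1 : PT (fun p : List Unit × ℕ => 2 ^ p.1.length) :=
      PT.pow (PT.const _) (by fun_prop) hb
    have h2 : PT (fun p : List Unit × ℕ => k ^ (2 * min p.2 p.1.length + 1)) :=
      PT.pow (PT.const _) (by fun_prop) (((PB.const 2).mul (PB.min hb)).add (PB.const 1))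
    have h3 : PT (fun p : List Unit × ℕ =>
        ((2 ^ p.1.length / (k ^ (2 * min p.2 p.1.length + 1) * (2 * p.2 + 1)) : ℕ) : ℤ)) :=
      PT.natCast (h1.div (h2.mul (by fun_prop)))
    exact PT.finsum (by fun_prop) (PB.length PT.id') (PT.cond (by fun_prop) h3.neg h3)
  have htrm : PT (fun x : (ℕ × ℕ × List Unit) × ℕ => trm x.1.1 x.1.2.1 x.1.2.2.length x.2) := by
    unfold trm
    exact PT.finprod (by fun_prop) (PB.length (by fun_prop)) (by fun_prop)
  have hcls : ∀ c, PT (fun x : (ℕ × ℕ × List Unit) × ℕ =>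
      cls x.1.1 x.1.2.1 x.1.2.2.length x.2 c) := by
    intro c
    unfold cls
    have h1 : PT (fun x : ((ℕ × ℕ × List Unit) × ℕ) × ℕ =>
        trm x.1.1.1 x.1.1.2.1 x.1.1.2.2.length x.2) :=
      htrm.comp (f := fun x : ((ℕ × ℕ × List Unit) × ℕ) × ℕ => (x.1.1, x.2)) (by fun_prop)
    have h2 : PT (fun x : (ℕ × ℕ × List Unit) × ℕ => trm x.1.1 x.1.2.1 x.1.2.2.length 0) :=
      htrm.comp (f := fun x : (ℕ × ℕ × List Unit) × ℕ => (x.1, 0)) (by fun_prop)
    exact PT.div (PT.mul (PT.toNat (PT.finsum (by fun_prop) (PB.length (by fun_prop))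
      (PT.ite (by fun_prop) h1 (PT.const _)))) (by fun_prop)) h2.toNat
  have hrt0 : PT (fun x : (ℕ × ℕ × List Unit) × ℕ => rt0 x.1.1 x.1.2.1 x.1.2.2.length x.2) :=
    ((hcls 0).ofSub (hcls 2)).pair ((hcls 1).ofSub (hcls 3))
  have hq : PT (fun x : ℤ × ℕ × List Unit => x.2.2 ++ x.2.2 ++ List.replicate 12 ()) := by fun_prop
  have hq' : ∀ x : ℤ × ℕ × List Unit,
      (x.2.2 ++ x.2.2 ++ List.replicate 12 ()).length = 2 * x.2.2.length + 12 := by
    intro x; simp; omega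
  have hang : PT (fun x : ℤ × ℕ × List Unit => ang x.1 x.2.1 (2 * x.2.2.length + 12)) := by
    unfold ang
    have h2 := ((hatn 2).comp hq).of_eq (g := fun x => atn 2 (2 * x.2.2.length + 12))
      (fun x => by rw [hq'])
    have h3 := ((hatn 3).comp hq).of_eq (g := fun x => atn 3 (2 * x.2.2.length + 12))
      (fun x => by rw [hq'])
    exact PT.div (PT.mul (PT.mul (PT.const _) (h2.iadd h3).toNat) (by fun_prop)) (by fun_prop)
  have hb : PB (fun x : ℤ × ℕ × List Unit => x.2.2.length) := PB.length (by fun_prop)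
  have hp1 : PT (fun x : ℤ × ℕ × List Unit => 2 ^ (2 * x.2.2.length + 12)) :=
    PT.pow (PT.const _) (by fun_prop) (((PB.const 2).mul hb).add (PB.const _))
  have hp2 : PT (fun x : ℤ × ℕ × List Unit => 2 ^ x.2.2.length) :=
    PT.pow (PT.const _) (by fun_prop) hb
  have hn : PT (fun x : ℤ × ℕ × List Unit => x.2.2 ++ List.replicate 26 ()) := by fun_prop
  exact (hrt0.comp ((hang.pair (hp1.pair hn)).pair hp2)).of_eq (fun x => by simp [rt])

theorem rootStmt : RootStmt := by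
  refine ⟨rt, PT_rt, fun a b p hb => ?_⟩
  simp only [rt]
  generalize p.length = p
  have hp : (0 : ℝ) < 2 ^ p := by positivity
  have hp1 : (p : ℝ) + 1 ≤ 2 ^ p := by exact_mod_cast Nat.lt_two_pow_self
  have hp0 : (0 : ℝ) ≤ p := by positivity
  have e1 : (2 : ℝ) ^ (2 * p + 12) = 2 ^ p * 2 ^ p * 4096 := by ring
  have h1 : (16 * ((2 * p + 12 : ℕ) : ℝ) + 17) / 2 ^ (2 * p + 12) ≤ 1 / 4 / 2 ^ p := by
    rw [e1, div_le_div_iff₀ (by positivity) hp]; push_cast; nlinarith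
  have h14 : 1 / 4 / (2 : ℝ) ^ p ≤ 1 / 4 := div_le_self (by norm_num) (by linarith)
  obtain ⟨θ, h2, h3, h4, h5⟩ := ang_err a b (2 * p + 12) hb (by
    refine le_trans ?_ (h1.trans (h14.trans (by norm_num)))
    gcongr <;> norm_num)
  have h6 := rt0_err (ang a b (2 * p + 12)) (2 ^ (2 * p + 12)) (p + 26) p (by positivity)
  replace h5 := h5.trans h1
  set y : ℝ := (ang a b (2 * p + 12) : ℝ) / ((2 ^ (2 * p + 12) : ℕ) : ℝ) with hy
  have hy0 : 0 ≤ y := by positivity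
  have hy7 : y ≤ 7 := by
    have := (abs_le.1 h5).2
    have := Real.pi_lt_d2
    linarith
  have hn : ‖(y : ℂ) * Complex.I‖ = y := by simp [abs_of_nonneg hy0]
  have h7 := Complex.exp_bound' (x := (y : ℂ) * Complex.I) (n := p + 26) (by
    rw [hn, div_le_div_iff₀ (by positivity) (by norm_num)]; push_cast; linarith)
  rw [hn] at h7
  have h8 : y ^ (p + 26) / ((p + 26).factorial : ℝ) * 2 ≤ 1 / 4 / 2 ^ p := by
    have a1 := Real.pow_div_factorial_le_exp 14 (by norm_num) (p + 26)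
    have a2 : Real.exp 14 ≤ 2 ^ 23 := by
      have : Real.exp 14 = Real.exp 1 ^ 14 := by rw [← Real.exp_nat_mul]; norm_num
      rw [this]
      exact (pow_le_pow_left₀ (by positivity) (Real.exp_one_lt_d9.le.trans (by norm_num : _ ≤ (3 : ℝ))) 14).trans
        (by norm_num)
    have a3 : y ^ (p + 26) ≤ 7 ^ (p + 26) := pow_le_pow_left₀ hy0 hy7 _
    have a4 : (14 : ℝ) ^ (p + 26) = 7 ^ (p + 26) * (2 ^ p * 2 ^ 26) := by
      rw [← pow_add, ← mul_pow]; norm_num
    have a5 : (0 : ℝ) < (p + 26).factorial := by exact_mod_cast Nat.factorial_pos _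
    rw [le_div_iff₀ hp]
    have a6 : y ^ (p + 26) / ((p + 26).factorial : ℝ) ≤ 7 ^ (p + 26) / ((p + 26).factorial : ℝ) := by
      gcongr
    rw [a4, mul_div_right_comm] at a1
    nlinarith
  have h9 : ‖Complex.exp (y * Complex.I) - Complex.exp (θ * Complex.I)‖ ≤ 1 / 4 / 2 ^ p := by
    have e : Complex.exp (y * Complex.I) - Complex.exp (θ * Complex.I) =
        Complex.exp (θ * Complex.I) * (Complex.exp (Complex.I * ((y - θ : ℝ) : ℂ)) - 1) := by
      rw [mul_sub, ← Complex.exp_add, mul_one]; congr 2; push_cast; ring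
    rw [e, norm_mul, Complex.norm_exp_ofReal_mul_I, one_mul]
    exact Real.norm_exp_I_mul_ofReal_sub_one_le.trans h5
  rw [h4]
  have e : (2 : ℝ) / 2 ^ p = 3 / 2 / 2 ^ p + 1 / 4 / 2 ^ p + 1 / 4 / 2 ^ p := by ring
  rw [e]
  refine (norm_sub_le_norm_sub_add_norm_sub _ (Complex.exp (y * Complex.I)) _).trans (add_le_add ?_ h9)
  refine (norm_sub_le_norm_sub_add_norm_sub _ _ _).trans (add_le_add h6 ?_)
  rw [norm_sub_rev]; exact h7.trans h8

end Crest.Agent.Lead.IM
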