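import Crest.Agent.Lead.IMF3
import Crest.Agent.Lead.IMRoot
import Crest.Agent.H4.IMPar
import Crest.Agent.H4.IMXC2
import Crest.Agent.H5.IMEx
import Crest.Agent.H6.IMEx4
import Crest.Agent.H6.IMRec
import Crest.Agent.H8.IMLay
import Crest.Agent.H9.IMHad
import Crest.Agent.H3.IMConv2
import Crest.Agent.H3.IMTM

/-! Row 326: everything from the swap statement. -/

set_option autoImplicit false

namespace Crest.Agent.Lead.IM
open Crest.Agent.H9.IM Crest.LogicCS.IntMul Crest.DTime

theorem final_of_swap (hS : SwapStmt) :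
    ∃ c : ℕ, TimeBoundComputable EqLenPair.enc (Computability.encodingList Bool).encode mulOutput
      (fun N => c * ⌈(N : ℝ) * (Real.logb 2 N) ^ (1 - 1 / (2 : ℝ) ^ 182)⌉₊ + c) :=
  final Crest.Agent.H4.IM.cost_bound Crest.Agent.H4.IM.par_facts
    (Cv.convStmt numStmt' (Crest.Agent.H4.IM.cellStmt coreStmt numStmt')
      (Crest.Agent.H8.IM.layStmt arrStmt' (addStmt' hS))
      (Crest.Agent.H4.IM.transStmt (Crest.Agent.H6.IM.execStmt numStmt' (hadStmt' hS)) rootStmt
        Crest.Agent.H5.IM.exactStmt))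
    numStmt' tmStmt

end Crest.Agent.Lead.IM
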