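import Crest.Agent.Lead.QQStein

/-! The Stein chain for `K`-fold forrelation. -/

set_option autoImplicit false
open Finset MeasureTheory ProbabilityTheory MvPolynomial

namespace Crest.Agent.Lead.QQ

lemma deriv_prod {A ι : Type} [CommRing A] [Algebra ℝ A] [DecidableEq ι] (δ : Derivation ℝ A A)
    (s : Finset ι) (f : ι → A) :
    δ (∏ v ∈ s, f v) = ∑ v ∈ s, δ (f v) * ∏ v' ∈ s.erase v, f v' := by
  induction s using Finset.induction_on with
  | empty => simp
  | insert a s ha ih =>
    rw [Finset.prod_insert ha, Finset.sum_insert ha, Derivation.leibniz, ih,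
      Finset.erase_insert ha, smul_eq_mul, smul_eq_mul, Finset.mul_sum, add_comm, mul_comm]
    congr 1
    refine Finset.sum_congr rfl fun v hv => ?_
    have hav : a ≠ v := fun h => ha (h ▸ hv)
    rw [Finset.erase_insert_of_ne hav, Finset.prod_insert (fun h => ha (Finset.mem_of_mem_erase h))]
    ring

section DP
variable {K : ℕ} {B σ : Type} [Fintype B] [DecidableEq B]

/-- polynomial version of `pf (W Z ω) h` -/
noncomputable def DP (Z : Fin K × B → MvPolynomial σ ℝ) (h : (Fin K × B → Bool) → ℝ)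
    (ω : Fin K → Option B) : MvPolynomial σ ℝ :=
  ∑ z, C (h z) * ∏ v, (if ω v.1 = some v.2 then C (sg (z v) / 2)
    else C (1 / 2) + C (sg (z v) / 2) * Z v)

lemma DP_eval (f : σ → ℝ) (Z : Fin K × B → MvPolynomial σ ℝ) (h : (Fin K × B → Bool) → ℝ)
    (ω : Fin K → Option B) :
    MvPolynomial.eval f (DP Z h ω) = pf (W (fun v => MvPolynomial.eval f (Z v)) ω) h := by
  unfold DP pf
  simp only [map_sum, map_mul, map_prod, eval_C]
  refine Finset.sum_congr rfl fun z _ => ?_
  rw [mul_comm]
  congr 1
  refine Finset.prod_congr rfl fun v _ => ?_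
  simp only [W]
  split_ifs
  · simp
  · simp only [map_add, map_mul, eval_C]; ring

lemma DP_deriv (δ : Derivation ℝ (MvPolynomial σ ℝ) (MvPolynomial σ ℝ))
    (Z : Fin K × B → MvPolynomial σ ℝ) (h : (Fin K × B → Bool) → ℝ) (ω : Fin K → Option B)
    (hω : ∀ v : Fin K × B, ω v.1 ≠ none → ω v.1 ≠ some v.2 → δ (Z v) = 0) :
    δ (DP Z h ω) = ∑ v : Fin K × B, if ω v.1 = none then
      δ (Z v) * DP Z h (Function.update ω v.1 (some v.2)) else 0 := by
  have hC : ∀ a : ℝ, δ (C a) = 0 := fun a => derivation_C δ a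
  have hCm : ∀ (a : ℝ) p, δ (C a * p) = C a * δ p := by
    intro a p; rw [Derivation.leibniz, hC]; simp
  unfold DP
  simp only [map_sum, hCm, deriv_prod, Finset.mul_sum]
  rw [Finset.sum_comm]
  refine Finset.sum_congr rfl fun v _ => ?_
  by_cases h1 : ω v.1 = none
  · rw [if_pos h1]
    refine Finset.sum_congr rfl fun z _ => ?_
    have h2 : ω v.1 ≠ some v.2 := by simp [h1]
    rw [if_neg h2, map_add, hC, hCm, zero_add, ← Finset.mul_prod_erase _ _ (Finset.mem_univ v)]
    simp only [Function.update_self, if_true]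
    have : ∏ v' ∈ univ.erase v, (if Function.update ω v.1 (some v.2) v'.1 = some v'.2
        then C (sg (z v') / 2) else C (1 / 2) + C (sg (z v') / 2) * Z v')
        = ∏ v' ∈ univ.erase v, (if ω v'.1 = some v'.2
        then C (sg (z v') / 2) else C (1 / 2) + C (sg (z v') / 2) * Z v') := by
      refine Finset.prod_congr rfl fun v' hv' => ?_
      have hv : v' ≠ v := Finset.ne_of_mem_erase hv'
      by_cases h3 : v'.1 = v.1
      · have h4 : v.2 ≠ v'.2 := fun h4 => hv (Prod.ext h3 h4.symm)
        simp [h3, h1, h4]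
      · rw [Function.update_of_ne h3]
    rw [this]; ring
  · rw [if_neg h1]
    refine Finset.sum_eq_zero fun z _ => ?_
    split_ifs with h2
    · simp [hC]
    · rw [map_add, hC, hCm, hω v h1 h2]; simp

end DP

lemma sum_update {K : ℕ} {B : Type} [Fintype B] [DecidableEq B] (i : Fin K)
    (g : (Fin K → B) → ℝ) :
    ∑ u : Fin K → B, ∑ b, g (Function.update u i b) = Fintype.card B * ∑ u, g u := by
  rw [← Finset.sum_product', Finset.univ_product_univ]
  have : Fintype.card B * ∑ u, g u = ∑ p : (Fin K → B) × B, g p.1 := by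
    rw [Fintype.sum_prod_type]; simp [Finset.mul_sum]
  rw [this]
  refine Finset.sum_nbij' (fun p => (Function.update p.1 i p.2, p.1 i))
    (fun p => (Function.update p.1 i p.2, p.1 i)) ?_ ?_ ?_ ?_ ?_ <;> simp

lemma sum_zero_coord {M : ℕ} {B : Type} [Fintype B] [DecidableEq B] (g : B → ℝ) :
    ∑ u : Fin (M + 1) → B, g (u 0) = (Fintype.card B : ℝ) ^ M * ∑ b, g b := by
  have := pf_prod (fun (_ : Fin (M + 1)) (_ : B) => (1 : ℝ))
    (fun i b => if i = 0 then g b else 1)
  simp only [pf, Finset.prod_const_one, one_mul, Finset.prod_ite_eq', Finset.mem_univ,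
    if_true] at this
  rw [this, Fin.prod_univ_succ]
  simp [mul_comm]

section chain
variable {M L : ℕ}

abbrev GJ (M L : ℕ) := Fin M × BV L
abbrev PR (M L : ℕ) := MvPolynomial (Option (GJ M L)) ℝ

noncomputable def xP (s : ℝ) (i : Fin M) (u : BV L) : PR M L := C s * X (some (i, u))
noncomputable def yP (s : ℝ) (i : Fin M) (u : BV L) : PR M L :=
  ∑ w, C (s / Real.sqrt (2 ^ L) * had u w) * X (some (i, w))
noncomputable def aP (s : ℝ) (i : Fin (M + 1)) (u : BV L) : PR M L :=
  Fin.cases (X none) (fun i' => yP s i' u) i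
noncomputable def bP (s : ℝ) (i : Fin (M + 1)) (u : BV L) : PR M L :=
  Fin.lastCases 1 (fun i' => xP s i' u) i
noncomputable def ZP (s : ℝ) (v : FV (M + 1) L) : PR M L := aP s v.1 v.2 * bP s v.1 v.2

lemma pd_aP (s : ℝ) (j : Fin M) (u : BV L) (i : Fin (M + 1)) (u' : BV L) :
    pderiv (some (j, u)) (aP s i u')
      = if i = j.succ then C (s / Real.sqrt (2 ^ L) * had u' u) else 0 := by
  refine Fin.cases ?_ (fun i' => ?_) i
  · simp [aP, (Fin.succ_ne_zero j).symm]
  · simp only [aP, Fin.cases_succ, yP, map_sum, pderiv_C_mul, Fin.succ_inj]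
    split_ifs with h
    · subst h
      rw [Finset.sum_eq_single u]
      · simp
      · intro w _ hw; rw [pderiv_X_of_ne (by simp [hw]), mul_zero]
      · simp
    · refine Finset.sum_eq_zero fun w _ => ?_
      rw [pderiv_X_of_ne (by simp [h]), mul_zero]

lemma pd_bP (s : ℝ) (j : Fin M) (u : BV L) (i : Fin (M + 1)) (u' : BV L)
    (h : ¬ (i = j.castSucc ∧ u' = u)) : pderiv (some (j, u)) (bP s i u') = 0 := by
  revert h
  refine Fin.lastCases ?_ (fun i' => ?_) i
  · simp [bP]
  · intro h
    simp only [bP, Fin.lastCases_castSucc, xP, pderiv_C_mul]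
    rw [pderiv_X_of_ne, mul_zero]
    simpa using h

lemma pd0_aP (s : ℝ) (i : Fin (M + 1)) (u' : BV L) :
    pderiv none (aP s i u') = if i = 0 then 1 else 0 := by
  refine Fin.cases ?_ (fun i' => ?_) i
  · simp [aP]
  · simp [aP, yP, pderiv_C_mul]

lemma pd0_bP (s : ℝ) (i : Fin (M + 1)) (u' : BV L) : pderiv none (bP s i u') = 0 := by
  refine Fin.lastCases ?_ (fun i' => ?_) i
  · simp [bP]
  · simp [bP, xP, pderiv_C_mul]

/-- path sign up to position `j` -/
def hp (j : ℕ) (u : Fin (M + 1) → BV L) : ℝ :=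
  ∏ i : Fin M, if i.val < j then had (u i.succ) (u i.castSucc) else 1

def om (j : ℕ) (u : Fin (M + 1) → BV L) : Fin (M + 1) → Option (BV L) :=
  fun i => if i.val ≤ j then some (u i) else none

lemma abs_hp (j : ℕ) (u : Fin (M + 1) → BV L) : |hp j u| = 1 := by
  unfold hp; rw [Finset.abs_prod]
  refine Finset.prod_eq_one fun i _ => ?_
  split_ifs <;> simp [abs_had]

lemma hp_zero (u : Fin (M + 1) → BV L) : hp 0 u = 1 := by simp [hp]

lemma hp_succ (j : Fin M) (u : Fin (M + 1) → BV L) (b : BV L) :
    hp (j.val + 1) (Function.update u j.succ b) = hp j.val u * had b (u j.castSucc) := by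
  unfold hp
  rw [← Finset.mul_prod_erase _ _ (Finset.mem_univ j),
    ← Finset.mul_prod_erase _ _ (Finset.mem_univ j)]
  have h0 : j.castSucc ≠ j.succ := Fin.castSucc_lt_succ.ne
  simp only [Nat.lt_add_one, if_true, Function.update_self, lt_self_iff_false, if_false, one_mul,
    Function.update_of_ne h0]
  rw [mul_comm]
  congr 1
  refine Finset.prod_congr rfl fun i hi => ?_
  have hij : i ≠ j := Finset.ne_of_mem_erase hi
  have hij' : i.val ≠ j.val := fun h => hij (Fin.ext h)
  by_cases h : i.val < j.val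
  · have a1 : i.succ ≠ j.succ := fun h => hij (Fin.succ_inj.mp h)
    have a2 : i.castSucc ≠ j.succ := by
      intro h'; have := congrArg Fin.val h'; simp at this; omega
    rw [if_pos h, if_pos (by omega), Function.update_of_ne a1, Function.update_of_ne a2]
  · rw [if_neg h, if_neg (by omega)]

lemma om_succ (j : Fin M) (u : Fin (M + 1) → BV L) (b : BV L) :
    om (j.val + 1) (Function.update u j.succ b) = Function.update (om j.val u) j.succ (some b) := by
  funext i
  by_cases h : i = j.succ
  · subst h; simp [om]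
  · have h' : i.val ≠ j.val + 1 := fun h' => h (Fin.ext (by simpa using h'))
    simp only [om, Function.update_of_ne h]
    by_cases h2 : i.val ≤ j.val
    · rw [if_pos h2, if_pos (by omega)]
    · rw [if_neg h2, if_neg (by omega)]

noncomputable def TT (s t : ℝ) (h : (FV (M + 1) L → Bool) → ℝ) (i : Fin (M + 1)) : ℝ :=
  ∑ u : Fin (M + 1) → BV L, hp i.val u * EE t (bP s i (u i) * DP (ZP s) h (om i.val u))

lemma TT_step (s t : ℝ) (h : (FV (M + 1) L → Bool) → ℝ) (j : Fin M) :
    TT s t h j.castSucc = (s ^ 2 / Real.sqrt (2 ^ L) * 2 ^ L) * TT s t h j.succ := by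
  unfold TT
  have hc : (2 : ℝ) ^ L = Fintype.card (BV L) := by simp
  rw [mul_assoc, hc, ← sum_update j.succ, Finset.mul_sum, ← hc]
  refine Finset.sum_congr rfl fun u _ => ?_
  simp only [Fin.val_castSucc, Fin.val_succ, hp_succ, om_succ, Function.update_self]
  have e1 : bP s j.castSucc (u j.castSucc) = C s * X (some (j, u j.castSucc)) := by
    simp [bP, xP]
  rw [e1, mul_assoc, EE_C_mul, EE_stein, DP_deriv, EE_sum, Fintype.sum_prod_type,
    Finset.sum_eq_single j.succ]
  · simp only [Finset.mul_sum]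
    refine Finset.sum_congr rfl fun b _ => ?_
    have h1 : om j.val u j.succ = none := by simp [om]
    have h0 : j.succ ≠ j.castSucc := Fin.castSucc_lt_succ.ne'
    rw [if_pos h1, ZP, Derivation.leibniz, pd_aP, pd_bP _ _ _ _ _ (by simp [h0])]
    simp only [if_true, mul_zero, zero_add, smul_eq_mul]
    rw [mul_comm (bP _ _ _), mul_assoc, EE_C_mul]
    ring
  · intro i _ hi
    refine Finset.sum_eq_zero fun b _ => ?_
    split_ifs with h1
    · have h2 : i ≠ j.castSucc := by
        rintro rfl
        simp [om] at h1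
      rw [ZP, Derivation.leibniz, pd_aP, pd_bP _ _ _ _ _ (by simp [h2]), if_neg hi]
      simp [EE]
    · simp [EE]
  · simp
  · rintro ⟨i, b⟩ h1 h2
    simp only [om] at h1 h2
    have h3 : i.val ≤ j.val := by
      by_contra h3; simp [h3] at h1
    simp only [h3, if_true, ne_eq, Option.some.injEq] at h2
    have h4 : i ≠ j.succ := by
      rintro rfl; simp at h3
    rw [ZP, Derivation.leibniz, pd_aP, pd_bP _ _ _ _ _ (by
      rintro ⟨rfl, h5⟩; exact h2 h5.symm), if_neg h4]
    simp

lemma TT_chain (s t : ℝ) (h : (FV (M + 1) L → Bool) → ℝ) (i : Fin (M + 1)) :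
    TT s t h 0 = (s ^ 2 / Real.sqrt (2 ^ L) * 2 ^ L) ^ i.val * TT s t h i := by
  induction i using Fin.induction with
  | zero => simp
  | succ j ih => rw [ih, TT_step]; simp [pow_succ, mul_assoc]

/-- the derivative of the interpolated expectation only sees level `K` -/
theorem chain_deriv (s t : ℝ) (h : (FV (M + 1) L → Bool) → ℝ) :
    HasDerivAt (fun t => EE t (DP (ZP s) h (fun _ => none)))
      ((s ^ 2 / Real.sqrt (2 ^ L)) ^ M *
        ∑ u : Fin (M + 1) → BV L, hp M u * EE t (DP (ZP s) h (fun i => some (u i)))) t := by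
  refine (EE_hasDerivAt t _).congr_deriv ?_
  have hN : (0 : ℝ) < 2 ^ L := by positivity
  have h1 := TT_chain s t h (Fin.last M)
  have h2 : TT s t h (Fin.last M)
      = ∑ u : Fin (M + 1) → BV L, hp M u * EE t (DP (ZP s) h (fun i => some (u i))) := by
    unfold TT
    refine Finset.sum_congr rfl fun u _ => ?_
    have : om (Fin.last M).val u = fun i => some (u i) := by
      funext i; simp [om, Nat.lt_succ_iff.mp i.isLt]
    rw [this]; simp [bP]
  have h3 : TT s t h 0 = ((2 : ℝ) ^ L) ^ M * EE t (pderiv none (DP (ZP s) h (fun _ => none))) := by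
    unfold TT
    have e : ∀ u : Fin (M + 1) → BV L,
        om (0 : Fin (M + 1)).val u = Function.update (fun _ => none) 0 (some (u 0)) := by
      intro u; funext i
      by_cases hi : i = 0
      · subst hi; simp [om]
      · simp [om, hi]
    simp only [e]
    simp only [Fin.val_zero, hp_zero, one_mul]
    rw [sum_zero_coord (fun b => EE t (bP s 0 b * DP (ZP s) h
      (Function.update (fun _ => none) 0 (some b)))), DP_deriv _ _ _ _ (by simp), EE_sum,
      Fintype.sum_prod_type, Finset.sum_eq_single (0 : Fin (M + 1))]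
    · simp [ZP, pd0_aP, pd0_bP]
    · intro i _ hi
      simp [ZP, pd0_aP, pd0_bP, hi, EE]
    · simp
  rw [h3, h2, mul_pow, Fin.val_last, mul_comm (_ ^ M) ((2 ^ L) ^ M), mul_assoc] at h1
  exact mul_left_cancel₀ (by positivity) h1

/-- closed form of the forrelation -/
lemma vec_chain (z : FV (M + 1) L → Bool) (i : Fin (M + 1)) : ∀ g : BV L → ℝ,
    ((2 : ℝ) ^ L) ^ M * ∑ b, g b * (zs z i.val b * vec z i.val b)
      = ((2 : ℝ) ^ L) ^ i.val * ∑ u : Fin (M + 1) → BV L, g (u i) * hp i.val u
        * ∏ i' : Fin (M + 1), if i'.val ≤ i.val then sg (z (i', u i')) else 1 := by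
  have hc : (2 : ℝ) ^ L = Fintype.card (BV L) := by simp
  induction i using Fin.induction with
  | zero =>
    intro g
    have e : ∀ u : Fin (M + 1) → BV L,
        (∏ i' : Fin (M + 1), if i'.val ≤ (0 : Fin (M + 1)).val then sg (z (i', u i')) else 1)
        = sg (z (0, u 0)) := by
      intro u; rw [Fin.prod_univ_succ]; simp
    simp only [e]
    simp only [Fin.val_zero, hp_zero, mul_one, pow_zero, one_mul, vec]
    rw [sum_zero_coord (fun b => g b * sg (z (0, b))), ← hc]
    simp [zs]
  | succ j ih =>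
    intro g
    have := ih (fun w => ∑ b, g b * zs z (j.val + 1) b * had b w)
    simp only [Fin.val_castSucc] at this
    simp only [Fin.val_succ, vec]
    have e1 : ∑ b, g b * (zs z (j.val + 1) b * ∑ w, had b w * (zs z j.val w * vec z j.val w))
        = ∑ w, (∑ b, g b * zs z (j.val + 1) b * had b w) * (zs z j.val w * vec z j.val w) := by
      simp only [Finset.mul_sum, Finset.sum_mul]
      rw [Finset.sum_comm]
      refine Finset.sum_congr rfl fun _ _ => Finset.sum_congr rfl fun _ _ => by ring
    rw [e1, this, pow_succ, mul_assoc]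
    congr 1
    rw [hc, ← sum_update j.succ]
    refine Finset.sum_congr rfl fun u _ => ?_
    simp only [Finset.sum_mul, hp_succ, Function.update_self]
    refine Finset.sum_congr rfl fun b _ => ?_
    have e2 : (∏ i' : Fin (M + 1), if i'.val ≤ j.val + 1
        then sg (z (i', Function.update u j.succ b i')) else 1)
        = zs z (j.val + 1) b
          * ∏ i' : Fin (M + 1), if i'.val ≤ j.val then sg (z (i', u i')) else 1 := by
      rw [← Finset.mul_prod_erase _ _ (Finset.mem_univ j.succ),
        ← Finset.mul_prod_erase _ _ (Finset.mem_univ j.succ)]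
      have : zs z (j.val + 1) b = sg (z (j.succ, b)) := by
        unfold zs; rw [dif_pos (by omega)]; rfl
      rw [this]
      simp only [Fin.val_succ, le_refl, if_true, Function.update_self, add_le_iff_nonpos_right,
        nonpos_iff_eq_zero, one_ne_zero, if_false, one_mul]
      congr 1
      refine Finset.prod_congr rfl fun i hi => ?_
      have h1 : i ≠ j.succ := Finset.ne_of_mem_erase hi
      have h2 : i.val ≠ j.val + 1 := fun h' => h1 (Fin.ext (by simpa using h'))
      rw [Function.update_of_ne h1]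
      by_cases h3 : i.val ≤ j.val
      · rw [if_pos h3, if_pos (by omega)]
      · rw [if_neg h3, if_neg (by omega)]
    rw [e2]; ring

lemma Phi_closed (z : FV (M + 1) L → Bool) :
    Phi z = (1 / Real.sqrt (2 ^ L) ^ (M + 2)) *
      ∑ u : Fin (M + 1) → BV L, hp M u * ∏ i, sg (z (i, u i)) := by
  have := vec_chain z (Fin.last M) (fun _ => 1)
  simp only [Fin.val_last, one_mul] at this
  have h2 := mul_left_cancel₀ (by positivity) this
  unfold Phi
  simp only [vec, had_zero_left, one_mul]
  rw [h2, div_eq_mul_one_div, mul_comm]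
  congr 1
  refine Finset.sum_congr rfl fun u _ => ?_
  congr 1
  refine Finset.prod_congr rfl fun i _ => ?_
  rw [if_pos (Nat.lt_succ_iff.mp i.isLt)]

lemma pf_W_chi (Y : FV (M + 1) L → ℝ) (ω : Fin (M + 1) → Option (BV L))
    (u : Fin (M + 1) → BV L) :
    pf (W Y ω) (fun z => ∏ i, sg (z (i, u i))) = ∏ v : FV (M + 1) L,
      if ω v.1 = some v.2 then (if u v.1 = v.2 then 1 else 0)
      else (if u v.1 = v.2 then Y v else 1) := by
  have e : ∀ z : FV (M + 1) L → Bool, ∏ i, sg (z (i, u i))
      = ∏ v : FV (M + 1) L, if u v.1 = v.2 then sg (z v) else 1 := by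
    intro z
    rw [Fintype.prod_prod_type]
    simp
  simp only [e]
  rw [pf_prod (W Y ω) (fun v b => if u v.1 = v.2 then sg b else 1)]
  refine Finset.prod_congr rfl fun v _ => ?_
  simp only [W, Fintype.sum_bool, sg_true, sg_false]
  split_ifs <;> ring

lemma pf_W_Phi_full (Y : FV (M + 1) L → ℝ) (u : Fin (M + 1) → BV L) :
    pf (W Y (fun i => some (u i))) Phi = (1 / Real.sqrt (2 ^ L) ^ (M + 2)) * hp M u := by
  have : (Phi : (FV (M + 1) L → Bool) → ℝ) = _ := funext Phi_closed
  rw [this, pf_mul, pf_sum]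
  simp only [pf_mul, pf_W_chi]
  rw [Finset.sum_eq_single u]
  · rw [Finset.prod_eq_one, mul_one]
    intro v _
    by_cases h : u v.1 = v.2 <;> simp [h]
  · intro u' _ hu
    obtain ⟨i, hi⟩ := Function.ne_iff.mp hu
    rw [Finset.prod_eq_zero (Finset.mem_univ (i, u i)), mul_zero]
    simp [hi]
  · simp

lemma pf_W_Phi_none (Y : FV (M + 1) L → ℝ) (hY : ∀ b, Y (0, b) = 0) :
    pf (W Y (fun _ => none)) Phi = 0 := by
  have : (Phi : (FV (M + 1) L → Bool) → ℝ) = _ := funext Phi_closed
  rw [this, pf_mul, pf_sum]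
  simp only [pf_mul, pf_W_chi]
  rw [Finset.sum_eq_zero, mul_zero]
  intro u _
  rw [Finset.prod_eq_zero (Finset.mem_univ (0, u 0)), mul_zero]
  simp [hY]

end chain

end Crest.Agent.Lead.QQ
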