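import Crest.Agent.Lead.QQDefs

/-! A locally checkable certificate for the forrelation promise: all butterfly values. -/

set_option autoImplicit false
open Finset

namespace Crest.Agent.Lead.QQ

variable {L : ℕ}

/-- partial Hadamard transform on the first `n` coordinates -/
def ph (v : BV L → ℝ) : ℕ → BV L → ℝ
  | 0 => v
  | n + 1 => fun u => if h : n < L then
      ph v n (Function.update u ⟨n, h⟩ false) + sg (u ⟨n, h⟩) * ph v n (Function.update u ⟨n, h⟩ true)
    else ph v n u

def ker (n : ℕ) (u w : BV L) : ℝ :=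
  ∏ c : Fin L, if c.val < n then sg (u c && w c) else if u c = w c then 1 else 0

lemma ker_succ (l : Fin L) (u w : BV L) :
    ker (l.val + 1) u w = ker l.val (Function.update u l false) w
      + sg (u l) * ker l.val (Function.update u l true) w := by
  unfold ker
  have e : ∀ b, ∏ c ∈ univ.erase l, (if c.val < l.val then sg (Function.update u l b c && w c)
      else if Function.update u l b c = w c then 1 else 0)
      = ∏ c ∈ univ.erase l, (if c.val < l.val + 1 then sg (u c && w c)
        else if u c = w c then 1 else 0) := by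
    intro b
    refine Finset.prod_congr rfl fun c hc => ?_
    have h1 : c ≠ l := Finset.ne_of_mem_erase hc
    have h2 : c.val ≠ l.val := fun h => h1 (Fin.ext h)
    rw [Function.update_of_ne h1]
    by_cases h3 : c.val < l.val
    · rw [if_pos h3, if_pos (by omega)]
    · rw [if_neg h3, if_neg (show ¬ c.val < l.val + 1 by omega)]
  rw [← Finset.mul_prod_erase _ _ (Finset.mem_univ l),
    ← Finset.mul_prod_erase _ _ (Finset.mem_univ l),
    ← Finset.mul_prod_erase _ _ (Finset.mem_univ l), e, e]
  simp only [Nat.lt_add_one, if_true, lt_self_iff_false, if_false, Function.update_self]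
  cases u l <;> cases w l <;> simp

lemma ph_eq (v : BV L → ℝ) (n : ℕ) (hn : n ≤ L) : ∀ u, ph v n u = ∑ w, ker n u w * v w := by
  induction n with
  | zero =>
    intro u
    rw [Finset.sum_eq_single u]
    · simp [ph, ker]
    · intro w _ hw
      obtain ⟨c, hc⟩ := Function.ne_iff.mp hw
      rw [ker, Finset.prod_eq_zero (Finset.mem_univ c), zero_mul]
      simp [hc.symm]
    · simp
  | succ n ih =>
    intro u
    have h : n < L := hn
    simp only [ph, dif_pos h, ih h.le, Finset.mul_sum]
    rw [← Finset.sum_add_distrib]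
    refine Finset.sum_congr rfl fun w _ => ?_
    rw [ker_succ ⟨n, h⟩]; ring

lemma ph_full (v : BV L → ℝ) (u : BV L) : ph v L u = ∑ w, had u w * v w := by
  rw [ph_eq v L le_rfl]
  simp [ker, had]

/-- an integer of absolute value at most `2^n` -/
def IB (n : ℕ) (x : ℝ) : Prop := ∃ m : ℤ, x = m ∧ |m| ≤ 2 ^ n

lemma IB.mono {n n' : ℕ} {x : ℝ} (h : IB n x) (hn : n ≤ n') : IB n' x := by
  obtain ⟨m, h1, h2⟩ := h
  exact ⟨m, h1, h2.trans (pow_le_pow_right₀ (by norm_num) hn)⟩

lemma IB.sg_mul {n : ℕ} {x : ℝ} (h : IB n x) (b : Bool) : IB n (sg b * x) := by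
  obtain ⟨m, h1, h2⟩ := h
  cases b
  · exact ⟨m, by simp [h1], h2⟩
  · exact ⟨-m, by simp [h1], by rwa [abs_neg]⟩

lemma IB.add {n : ℕ} {x y : ℝ} (h : IB n x) (h' : IB n y) : IB (n + 1) (x + y) := by
  obtain ⟨m, h1, h2⟩ := h
  obtain ⟨m', h1', h2'⟩ := h'
  refine ⟨m + m', by simp [h1, h1'], (abs_add_le _ _).trans ?_⟩
  rw [pow_succ]; linarith

lemma IB_ph {v : BV L → ℝ} {k : ℕ} (hv : ∀ u, IB k (v u)) (n : ℕ) :
    ∀ u, IB (k + n) (ph v n u) := by
  induction n with
  | zero => exact hv
  | succ n ih =>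
    intro u
    simp only [ph]
    split_ifs
    · exact (ih _).add ((ih _).sg_mul _)
    · exact (ih _).mono (by omega)

lemma vec_succ {K : ℕ} (z : FV K L → Bool) (i : ℕ) (u : BV L) :
    vec z (i + 1) u = ph (fun w => zs z i w * vec z i w) L u := by
  rw [ph_full]; rfl

lemma IB_zs {K : ℕ} (z : FV K L → Bool) (i : ℕ) (w : BV L) {n : ℕ} {x : ℝ} (h : IB n x) :
    IB n (zs z i w * x) := by
  unfold zs; split_ifs
  · exact h.sg_mul _
  · rwa [one_mul]

lemma IB_vec {K : ℕ} (z : FV K L → Bool) (i : ℕ) : ∀ u, IB (i * L) (vec z i u) := by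
  induction i with
  | zero => intro u; exact ⟨1, by simp [vec], by simp⟩
  | succ i ih =>
    intro u
    rw [vec_succ, add_mul, one_mul]
    exact IB_ph (fun u => IB_zs z i u (ih u)) L u

lemma exists_dec (n : ℕ) : ∃ dec : (Fin (n + 2) → Bool) → ℝ, ∀ x, IB n x → ∃ β, dec β = x := by
  classical
  have hc : Fintype.card (Finset.Icc (-(2 ^ n : ℤ)) (2 ^ n)) ≤ Fintype.card (Fin (n + 2) → Bool) := by
    simp only [Fintype.card_coe, Int.card_Icc, Fintype.card_fun, Fintype.card_bool,
      Fintype.card_fin]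
    rw [Int.toNat_le]
    push_cast
    have : (1 : ℤ) ≤ 2 ^ n := one_le_pow₀ (by norm_num)
    rw [pow_add]; linarith
  obtain ⟨e⟩ := Function.Embedding.nonempty_of_card_le hc
  refine ⟨Function.extend e (fun m => ((m : ℤ) : ℝ)) 0, ?_⟩
  rintro x ⟨m, rfl, hm⟩
  exact ⟨e ⟨m, Finset.mem_Icc.mpr (abs_le.mp hm)⟩, e.injective.extend_apply _ _ _⟩

abbrev Node (K L r : ℕ) := (Fin L × Fin r) × Fin K × Fin (L + 1) × BV L
abbrev CircT (K L r : ℕ) := Node K L r × Fin (K * L + 2)
abbrev ChkT (K L r : ℕ) := Node K L r ⊕ Fin L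

section V
variable {M r : ℕ} (dec : (Fin ((M + 1) * L + 2) → Bool) → ℝ)

def nval (y : Ins (M + 1) L r ⊕ CircT (M + 1) L r → Bool) (p : Fin L × Fin r) (i : Fin (M + 1))
    (l : Fin (L + 1)) (u : BV L) : ℝ := dec (fun b => y (Sum.inr ((p, i, l, u), b)))

def nrhs (y : Ins (M + 1) L r ⊕ CircT (M + 1) L r → Bool) (p : Fin L × Fin r) (i : Fin (M + 1))
    (l : Fin (L + 1)) (u : BV L) : ℝ :=
  Fin.cases (sg (y (Sum.inl (p, (i, u))))
      * Fin.cases 1 (fun i' => nval dec y p i'.castSucc (Fin.last L) u) i)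
    (fun l' => nval dec y p i l'.castSucc (Function.update u l' false)
      + sg (u l') * nval dec y p i l'.castSucc (Function.update u l' true)) l

open Classical in
noncomputable def npass (θ : ℝ) (χ : ChkT (M + 1) L r) (a : BV L)
    (y : Ins (M + 1) L r ⊕ CircT (M + 1) L r → Bool) : Bool :=
  match χ with
  | Sum.inl (p, i, l, u) => decide (nval dec y p i l u = nrhs dec y p i l u)
  | Sum.inr t => decide (θ ≤ sg (a t) * ∑ s, nval dec y (t, s) (Fin.last M) (Fin.last L)
      (fun _ => false) / Real.sqrt (2 ^ L) ^ (M + 1 + 1))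

lemma DT_nval (p : Fin L × Fin r) (i : Fin (M + 1)) (l : Fin (L + 1)) (u : BV L) :
    DT Any ((M + 1) * L + 2) (fun y => nval dec y p i l u) :=
  (DT.vars (fun b => Sum.inr ((p, i, l, u), b))).map dec

lemma DT_nrhs (p : Fin L × Fin r) (i : Fin (M + 1)) (l : Fin (L + 1)) (u : BV L) :
    DT Any (2 * ((M + 1) * L + 2)) (fun y => nrhs dec y p i l u) := by
  refine Fin.cases ?_ (fun l' => ?_) l
  · refine Fin.cases ?_ (fun i' => ?_) i
    · exact (((DT.var (Sum.inl (p, (0, u)))).map sg).mono (by omega)).congr fun y => by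
        simp [nrhs]
    · exact ((((DT.var (Sum.inl (p, (i'.succ, u)))).pair
        (DT_nval dec p i'.castSucc (Fin.last L) u)).map
          (fun q => sg q.1 * q.2)).mono (by omega)).congr fun y => by simp [nrhs]
  · exact ((((DT_nval dec p i l'.castSucc (Function.update u l' false)).pair
      (DT_nval dec p i l'.castSucc (Function.update u l' true))).map
        (fun q => q.1 + sg (u l') * q.2)).mono (by omega)).congr fun y => by simp [nrhs]

lemma DT_npass (θ : ℝ) (χ : ChkT (M + 1) L r) (a : BV L) :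
    DT Any ((r + 3) * ((M + 1) * L + 2)) (npass dec θ χ a) := by
  classical
  rcases χ with ⟨p, i, l, u⟩ | t
  · exact ((((DT_nval dec p i l u).pair (DT_nrhs dec p i l u)).map
      (fun q => decide (q.1 = q.2))).mono (by
        generalize (M + 1) * L + 2 = X; rw [add_mul]; omega)).congr fun y => by simp [npass]
  · exact (((DT.piFin (fun s : Fin r => DT_nval dec (t, s) (Fin.last M) (Fin.last L)
      (fun _ => false))).map (fun q => decide (θ ≤ sg (a t) * ∑ s, q s
        / Real.sqrt (2 ^ L) ^ (M + 1 + 1)))).mono (by nlinarith)).congr fun y => by simp [npass]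

/-- the true value of a node -/
def tval (z : FV (M + 1) L → Bool) (i : Fin (M + 1)) (l : Fin (L + 1)) (u : BV L) : ℝ :=
  ph (fun w => zs z i.val w * vec z i.val w) l.val u

lemma tval_zero (z : FV (M + 1) L → Bool) (i : Fin (M + 1)) (u : BV L) :
    tval z i 0 u = sg (z (i, u)) * Fin.cases 1 (fun i' => tval z i'.castSucc (Fin.last L) u) i := by
  have : zs z i.val u = sg (z (i, u)) := by simp [zs, i.isLt]
  simp only [tval, Fin.val_zero, ph, this]
  congr 1
  refine Fin.cases ?_ (fun i' => ?_) i
  · simp [vec]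
  · simp [vec_succ]

lemma tval_succ (z : FV (M + 1) L → Bool) (i : Fin (M + 1)) (l : Fin L) (u : BV L) :
    tval z i l.succ u = tval z i l.castSucc (Function.update u l false)
      + sg (u l) * tval z i l.castSucc (Function.update u l true) := by
  simp [tval, ph]

lemma tval_last (z : FV (M + 1) L → Bool) :
    tval z (Fin.last M) (Fin.last L) (fun _ => false) / Real.sqrt (2 ^ L) ^ (M + 1 + 1)
      = Phi z := by
  simp [tval, Phi, vec_succ]

lemma nval_eq (y : Ins (M + 1) L r ⊕ CircT (M + 1) L r → Bool) (p : Fin L × Fin r)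
    (h : ∀ i l u, nval dec y p i l u = nrhs dec y p i l u) (i : Fin (M + 1)) :
    ∀ l u, nval dec y p i l u = tval (fun v => y (Sum.inl (p, v))) i l u := by
  induction i using Fin.induction with
  | zero =>
    intro l
    induction l using Fin.induction with
    | zero => intro u; rw [h, tval_zero]; simp [nrhs]
    | succ l ih => intro u; rw [h, tval_succ]; simp [nrhs, ih]
  | succ i ihi =>
    intro l
    induction l using Fin.induction with
    | zero => intro u; rw [h, tval_zero]; simp [nrhs, ihi]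
    | succ l ih => intro u; rw [h, tval_succ]; simp [nrhs, ih]

end V

theorem exists_verifier (M L r : ℕ) (θ : ℝ) :
    Nonempty (Verifier (M + 1) L r θ (CircT (M + 1) L r) (ChkT (M + 1) L r)
      ((r + 3) * ((M + 1) * L + 2))) := by
  obtain ⟨dec, hdec⟩ := exists_dec ((M + 1) * L)
  refine ⟨⟨npass dec θ, DT_npass dec θ, fun a y h t => ?_, fun a z h => ?_⟩⟩
  · have h1 := h (Sum.inr t)
    simp only [npass, decide_eq_true_eq] at h1
    have h2 : ∀ s, nval dec y (t, s) (Fin.last M) (Fin.last L) (fun _ => false)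
        / Real.sqrt (2 ^ L) ^ (M + 1 + 1) = Phi (fun v => y (Sum.inl ((t, s), v))) := by
      intro s
      rw [nval_eq dec y (t, s) (fun i l u => by simpa [npass] using h (Sum.inl ((t, s), i, l, u))),
        tval_last]
    simpa only [h2] using h1
  · have hI : ∀ n : Node (M + 1) L r, ∃ β,
        dec β = tval (fun v => z (n.1, v)) n.2.1 n.2.2.1 n.2.2.2 := by
      rintro ⟨p, i, l, u⟩
      refine hdec _ ((IB_ph (fun u => IB_zs _ _ u (IB_vec _ _ u)) _ _).mono ?_)
      have h1 : i.val ≤ M := Nat.lt_succ_iff.mp i.isLt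
      have h2 : l.val ≤ L := Nat.lt_succ_iff.mp l.isLt
      dsimp only
      nlinarith
    choose β hβ using hI
    have hv : ∀ p i l u, nval dec (Sum.elim z (fun e => β e.1 e.2)) p i l u
        = tval (fun v => z (p, v)) i l u := fun p i l u => hβ (p, i, l, u)
    refine ⟨fun e => β e.1 e.2, ?_⟩
    rintro (⟨p, i, l, u⟩ | t)
    · simp only [npass, decide_eq_true_eq, nrhs, hv]
      refine Fin.cases ?_ (fun l' => ?_) l
      · rw [tval_zero]; simp
      · rw [tval_succ]; simp
    · simp only [npass, decide_eq_true_eq, hv, tval_last]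
      exact h t

end Crest.Agent.Lead.QQ
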