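import Mathlib
import Crest.Prelude.Def_QueryComplexity

/-! Shared definitions for S0554 (quartic randomized/quantum query gap). -/

set_option autoImplicit false
open Finset

namespace Crest.Agent.Lead.QQ

/-- sign of a bit -/
def sg (b : Bool) : ℝ := if b then -1 else 1

@[simp] lemma sg_true : sg true = -1 := rfl
@[simp] lemma sg_false : sg false = 1 := rfl
lemma sg_sq (b : Bool) : sg b ^ 2 = 1 := by cases b <;> simp
lemma sg_mul_self (b : Bool) : sg b * sg b = 1 := by cases b <;> simp
lemma abs_sg (b : Bool) : |sg b| = 1 := by cases b <;> simp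

abbrev BV (L : ℕ) := Fin L → Bool

/-- unnormalised Hadamard matrix -/
def had {L : ℕ} (u w : BV L) : ℝ := ∏ c, sg (u c && w c)

lemma had_comm {L : ℕ} (u w : BV L) : had u w = had w u := by
  unfold had; exact Finset.prod_congr rfl fun c _ => by rw [Bool.and_comm]

lemma had_mul_self {L : ℕ} (u w : BV L) : had u w * had u w = 1 := by
  unfold had; rw [← Finset.prod_mul_distrib]; simp [sg_mul_self]

lemma abs_had {L : ℕ} (u w : BV L) : |had u w| = 1 := by
  unfold had; rw [Finset.abs_prod]; simp [abs_sg]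

lemma had_zero_left {L : ℕ} (w : BV L) : had (fun _ => false) w = 1 := by simp [had]

lemma had_zero_right {L : ℕ} (w : BV L) : had w (fun _ => false) = 1 := by simp [had]

lemma card_BV (L : ℕ) : Fintype.card (BV L) = 2 ^ L := by simp

lemma sum_had_mul {L : ℕ} (u w : BV L) :
    ∑ v, had u v * had v w = if u = w then (2 : ℝ) ^ L else 0 := by
  have h : ∑ v : BV L, had u v * had v w
      = ∏ c : Fin L, ∑ b : Bool, sg (u c && b) * sg (b && w c) := by
    rw [Finset.prod_univ_sum]
    simp only [Fintype.piFinset_univ, had, ← Finset.prod_mul_distrib]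
  rw [h]
  split_ifs with huw
  · subst huw
    have : ∀ c, ∑ b : Bool, sg (u c && b) * sg (b && u c) = 2 := by
      intro c; cases u c <;> simp <;> norm_num
    simp only [this]; simp
  · obtain ⟨c, hc⟩ := Function.ne_iff.mp huw
    refine Finset.prod_eq_zero (Finset.mem_univ c) ?_
    revert hc
    cases u c <;> cases w c <;> simp

/-- variables of one `K`-fold forrelation instance -/
abbrev FV (K L : ℕ) := Fin K × BV L

/-- the sign of variable `(i,w)`, `1` out of range -/
def zs {K L : ℕ} (z : FV K L → Bool) (i : ℕ) (w : BV L) : ℝ :=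
  if h : i < K then sg (z (⟨i, h⟩, w)) else 1

/-- `vec z i = H D_{i-1} H ⋯ H D_0 𝟙` (unnormalised) -/
def vec {K L : ℕ} (z : FV K L → Bool) : ℕ → BV L → ℝ
  | 0 => fun _ => 1
  | i + 1 => fun u => ∑ w, had u w * (zs z i w * vec z i w)

/-- `K`-fold forrelation: the amplitude of `0` in `U D_{K-1} U ⋯ U D_0 U |0⟩`, `U = H/√N`. -/
noncomputable def Phi {K L : ℕ} (z : FV K L → Bool) : ℝ :=
  vec z K (fun _ => false) / Real.sqrt (2 ^ L) ^ (K + 1)

lemma zs_mul_self {K L : ℕ} (z : FV K L → Bool) (i : ℕ) (w : BV L) :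
    zs z i w * zs z i w = 1 := by
  unfold zs; split_ifs <;> simp [sg_mul_self]

lemma sum_sq_had {L : ℕ} (v : BV L → ℝ) :
    ∑ u, (∑ w, had u w * v w) ^ 2 = 2 ^ L * ∑ w, v w ^ 2 := by
  have : ∀ u, (∑ w, had u w * v w) ^ 2 = ∑ w, ∑ w', (had w u * had u w') * (v w * v w') := by
    intro u
    rw [sq, Finset.sum_mul_sum]
    refine Finset.sum_congr rfl fun w _ => Finset.sum_congr rfl fun w' _ => ?_
    rw [had_comm w u]; ring
  simp only [this]
  rw [Finset.sum_comm, Finset.mul_sum]
  refine Finset.sum_congr rfl fun w _ => ?_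
  rw [Finset.sum_comm]
  simp only [← Finset.sum_mul, sum_had_mul]
  simp [sq]

lemma sum_sq_vec {K L : ℕ} (z : FV K L → Bool) (i : ℕ) :
    ∑ u, vec z i u ^ 2 = (2 ^ L) ^ (i + 1) := by
  induction i with
  | zero => simp [vec]
  | succ i ih =>
    simp only [vec]
    rw [sum_sq_had]
    have : ∀ w, (zs z i w * vec z i w) ^ 2 = vec z i w ^ 2 := by
      intro w; rw [mul_pow, sq (zs z i w), zs_mul_self, one_mul]
    simp only [this, ih]; ring

lemma abs_Phi_le {K L : ℕ} (z : FV K L → Bool) : |Phi z| ≤ 1 := by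
  unfold Phi
  have hpos : 0 < Real.sqrt (2 ^ L) ^ (K + 1) := by positivity
  rw [abs_div, abs_of_pos hpos, div_le_one hpos]
  apply abs_le_of_sq_le_sq' _ hpos.le |> fun h => abs_le.mpr h
  rw [← pow_mul, mul_comm, pow_mul, Real.sq_sqrt (by positivity), ← sum_sq_vec z K]
  exact Finset.single_le_sum (f := fun u => vec z K u ^ 2) (fun _ _ => sq_nonneg _)
    (Finset.mem_univ _)

/-! ### decision trees as a predicate on functions -/

/-- `DT p d g`: `g` is computed by a decision tree of depth at most `d` all of whose leaves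
satisfy `p`. -/
inductive DT {I O : Type} (p : O → Prop) : ℕ → ((I → Bool) → O) → Prop
  | const (d : ℕ) (β : O) (h : p β) : DT p d (fun _ => β)
  | read (d : ℕ) (i : I) (f₀ f₁ : (I → Bool) → O) (h₀ : DT p d f₀) (h₁ : DT p d f₁) :
      DT p (d + 1) (fun x => if x i then f₁ x else f₀ x)

/-- no constraint on the leaves -/
abbrev Any {O : Type} : O → Prop := fun _ => True
/-- leaves in `[0,1]` -/
abbrev U01 : ℝ → Prop := fun β => 0 ≤ β ∧ β ≤ 1

namespace DT
variable {I O O' : Type} {p : O → Prop} {p' : O' → Prop}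

lemma succ {d : ℕ} {g : (I → Bool) → O} (h : DT p d g) : DT p (d + 1) g := by
  induction h with
  | const d β h => exact const _ β h
  | read d i f₀ f₁ _ _ ih₀ ih₁ => exact read _ i _ _ ih₀ ih₁

lemma mono {d d' : ℕ} {g : (I → Bool) → O} (h : DT p d g) (hd : d ≤ d') : DT p d' g := by
  induction hd with
  | refl => exact h
  | step _ ih => exact ih.succ

lemma prop {d : ℕ} {g : (I → Bool) → O} (h : DT p d g) (x : I → Bool) : p (g x) := by
  induction h with
  | const d β h => exact h
  | read d i f₀ f₁ _ _ ih₀ ih₁ => dsimp only; split_ifs <;> assumption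

lemma congr {d : ℕ} {g g' : (I → Bool) → O} (h : DT p d g) (e : ∀ x, g' x = g x) :
    DT p d g' := by
  have : g' = g := funext e
  rwa [this]

lemma bind {d d' : ℕ} {g : (I → Bool) → O} (h : DT p d g) {k : O → (I → Bool) → O'}
    (hk : ∀ o, DT p' d' (k o)) : DT p' (d + d') (fun x => k (g x) x) := by
  induction h with
  | const d β _ => exact (hk β).mono (by omega)
  | read d i f₀ f₁ _ _ ih₀ ih₁ =>
    have := read _ i _ _ ih₀ ih₁
    rw [show d + 1 + d' = d + d' + 1 by omega]
    refine this.congr fun x => ?_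
    by_cases hx : x i = true <;> simp [hx]

lemma map {d : ℕ} {g : (I → Bool) → O} (h : DT p d g) (φ : O → O') :
    DT Any d (fun x => φ (g x)) :=
  h.bind (d' := 0) (k := fun o _ => φ o) fun _ => const _ _ trivial

lemma var (i : I) : DT Any 1 (fun x : I → Bool => x i) :=
  (read (p := Any) 0 i _ _ (const 0 false trivial) (const 0 true trivial)).congr fun x => by
    cases x i <;> simp

lemma pair {d d' : ℕ} {g : (I → Bool) → O} {g' : (I → Bool) → O'} (h : DT p d g)
    (h' : DT p' d' g') : DT Any (d + d') (fun x => (g x, g' x)) :=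
  h.bind (k := fun o x => (o, g' x)) fun o => h'.map (fun o' => (o, o'))

lemma piFin {n d : ℕ} {g : Fin n → (I → Bool) → O} (h : ∀ s, DT p d (g s)) :
    DT Any (n * d) (fun x s => g s x) := by
  induction n with
  | zero => exact (const _ (fun s => s.elim0) trivial).congr fun x => Subsingleton.elim _ _
  | succ n ih =>
    have h1 := ((h 0).pair (ih (g := fun s => g s.succ) fun s => h s.succ)).map
      (fun q => (Fin.cons q.1 q.2 : Fin (n + 1) → O))
    rw [show (n + 1) * d = d + n * d by ring]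
    refine h1.congr fun x => ?_
    funext s
    refine Fin.cases ?_ (fun s => ?_) s <;> simp

/-- reading `n` prescribed bits -/
lemma vars {n : ℕ} (idx : Fin n → I) : DT Any n (fun (x : I → Bool) s => x (idx s)) := by
  simpa using piFin (d := 1) (g := fun s (x : I → Bool) => x (idx s)) fun s => var _

/-- restriction: every input coordinate is a constant or a coordinate of the new input -/
lemma restrict {J : Type} {d : ℕ} {g : (I → Bool) → O} (h : DT p d g)
    (φ : (J → Bool) → I → Bool)
    (hφ : ∀ i, (∃ b, ∀ y, φ y i = b) ∨ ∃ j, ∀ y, φ y i = y j) : DT p d (fun y => g (φ y)) := by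
  induction h with
  | const d β h => exact const _ β h
  | read d i f₀ f₁ _ _ ih₀ ih₁ =>
    rcases hφ i with ⟨b, hb⟩ | ⟨j, hj⟩
    · cases b
      · exact ih₀.succ.congr fun y => by simp [hb]
      · exact ih₁.succ.congr fun y => by simp [hb]
    · exact (read _ j _ _ ih₀ ih₁).congr fun y => by simp [hj]

lemma comp {J : Type} {d : ℕ} {g : (I → Bool) → O} (h : DT p d g) (e : I → J) :
    DT p d (fun y : J → Bool => g (fun i => y (e i))) :=
  h.restrict _ fun i => Or.inr ⟨e i, fun _ => rfl⟩

end DT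

/-! ### product weights -/

/-- `pf c g = ∑ y, (∏ t, c t (y t)) * g y`; the expectation of `g` under a product law when every
`c t` is a probability vector. -/
def pf {T Ω : Type} [Fintype T] [DecidableEq T] [Fintype Ω] (c : T → Ω → ℝ)
    (g : (T → Ω) → ℝ) : ℝ := ∑ y : T → Ω, (∏ t, c t (y t)) * g y

section pf
variable {T Ω : Type} [Fintype T] [DecidableEq T] [Fintype Ω]

lemma pf_prod (c g : T → Ω → ℝ) :
    pf c (fun y => ∏ t, g t (y t)) = ∏ t, ∑ ω, c t ω * g t ω := by
  unfold pf
  rw [Finset.prod_univ_sum]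
  simp only [Fintype.piFinset_univ, Finset.prod_mul_distrib]

lemma pf_const (c : T → Ω → ℝ) (β : ℝ) : pf c (fun _ => β) = β * ∏ t, ∑ ω, c t ω := by
  have := pf_prod c (fun _ _ => 1)
  simp only [Finset.prod_const_one, mul_one] at this
  rw [← this]; unfold pf; rw [Finset.mul_sum]
  exact Finset.sum_congr rfl fun _ _ => by ring

lemma pf_add (c : T → Ω → ℝ) (g h : (T → Ω) → ℝ) :
    pf c (fun y => g y + h y) = pf c g + pf c h := by
  unfold pf; rw [← Finset.sum_add_distrib]; exact Finset.sum_congr rfl fun _ _ => by ring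

lemma pf_sub (c : T → Ω → ℝ) (g h : (T → Ω) → ℝ) :
    pf c (fun y => g y - h y) = pf c g - pf c h := by
  unfold pf; rw [← Finset.sum_sub_distrib]; exact Finset.sum_congr rfl fun _ _ => by ring

lemma pf_mul (c : T → Ω → ℝ) (a : ℝ) (g : (T → Ω) → ℝ) :
    pf c (fun y => a * g y) = a * pf c g := by
  unfold pf; rw [Finset.mul_sum]; exact Finset.sum_congr rfl fun _ _ => by ring

lemma pf_sum {A : Type} (s : Finset A) (c : T → Ω → ℝ) (g : A → (T → Ω) → ℝ) :
    pf c (fun y => ∑ a ∈ s, g a y) = ∑ a ∈ s, pf c (g a) := by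
  unfold pf; simp only [Finset.mul_sum]; rw [Finset.sum_comm]

lemma pf_mono {c : T → Ω → ℝ} (hc : ∀ t ω, 0 ≤ c t ω) {g h : (T → Ω) → ℝ}
    (hgh : ∀ y, g y ≤ h y) : pf c g ≤ pf c h :=
  Finset.sum_le_sum fun y _ =>
    mul_le_mul_of_nonneg_left (hgh y) (Finset.prod_nonneg fun t _ => hc t _)

lemma pf_one {c : T → Ω → ℝ} (h1 : ∀ t, ∑ ω, c t ω = 1) (β : ℝ) : pf c (fun _ => β) = β := by
  rw [pf_const]; simp [h1]

lemma pf_coord {c : T → Ω → ℝ} (h1 : ∀ t, ∑ ω, c t ω = 1) (s : T) (g : Ω → ℝ) :
    pf c (fun y => g (y s)) = ∑ ω, c s ω * g ω := by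
  have := pf_prod c (fun t ω => if t = s then g ω else 1)
  simp only [Finset.prod_ite_eq', Finset.mem_univ, if_true] at this
  rw [this, Finset.prod_eq_single s]
  · simp
  · intro t _ ht; simp [ht, h1]
  · simp

lemma pf_coord2 {c : T → Ω → ℝ} (h1 : ∀ t, ∑ ω, c t ω = 1) {s s' : T} (hs : s ≠ s')
    (g g' : Ω → ℝ) :
    pf c (fun y => g (y s) * g' (y s')) = (∑ ω, c s ω * g ω) * ∑ ω, c s' ω * g' ω := by
  have := pf_prod c (fun t ω => (if t = s then g ω else 1) * (if t = s' then g' ω else 1))
  simp only [Finset.prod_mul_distrib, Finset.prod_ite_eq', Finset.mem_univ, if_true] at this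
  rw [this, ← Finset.mul_prod_erase _ _ (Finset.mem_univ s),
    ← Finset.mul_prod_erase _ _ (Finset.mem_erase.mpr ⟨hs.symm, Finset.mem_univ s'⟩),
    Finset.prod_eq_one]
  · simp [hs, hs.symm]
  · intro t ht
    simp only [Finset.mem_erase] at ht
    simp [ht.1, ht.2.1, h1]

/-- Chebyshev: independent summands bounded by one, each of mean at least `μ`. -/
lemma pf_cheb {c : T → Ω → ℝ} (hc : ∀ t ω, 0 ≤ c t ω) (h1 : ∀ t, ∑ ω, c t ω = 1)
    (g : T → Ω → ℝ) (hg : ∀ t ω, |g t ω| ≤ 1) (μ a : ℝ) (ha : 0 < a)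
    (hμ : ∀ t, μ ≤ ∑ ω, c t ω * g t ω) :
    pf c (fun y => if ∑ t, g t (y t) ≤ Fintype.card T * μ - a then 1 else 0)
      ≤ Fintype.card T / a ^ 2 := by
  set m : T → ℝ := fun t => ∑ ω, c t ω * g t ω with hm
  have hz : ∀ t, ∑ ω, c t ω * (g t ω - m t) = 0 := by
    intro t
    simp only [mul_sub, Finset.sum_sub_distrib, ← Finset.sum_mul, h1, one_mul, hm, sub_self]
  have hv : ∀ t, ∑ ω, c t ω * ((g t ω - m t) * (g t ω - m t)) ≤ 1 := by
    intro t
    have e : ∑ ω, c t ω * ((g t ω - m t) * (g t ω - m t))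
        = ∑ ω, c t ω * g t ω ^ 2 - m t ^ 2 := by
      have : ∀ ω, c t ω * ((g t ω - m t) * (g t ω - m t))
          = c t ω * g t ω ^ 2 - 2 * m t * (c t ω * g t ω) + m t ^ 2 * c t ω := by
        intro ω; ring
      simp only [this, Finset.sum_add_distrib, Finset.sum_sub_distrib, ← Finset.mul_sum, h1]
      simp only [hm]; ring
    have e2 : ∑ ω, c t ω * g t ω ^ 2 ≤ ∑ ω, c t ω := by
      refine Finset.sum_le_sum fun ω _ => ?_
      have : g t ω ^ 2 ≤ 1 := by
        have := hg t ω
        rw [← sq_abs]; nlinarith [abs_nonneg (g t ω)]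
      nlinarith [hc t ω]
    rw [e]; nlinarith [h1 t, sq_nonneg (m t)]
  have hvar : pf c (fun y => (∑ t, (g t (y t) - m t)) ^ 2) ≤ Fintype.card T := by
    simp only [sq, Finset.sum_mul_sum]
    rw [pf_sum]
    calc ∑ s, pf c (fun y => ∑ s', (g s (y s) - m s) * (g s' (y s') - m s'))
        ≤ ∑ _s : T, (1 : ℝ) := by
          refine Finset.sum_le_sum fun s _ => ?_
          rw [pf_sum, Finset.sum_eq_single s]
          · rw [pf_coord h1 s (fun ω => (g s ω - m s) * (g s ω - m s))]; exact hv s
          · intro s' _ hs'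
            rw [pf_coord2 h1 hs'.symm (fun ω => g s ω - m s) (fun ω => g s' ω - m s'), hz,
              zero_mul]
          · simp
      _ = Fintype.card T := by simp
  calc pf c (fun y => if ∑ t, g t (y t) ≤ Fintype.card T * μ - a then 1 else 0)
      ≤ pf c (fun y => (1 / a ^ 2) * (∑ t, (g t (y t) - m t)) ^ 2) := by
        refine pf_mono hc fun y => ?_
        split_ifs with hy
        · have h2 : Fintype.card T * μ ≤ ∑ t, m t := by
            calc Fintype.card T * μ = ∑ _t : T, μ := by simp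
              _ ≤ _ := Finset.sum_le_sum fun t _ => hμ t
          have h3 : ∑ t, (g t (y t) - m t) ≤ -a := by
            rw [Finset.sum_sub_distrib]; linarith
          rw [one_div, inv_mul_eq_div, le_div_iff₀ (by positivity)]
          nlinarith
        · positivity
    _ = (1 / a ^ 2) * pf c (fun y => (∑ t, (g t (y t) - m t)) ^ 2) := pf_mul _ _ _
    _ ≤ (1 / a ^ 2) * Fintype.card T := mul_le_mul_of_nonneg_left hvar (by positivity)
    _ = _ := by ring

end pf

/-! ### the function -/

/-- the forrelation variables of one column: `r` instances for each of the `L` address bits -/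
abbrev Ins (K L r : ℕ) := (Fin L × Fin r) × FV K L

/-- the promise: address bit `a t` is the sign of the total forrelation of the instances of `t` -/
def Promise {K L r : ℕ} (θ : ℝ) (a : BV L) (z : Ins K L r → Bool) : Prop :=
  ∀ t, θ ≤ sg (a t) * ∑ s, Phi (fun v => z ((t, s), v))

/-- a locally checkable certificate for the promise -/
structure Verifier (K L r : ℕ) (θ : ℝ) (Circ Chk : Type) (s₀ : ℕ) where
  pass : Chk → BV L → (Ins K L r ⊕ Circ → Bool) → Bool
  loc : ∀ χ a, DT Any s₀ (pass χ a)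
  sound : ∀ a y, (∀ χ, pass χ a y = true) → Promise θ a (fun i => y (Sum.inl i))
  complete : ∀ a z, Promise θ a z → ∃ w, ∀ χ, pass χ a (Sum.elim z w) = true

/-- bits of a cell: `2^L` pointers of `L` bits, and the certificate -/
abbrev Cell (L : ℕ) (Circ : Type) := (BV L × Fin L) ⊕ Circ
/-- bits of a column: kill array, instances, `2^L` cells -/
abbrev Col (K L r : ℕ) (Circ : Type) := BV L ⊕ (Ins K L r ⊕ (BV L × Cell L Circ))
/-- all input bits -/
abbrev Idx (K L r : ℕ) (Circ : Type) := BV L × Col K L r Circ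

section F
variable {K L r s₀ : ℕ} {θ : ℝ} {Circ Chk : Type}

def kill (x : Idx K L r Circ → Bool) (c ρ : BV L) : Bool := x (c, Sum.inl ρ)

def ins (x : Idx K L r Circ → Bool) (c : BV L) : Ins K L r → Bool :=
  fun i => x (c, Sum.inr (Sum.inl i))

def ptr (x : Idx K L r Circ → Bool) (c a j : BV L) : BV L :=
  fun b => x (c, Sum.inr (Sum.inr (a, Sum.inl (j, b))))

def cert (x : Idx K L r Circ → Bool) (c a : BV L) : Circ → Bool :=
  fun e => x (c, Sum.inr (Sum.inr (a, Sum.inr e)))

/-- the pointer of cell `(c,a)` into column `j` does not show a zero -/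
def flaw (x : Idx K L r Circ → Bool) (c a j : BV L) : Bool := kill x j (ptr x c a j)

def Valid (V : Verifier K L r θ Circ Chk s₀) (x : Idx K L r Circ → Bool) (c a : BV L) : Prop :=
  (∀ ρ, kill x c ρ = true) ∧ (∀ j, j ≠ c → flaw x c a j = false) ∧
    ∀ χ, V.pass χ a (Sum.elim (ins x c) (cert x c a)) = true

open Classical in
noncomputable def F (V : Verifier K L r θ Circ Chk s₀) (x : Idx K L r Circ → Bool) : Bool :=
  decide (∃ c a, Valid V x c a)

end F

/-- a function on bits indexed by a finite type, as a function on `Fin n` -/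
noncomputable def onFin {I : Type} [Fintype I] (f : (I → Bool) → Bool) :
    (Fin (Fintype.card I) → Bool) → Bool := fun x => f (fun i => x (Fintype.equivFin I i))

end Crest.Agent.Lead.QQ
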