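import Crest.Agent.Lead.QQDefs

/-! The randomized lower bound: hybrid argument. -/

set_option autoImplicit false
open Finset Crest.MathPhysics.Query

namespace Crest.Agent.Lead.QQ

section pfu
variable {T Ω : Type} [Fintype T] [DecidableEq T] [Fintype Ω]

lemma pf_update {c : T → Ω → ℝ} {v : T} (h1 : ∑ ω, c v ω = 1) (q : Ω → ℝ) (g : (T → Ω) → ℝ) :
    pf (Function.update c v q) g = pf c (fun y => ∑ ω, q ω * g (Function.update y v ω)) := by
  classical
  have e1 : pf (Function.update c v q) g = ∑ p : (T → Ω) × Ω,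
      c v p.2 * (q (p.1 v) * (∏ t ∈ univ.erase v, c t (p.1 t)) * g p.1) := by
    rw [Fintype.sum_prod_type]
    refine Finset.sum_congr rfl fun y _ => ?_
    dsimp only
    rw [← Finset.sum_mul, h1, one_mul, ← Finset.mul_prod_erase _ _ (Finset.mem_univ v),
      Function.update_self]
    congr 2
    exact Finset.prod_congr rfl fun t ht => by
      rw [Function.update_of_ne (Finset.ne_of_mem_erase ht)]
  have e2 : pf c (fun y => ∑ ω, q ω * g (Function.update y v ω)) = ∑ p : (T → Ω) × Ω,
      c v (p.1 v) * (q p.2 * (∏ t ∈ univ.erase v, c t (p.1 t))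
        * g (Function.update p.1 v p.2)) := by
    rw [Fintype.sum_prod_type]
    refine Finset.sum_congr rfl fun y _ => ?_
    rw [Finset.mul_sum, ← Finset.mul_prod_erase _ _ (Finset.mem_univ v)]
    exact Finset.sum_congr rfl fun _ _ => by ring
  rw [e1, e2]
  refine Finset.sum_nbij' (fun p => (Function.update p.1 v p.2, p.1 v))
    (fun p => (Function.update p.1 v p.2, p.1 v)) (by simp) (by simp) (by simp) (by simp) ?_
  intro p _
  simp only [Function.update_self, Function.update_idem, Function.update_eq_self]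
  congr 3
  exact Finset.prod_congr rfl fun t ht => by
    rw [Function.update_of_ne (Finset.ne_of_mem_erase ht)]

end pfu

lemma DT.sens {I P : Type} [DecidableEq I] [Fintype P] {d : ℕ} {g : (I → Bool) → ℝ}
    (h : DT U01 d g) (e : P → I) (he : Function.Injective e) (b : Bool) (ξ : I → Bool) :
    ∑ p, (g (Function.update ξ (e p) b) - g ξ) ≤ d := by
  induction h with
  | const d β _ => simp
  | read d i f₀ f₁ h₀ h₁ ih₀ ih₁ =>
    have hone : ∑ p, (if e p = i then (1 : ℝ) else 0) ≤ 1 := by
      rw [Finset.sum_boole]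
      have : (Finset.univ.filter fun p => e p = i).card ≤ 1 := by
        rw [Finset.card_le_one]
        intro a ha b hb
        simp only [Finset.mem_filter] at ha hb
        exact he (ha.2.trans hb.2.symm)
      exact_mod_cast this
    have key : ∀ (f : (I → Bool) → ℝ), (∀ x, 0 ≤ f x) →
        (∀ x, x i = ξ i → (if x i then f₁ x else f₀ x) = f x) →
        ∑ p, (f (Function.update ξ (e p) b) - f ξ) ≤ d →
        ∑ p, ((if Function.update ξ (e p) b i then f₁ (Function.update ξ (e p) b)
          else f₀ (Function.update ξ (e p) b)) - (if ξ i then f₁ ξ else f₀ ξ)) ≤ (d + 1 : ℕ) := by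
      intro f hf0 hf ih
      push_cast
      refine le_trans ?_ (add_le_add ih hone)
      rw [← Finset.sum_add_distrib]
      refine Finset.sum_le_sum fun p _ => ?_
      rw [hf ξ rfl]
      by_cases hp : e p = i
      · rw [if_pos hp]
        have := hf0 (Function.update ξ (e p) b)
        have := (h₀.prop (Function.update ξ (e p) b)).2
        have := (h₁.prop (Function.update ξ (e p) b)).2
        split_ifs <;> linarith
      · rw [if_neg hp, hf _ (Function.update_of_ne (Ne.symm hp) _ _)]; simp
    by_cases hx : ξ i = true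
    · exact key f₁ (fun x => (h₁.prop x).1) (fun x h => by simp [h, hx]) ih₁
    · exact key f₀ (fun x => (h₀.prop x).1) (fun x h => by simp [h, hx]) ih₀

lemma hybrid {T J : Type} [Fintype T] [DecidableEq T] [Fintype J] [DecidableEq J]
    (D : Bool → (J → Bool) → ℝ) (hD0 : ∀ b z, 0 ≤ D b z) (hD1 : ∀ b, ∑ z, D b z = 1) {d : ℕ}
    {δ : ℝ} (hδ : ∀ h, DT U01 d h → |∑ z, D false z * h z - ∑ z, D true z * h z| ≤ δ)
    (α : T → Bool) {h : (T × J → Bool) → ℝ} (hh : DT U01 d h) :
    pf (fun _ => D false) (fun y : T → J → Bool => h (fun i => y i.1 i.2))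
      ≤ pf (fun t => D (α t)) (fun y => h (fun i => y i.1 i.2)) + Fintype.card T * δ := by
  have hδ0 : 0 ≤ δ := le_trans (abs_nonneg _) (hδ _ (DT.const d 0 ⟨le_rfl, zero_le_one⟩))
  have key : ∀ S : Finset T, pf (fun _ => D false) (fun y : T → J → Bool => h (fun i => y i.1 i.2))
      ≤ pf (fun t => D (if t ∈ S then α t else false)) (fun y => h (fun i => y i.1 i.2))
        + S.card * δ := by
    intro S
    induction S using Finset.induction_on with
    | empty => simp
    | insert s S hs ih =>
      refine ih.trans ?_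
      set c : T → (J → Bool) → ℝ := fun t => D (if t ∈ S then α t else false) with hc
      have e1 : (fun t => D (if t ∈ insert s S then α t else false))
          = Function.update c s (D (α s)) := by
        funext t
        by_cases ht : t = s
        · subst ht; simp
        · simp [hc, ht]
      have e2 : c = Function.update c s (D false) := by
        funext t
        by_cases ht : t = s
        · subst ht; simp [hc, hs]
        · simp [ht]
      have hc1 : ∀ t, ∑ ω, c t ω = 1 := fun t => hD1 _
      rw [e1, Finset.card_insert_of_notMem hs]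
      conv_lhs => rw [e2]
      rw [pf_update (hc1 s), pf_update (hc1 s)]
      have := pf_mono (c := c) (fun t ω => hD0 _ _)
        (g := fun y => ∑ ω, D false ω * h (fun i => Function.update y s ω i.1 i.2))
        (h := fun y => (∑ ω, D (α s) ω * h (fun i => Function.update y s ω i.1 i.2)) + δ) (by
          intro y
          have hd := hh.restrict (fun (ω : J → Bool) i => Function.update y s ω i.1 i.2) (by
            intro i
            by_cases hi : i.1 = s
            · exact Or.inr ⟨i.2, fun ω => by simp [hi]⟩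
            · exact Or.inl ⟨y i.1 i.2, fun ω => by simp [hi]⟩)
          have := abs_le.mp (hδ _ hd)
          cases α s <;> linarith)
      rw [pf_add, pf_one hc1] at this
      push_cast
      linarith
  simpa using key Finset.univ

section tr
variable {n : ℕ} {I : Type} (e : Fin n → I)

open Classical in
/-- the run of a tree, stopped at a read in `P` or at the read number `d+1` in `Q`; value one when
it is not stopped and answers `false` -/
noncomputable def tr (P Q : I → Prop) : DTree n → ℕ → (I → Bool) → ℝ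
  | .answer b, _, _ => if b then 0 else 1
  | .read i t₀ t₁, d, x => if P (e i) then 0 else if Q (e i) then
      (if d = 0 then 0 else if x (e i) then tr P Q t₁ (d - 1) x else tr P Q t₀ (d - 1) x)
      else if x (e i) then tr P Q t₁ d x else tr P Q t₀ d x

open Classical in
noncomputable def cnt (Q : I → Prop) : DTree n → (I → Bool) → ℕ
  | .answer _, _ => 0
  | .read i t₀ t₁, x => (if Q (e i) then 1 else 0) + if x (e i) then cnt Q t₁ x else cnt Q t₀ x

def tind (T : DTree n) (x : I → Bool) : ℝ := if T.eval (fun i => x (e i)) then 0 else 1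

lemma tind_read (i : Fin n) (t₀ t₁ : DTree n) (x : I → Bool) :
    tind e (.read i t₀ t₁) x = if x (e i) then tind e t₁ x else tind e t₀ x := by
  unfold tind
  by_cases h : x (e i) = true <;> simp [DTree.eval, h]

lemma tind_nonneg (T : DTree n) (x : I → Bool) : 0 ≤ tind e T x := by
  unfold tind; split_ifs <;> norm_num

lemma tind_le_one (T : DTree n) (x : I → Bool) : tind e T x ≤ 1 := by
  unfold tind; split_ifs <;> norm_num

lemma tr_le (P Q : I → Prop) (T : DTree n) (x : I → Bool) : ∀ d, tr e P Q T d x ≤ tind e T x := by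
  induction T with
  | answer b => intro d; cases b <;> simp [tr, tind, DTree.eval]
  | read i t₀ t₁ ih₀ ih₁ =>
    intro d
    rw [tind_read]
    simp only [tr]
    split_ifs <;> first | exact tind_nonneg _ _ _ | exact ih₀ _ | exact ih₁ _

lemma tr_ge (P Q : I → Prop) (T : DTree n) (x : I → Bool) : ∀ d,
    tind e T x - (if d < cnt e Q T x then 1 else 0) - cnt e P T x ≤ tr e P Q T d x := by
  induction T with
  | answer b => intro d; cases b <;> simp [tr, tind, DTree.eval, cnt]
  | read i t₀ t₁ ih₀ ih₁ =>
    intro d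
    have key : ∀ t : DTree n, (∀ d, tind e t x - (if d < cnt e Q t x then 1 else 0) - cnt e P t x
        ≤ tr e P Q t d x) → tind e t x - (if d < (by classical exact if Q (e i) then 1 else 0)
          + cnt e Q t x then 1 else 0)
          - ((by classical exact if P (e i) then 1 else 0) + cnt e P t x : ℕ)
        ≤ (by classical exact if P (e i) then 0 else if Q (e i) then
          (if d = 0 then 0 else tr e P Q t (d - 1) x) else tr e P Q t d x) := by
      intro t ih
      have h1 := tind_le_one e t x
      have h2 : (0 : ℝ) ≤ cnt e P t x := Nat.cast_nonneg _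
      by_cases hP : P (e i)
      · simp only [hP, if_true]; push_cast; split_ifs <;> linarith
      · by_cases hQ : Q (e i)
        · simp only [hP, hQ, if_true, if_false, zero_add]
          by_cases hd : d = 0
          · rw [if_pos hd, if_pos (by omega)]; linarith
          · rw [if_neg hd]
            have := ih (d - 1)
            have e : (d < 1 + cnt e Q t x) ↔ (d - 1 < cnt e Q t x) := by omega
            simp only [e]; exact this
        · simp only [hP, hQ, if_false, zero_add]; exact ih d
    rw [tind_read]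
    simp only [tr, cnt]
    by_cases hx : x (e i) = true
    · simp only [hx, if_true]; exact key t₁ ih₁
    · simp only [hx]; exact key t₀ ih₀

lemma tr_congr (P Q : I → Prop) (T : DTree n) {x x' : I → Bool} (h : ∀ i, ¬ P i → x i = x' i) :
    ∀ d, tr e P Q T d x = tr e P Q T d x' := by
  induction T with
  | answer b => intro d; simp [tr]
  | read i t₀ t₁ ih₀ ih₁ =>
    intro d
    simp only [tr]
    by_cases hP : P (e i)
    · simp [hP]
    · simp only [h _ hP, ih₀, ih₁]

lemma tr_DT {J : Type} (P Q : I → Prop) (T : DTree n) (φ : (J → Bool) → I → Bool)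
    (hQ : ∀ i, Q i → ∃ j, ∀ y, φ y i = y j) (hQ' : ∀ i, ¬ Q i → ∃ b, ∀ y, φ y i = b) :
    ∀ d, DT U01 d (fun y => tr e P Q T d (φ y)) := by
  induction T with
  | answer b =>
    intro d
    simp only [tr]
    refine DT.const _ _ ?_
    split_ifs <;> simp [U01]
  | read i t₀ t₁ ih₀ ih₁ =>
    intro d
    simp only [tr]
    by_cases hP : P (e i)
    · simp only [hP, if_true]; exact DT.const _ _ ⟨le_rfl, zero_le_one⟩
    · by_cases h : Q (e i)
      · simp only [hP, h, if_true, if_false]
        cases d with
        | zero => simp only [if_true]; exact DT.const _ _ ⟨le_rfl, zero_le_one⟩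
        | succ d =>
          obtain ⟨j, hj⟩ := hQ _ h
          simp only [Nat.add_eq_zero_iff, one_ne_zero, and_false, if_false, Nat.add_sub_cancel, hj]
          exact DT.read _ j _ _ (ih₀ d) (ih₁ d)
      · obtain ⟨b, hb⟩ := hQ' _ h
        simp only [hP, h, if_false, hb]
        cases b
        · simpa using ih₀ d
        · simpa using ih₁ d

lemma sum_cnt {A : Type} [Fintype A] (Q : A → I → Prop)
    (hQ : ∀ i a a', Q a i → Q a' i → a = a') (T : DTree n) (x : I → Bool) :
    ∑ a, cnt e (Q a) T x ≤ T.depth := by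
  classical
  induction T with
  | answer b => simp [cnt]
  | read i t₀ t₁ ih₀ ih₁ =>
    simp only [cnt, DTree.depth, Finset.sum_add_distrib]
    have h1 : ∑ a, (if Q a (e i) then 1 else 0) ≤ 1 := by
      rw [← Finset.card_filter, Finset.card_le_one]
      intro a ha b hb
      simp only [Finset.mem_filter] at ha hb
      exact hQ _ _ _ ha.2 hb.2
    have h2 : ∑ a, (if x (e i) then cnt e (Q a) t₁ x else cnt e (Q a) t₀ x)
        ≤ max t₀.depth t₁.depth := by
      by_cases hx : x (e i) = true
      · simp only [hx, if_true]; exact ih₁.trans (le_max_right _ _)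
      · simp only [hx]; exact ih₀.trans (le_max_left _ _)
    refine le_trans (add_le_add (le_trans (le_of_eq ?_) h1) h2) (by omega)
    exact Finset.sum_congr rfl fun _ _ => by congr

end tr

section main
variable {K L r s₀ : ℕ} {θ : ℝ} {Circ Chk : Type}

/-- random data of a column: the position of its zero and its instances -/
abbrev Om (K L r : ℕ) := BV L × (Fin L × Fin r → FV K L → Bool)

def colA (z : Ins K L r → Bool) : Col K L r Circ → Bool :=
  Sum.elim (fun _ => true) (Sum.elim z fun _ => false)

def unc (z : Fin L × Fin r → FV K L → Bool) : Ins K L r → Bool := fun i => z i.1 i.2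

noncomputable def col0 (ω : Om K L r) : Col K L r Circ → Bool := by
  classical exact Function.update (colA (unc ω.2)) (Sum.inl ω.1) false

noncomputable def x0 (y : BV L → Om K L r) : Idx K L r Circ → Bool := fun i => col0 (y i.1) i.2

noncomputable def xc (c : BV L) (y : BV L → Om K L r) (ξ : Col K L r Circ → Bool) :
    Idx K L r Circ → Bool := fun i => if i.1 = c then ξ i.2 else col0 (y i.1) i.2

open Classical in
noncomputable def wit (V : Verifier K L r θ Circ Chk s₀) (a : BV L) (z : Ins K L r → Bool) :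
    Circ → Bool := if h : Promise θ a z then (V.complete a z h).choose else fun _ => false

noncomputable def col1 (V : Verifier K L r θ Circ Chk s₀) (c a : BV L) (y : BV L → Om K L r) :
    Col K L r Circ → Bool :=
  Sum.elim (fun _ => true) (Sum.elim (unc (y c).2) fun e => if e.1 = a then
    Sum.elim (fun jb => (y jb.1).1 jb.2) (wit V a (unc (y c).2)) e.2 else false)

lemma F_x0 (V : Verifier K L r θ Circ Chk s₀) (y : BV L → Om K L r) : F V (x0 y) = false := by
  simp only [F, decide_eq_false_iff_not, not_exists]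
  rintro c a ⟨h, -⟩
  have := h (y c).1
  simp [kill, x0, col0] at this

lemma F_x1 (V : Verifier K L r θ Circ Chk s₀) (c a : BV L) (y : BV L → Om K L r)
    (h : Promise θ a (unc (y c).2)) : F V (xc c y (col1 V c a y)) = true := by
  simp only [F, decide_eq_true_eq]
  refine ⟨c, a, fun ρ => by simp [kill, xc, col1], fun j hj => ?_, fun χ => ?_⟩
  · have : ptr (xc c y (col1 V c a y)) c a j = (y j).1 := by
      funext b; simp [ptr, xc, col1]
    simp [flaw, this, kill, xc, hj, col0]
  · have e1 : ins (xc c y (col1 V c a y)) c = unc (y c).2 := by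
      funext i; simp [ins, xc, col1]
    have e2 : cert (xc c y (col1 V c a y)) c a = (V.complete a _ h).choose := by
      funext i; simp [cert, xc, col1, wit, h]
    rw [e1, e2]
    exact (V.complete a _ h).choose_spec χ

def isCell (ca : BV L × BV L) (i : Idx K L r Circ) : Prop :=
  i.1 = ca.1 ∧ ∃ e, i.2 = Sum.inr (Sum.inr (ca.2, e))

noncomputable def law (D : Bool → (FV K L → Bool) → ℝ) (a : BV L) (ω : Om K L r) : ℝ :=
  (1 / 2 ^ L) * ∏ t, D (a t.1) (ω.2 t)

lemma law_sum (D : Bool → (FV K L → Bool) → ℝ) (a : BV L) (g : Om K L r → ℝ) :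
    ∑ ω, law D a ω * g ω = pf (fun t : Fin L × Fin r => D (a t.1))
      (fun z => (1 / 2 ^ L) * ∑ p, g (p, z)) := by
  rw [Fintype.sum_prod_type, Finset.sum_comm]
  refine Finset.sum_congr rfl fun z _ => ?_
  simp only [law, Finset.mul_sum]
  exact Finset.sum_congr rfl fun _ _ => by ring

lemma law_sum' (D : Bool → (FV K L → Bool) → ℝ) (a : BV L)
    (g : (Fin L × Fin r → FV K L → Bool) → ℝ) :
    ∑ ω : Om K L r, law D a ω * g ω.2 = pf (fun t : Fin L × Fin r => D (a t.1)) g := by
  rw [law_sum]; congr 1; funext z; simp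

variable (D : Bool → (FV K L → Bool) → ℝ) (hD0 : ∀ b z, 0 ≤ D b z) (hD1 : ∀ b, ∑ z, D b z = 1)
include hD0 in
lemma law_nonneg (a : BV L) (ω : Om K L r) : 0 ≤ law D a ω :=
  mul_nonneg (by positivity) (Finset.prod_nonneg fun _ _ => hD0 _ _)

include hD1 in
lemma law_one (a : BV L) : ∑ ω : Om K L r, law D a ω = 1 := by
  have := law_sum' (r := r) D a (fun _ => 1)
  rw [pf_one (fun t => hD1 _)] at this
  simpa using this

include hD0 hD1 in
lemma column_step {d : ℕ} {δ : ℝ}
    (hδ : ∀ h, DT U01 d h → |∑ z, D false z * h z - ∑ z, D true z * h z| ≤ δ) (a : BV L)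
    {g : (Col K L r Circ → Bool) → ℝ} (hg : DT U01 d g) :
    ∑ ω : Om K L r, law D (fun _ => false) ω * g (col0 ω)
      ≤ ∑ ω : Om K L r, law D a ω * g (colA (unc ω.2)) + (d / 2 ^ L + L * r * δ) := by
  classical
  have hN : (0 : ℝ) < 2 ^ L := by positivity
  rw [law_sum, law_sum' D a (fun z => g (colA (unc z)))]
  have h1 : ∀ z : Fin L × Fin r → FV K L → Bool,
      (1 / 2 ^ L) * ∑ p, g (col0 (p, z)) ≤ g (colA (unc z)) + d / 2 ^ L := by
    intro z
    have := hg.sens (P := BV L) Sum.inl Sum.inl_injective false (colA (unc z))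
    rw [Finset.sum_sub_distrib] at this
    simp only [Finset.sum_const, Finset.card_univ, card_BV, nsmul_eq_mul] at this
    push_cast at this
    have e : ∑ p, g (col0 (p, z)) = ∑ p, g (Function.update (colA (unc z)) (Sum.inl p) false) :=
      Finset.sum_congr rfl fun p _ => by simp only [col0]
    rw [e, one_div, inv_mul_le_iff₀ hN]
    field_simp
    linarith
  have h2 := pf_mono (c := fun t : Fin L × Fin r => D false) (fun _ _ => hD0 _ _) h1
  rw [pf_add, pf_one (fun _ => hD1 _)] at h2
  have hh : DT U01 d (fun z : Ins K L r → Bool => g (colA z)) := by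
    refine hg.restrict _ ?_
    rintro (ρ | i | e)
    · exact Or.inl ⟨true, fun _ => rfl⟩
    · exact Or.inr ⟨i, fun _ => rfl⟩
    · exact Or.inl ⟨false, fun _ => rfl⟩
  have h3 := hybrid D hD0 hD1 hδ (fun t : Fin L × Fin r => a t.1) hh
  simp only [Fintype.card_prod, Fintype.card_fin] at h3
  push_cast at h3
  have e3 : ∀ y : Fin L × Fin r → FV K L → Bool, (fun i : Ins K L r => y i.1 i.2) = unc y :=
    fun _ => rfl
  simp only [e3] at h3
  linarith

open Classical in
include hD0 hD1 in
lemma promise_fail {μ : ℝ} (hμ1 : |μ| ≤ 1) (hμ : ∀ b, μ ≤ ∑ z, D b z * (sg b * Phi z))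
    (hθ : θ < r * μ) (a : BV L) :
    ∑ ω : Om K L r, law D a ω * (if Promise θ a (unc ω.2) then 0 else 1)
      ≤ 4 * L ^ 2 * r / (r * μ - θ) ^ 2 := by
  rw [law_sum' D a (fun z => if Promise θ a (unc z) then 0 else 1)]
  set g : Fin L → Fin L × Fin r → (FV K L → Bool) → ℝ := fun t t' ω =>
    if t'.1 = t then (sg (a t) * Phi ω - μ) / 2 else 0 with hg
  have hpos : 0 < (r * μ - θ) / 2 := by linarith
  have h1 : ∀ t, pf (fun t : Fin L × Fin r => D (a t.1)) (fun y => if ∑ t', g t t' (y t')
      ≤ Fintype.card (Fin L × Fin r) * 0 - (r * μ - θ) / 2 then 1 else 0)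
      ≤ Fintype.card (Fin L × Fin r) / ((r * μ - θ) / 2) ^ 2 := by
    intro t
    refine pf_cheb (c := fun t : Fin L × Fin r => D (a t.1)) (fun _ _ => hD0 _ _)
      (fun _ => hD1 _) (g t) ?_ 0 _ hpos ?_
    · intro t' ω
      simp only [hg]
      split_ifs
      · have h2 : |sg (a t) * Phi ω| ≤ 1 := by rw [abs_mul, abs_sg, one_mul]; exact abs_Phi_le _
        have := abs_le.mp h2
        have := abs_le.mp hμ1
        rw [abs_le]; constructor <;> linarith
      · simp
    · intro t'
      simp only [hg]
      split_ifs with h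
      · have := hμ (a t)
        have e : ∑ ω, D (a t'.1) ω * ((sg (a t) * Phi ω - μ) / 2)
            = (∑ ω, D (a t) ω * (sg (a t) * Phi ω) - μ * ∑ ω, D (a t) ω) / 2 := by
          rw [h, Finset.mul_sum, ← Finset.sum_sub_distrib, Finset.sum_div]
          exact Finset.sum_congr rfl fun _ _ => by ring
        rw [e, hD1]; linarith
      · simp
  calc _ ≤ pf (fun t : Fin L × Fin r => D (a t.1)) (fun y => ∑ t, if ∑ t', g t t' (y t')
        ≤ Fintype.card (Fin L × Fin r) * 0 - (r * μ - θ) / 2 then 1 else 0) := by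
        refine pf_mono (fun _ _ => hD0 _ _) fun y => ?_
        split_ifs with h
        · exact Finset.sum_nonneg fun _ _ => by split_ifs <;> norm_num
        · simp only [Promise, not_forall, not_le] at h
          obtain ⟨t, ht⟩ := h
          refine le_trans ?_ (Finset.single_le_sum (f := fun t => if ∑ t', g t t' (y t')
            ≤ Fintype.card (Fin L × Fin r) * 0 - (r * μ - θ) / 2 then (1 : ℝ) else 0)
            (fun _ _ => by split_ifs <;> norm_num) (Finset.mem_univ t))
          rw [if_pos]
          have e : ∑ t', g t t' (y t') = (sg (a t) * ∑ s, Phi (y (t, s)) - r * μ) / 2 := by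
            rw [Fintype.sum_prod_type, Finset.sum_eq_single t]
            · simp only [hg, if_true]
              rw [← Finset.sum_div, Finset.sum_sub_distrib, Finset.mul_sum]; simp
            · intro t' _ h'; simp [hg, h']
            · simp
          have e' : ∑ s, Phi (fun v => unc y ((t, s), v)) = ∑ s, Phi (y (t, s)) := rfl
          rw [e'] at ht
          rw [e]; linarith
    _ ≤ ∑ _t : Fin L, Fintype.card (Fin L × Fin r) / ((r * μ - θ) / 2) ^ 2 := by
        rw [pf_sum]; exact Finset.sum_le_sum fun t _ => h1 t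
    _ = _ := by
        simp only [Fintype.card_prod, Fintype.card_fin, Finset.sum_const, Finset.card_univ,
          nsmul_eq_mul]
        push_cast; field_simp; ring

include hD0 hD1 in
lemma tree_step (V : Verifier K L r θ Circ Chk s₀) {n : ℕ} (e : Fin n → Idx K L r Circ)
    {d : ℕ} {δ : ℝ}
    (hδ : ∀ h, DT U01 d h → |∑ z, D false z * h z - ∑ z, D true z * h z| ≤ δ)
    (T : DTree n) {q : ℕ} (hT : T.depth ≤ q) :
    (2 ^ L) ^ 2 * pf (fun _ => law D (fun _ => false)) (fun y => tind e T (x0 y))
      ≤ ∑ ca : BV L × BV L, pf (Function.update (fun _ => law D (fun _ => false)) ca.1 (law D ca.2))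
          (fun y => tind e T (xc ca.1 y (col1 V ca.1 ca.2 y)))
        + (2 ^ L * q / (d + 1) + q + (2 ^ L) ^ 2 * (d / 2 ^ L + L * r * δ)) := by
  set l0 : BV L → Om K L r → ℝ := fun _ => law D (fun _ => false) with hl0
  have hl1 : ∀ c, ∑ ω, l0 c ω = 1 := fun _ => law_one D hD1 _
  have hln : ∀ c ω, 0 ≤ l0 c ω := fun _ _ => law_nonneg D hD0 _ _
  set tt : BV L × BV L → (Idx K L r Circ → Bool) → ℝ := fun ca =>
    tr e (isCell ca) (fun i => i.1 = ca.1) T d with htt
  have h1 : ∀ ca : BV L × BV L, pf l0 (fun y => tt ca (x0 y))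
      ≤ pf (Function.update l0 ca.1 (law D ca.2))
          (fun y => tind e T (xc ca.1 y (col1 V ca.1 ca.2 y))) + (d / 2 ^ L + L * r * δ) := by
    rintro ⟨c, a⟩
    have e0 : l0 = Function.update l0 c (law D fun _ => false) := by
      rw [Function.update_eq_self]
    conv_lhs => rw [e0]
    rw [pf_update (hl1 c), pf_update (hl1 c), ← pf_one hl1 (d / 2 ^ L + L * r * δ), ← pf_add]
    refine pf_mono hln fun y => ?_
    have hg : DT U01 d (fun ξ => tt (c, a) (xc c y ξ)) :=
      tr_DT e _ _ T _ (fun i hi => ⟨i.2, fun ξ => by simp [xc, show i.1 = c from hi]⟩)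
        (fun i hi => ⟨col0 (y i.1) i.2, fun ξ => by simp [xc, show ¬ i.1 = c from hi]⟩) d
    have h2 := column_step D hD0 hD1 hδ a hg
    have e1 : ∀ ω, (x0 (Function.update y c ω) : Idx K L r Circ → Bool) = xc c y (col0 ω) := by
      intro ω; funext i
      by_cases hi : i.1 = c
      · simp [x0, xc, hi]
      · simp [x0, xc, hi]
    simp only [e1]
    refine h2.trans (add_le_add_left (Finset.sum_le_sum fun ω _ => ?_) _)
    refine mul_le_mul_of_nonneg_left ?_ (law_nonneg D hD0 _ _)
    refine le_trans (le_of_eq (tr_congr e _ _ T ?_ d)) (tr_le e _ _ T _ d)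
    rintro ⟨c', i⟩ hi
    by_cases hc : c' = c
    · subst hc
      rcases i with ρ | i | ⟨a', i⟩
      · simp [xc, colA, col1]
      · simp [xc, colA, col1]
      · have : a' ≠ a := by rintro rfl; exact hi ⟨rfl, i, rfl⟩
        simp [xc, colA, col1, this]
    · simp [xc, hc]
  have h2 : ∀ x : Idx K L r Circ → Bool,
      (2 ^ L) ^ 2 * tind e T x ≤ ∑ ca, tt ca x + (2 ^ L * q / (d + 1) + q) := by
    intro x
    have a1 : ∑ ca : BV L × BV L, (cnt e (isCell ca) T x : ℝ) ≤ q := by
      have := (sum_cnt e (fun ca : BV L × BV L => isCell ca) (by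
        rintro i ⟨c, a⟩ ⟨c', a'⟩ ⟨h1, e1, h2⟩ ⟨h3, e2, h4⟩
        rw [h2] at h4
        simp only [Sum.inr.injEq, Prod.mk.injEq] at h4
        exact Prod.ext (h1.symm.trans h3) h4.1) T x).trans hT
      exact_mod_cast this
    have a2 : ∑ c : BV L, (cnt e (fun i => i.1 = c) T x : ℝ) ≤ q := by
      have := (sum_cnt e (fun (c : BV L) (i : Idx K L r Circ) => i.1 = c)
        (fun i c c' h h' => h.symm.trans h') T x).trans hT
      exact_mod_cast this
    have a3 : ∀ ca : BV L × BV L, tind e T x ≤ tt ca x
        + ((cnt e (fun i => i.1 = ca.1) T x : ℝ) / (d + 1) + cnt e (isCell ca) T x) := by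
      intro ca
      have := tr_ge e (isCell ca) (fun i => i.1 = ca.1) T x d
      have b : (if d < cnt e (fun i => i.1 = ca.1) T x then (1 : ℝ) else 0)
          ≤ (cnt e (fun i => i.1 = ca.1) T x : ℝ) / (d + 1) := by
        split_ifs with h
        · rw [le_div_iff₀ (by positivity), one_mul]; exact_mod_cast h
        · positivity
      simp only [htt]; linarith
    have a4 := Finset.sum_le_sum fun ca (_ : ca ∈ Finset.univ) => a3 ca
    simp only [Finset.sum_const, Finset.card_univ, Fintype.card_prod, card_BV, nsmul_eq_mul,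
      Finset.sum_add_distrib] at a4
    have a5 : ∑ ca : BV L × BV L, (cnt e (fun i => i.1 = ca.1) T x : ℝ) / (d + 1)
        ≤ 2 ^ L * q / (d + 1) := by
      rw [← Finset.sum_div, Fintype.sum_prod_type]
      simp only [Finset.sum_const, Finset.card_univ, card_BV, nsmul_eq_mul, ← Finset.mul_sum]
      push_cast
      gcongr
    push_cast at a4
    rw [sq]; linarith
  have h3 := pf_mono hln (fun y => h2 (x0 y))
  rw [pf_mul, pf_add, pf_one hl1, pf_sum] at h3
  have h4 := Finset.sum_le_sum fun ca (_ : ca ∈ Finset.univ) => h1 ca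
  simp only [Finset.sum_const, Finset.card_univ, Fintype.card_prod, card_BV, nsmul_eq_mul,
    Finset.sum_add_distrib] at h4
  push_cast at h4
  rw [← sq] at h4
  linarith

include hD0 hD1 in
theorem classical_lower [Fintype Circ] (V : Verifier K L r θ Circ Chk s₀) {μ δ : ℝ} {d : ℕ}
    (hμ1 : |μ| ≤ 1) (hμ : ∀ b, μ ≤ ∑ z, D b z * (sg b * Phi z)) (hθ : θ < r * μ)
    (hδ : ∀ h, DT U01 d h → |∑ z, D false z * h z - ∑ z, D true z * h z| ≤ δ)
    {q : ℕ} (hq : RandomizedComputes (onFin (F V)) q) :
    1 / 3 ≤ q / (2 ^ L * (d + 1)) + q / (2 ^ L) ^ 2 + d / 2 ^ L + L * r * δ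
      + 4 * L ^ 2 * r / (r * μ - θ) ^ 2 := by
  classical
  obtain ⟨s, p, T, hp0, hp1, hT, hx⟩ := hq
  set e : Fin (Fintype.card (Idx K L r Circ)) → Idx K L r Circ :=
    fun i => (Fintype.equivFin (Idx K L r Circ)).symm i with he
  have hF : ∀ x, onFin (F V) (fun i => x (e i)) = F V x := by
    intro x; simp [onFin, he]
  have hfalse : ∀ x, F V x = false → 2 / 3 ≤ ∑ j, p j * tind e (T j) x := by
    intro x h
    refine (hx (fun i => x (e i))).trans (le_of_eq (Finset.sum_congr rfl fun j _ => ?_))
    rw [hF, h, tind]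
    cases (T j).eval fun i => x (e i) <;> simp
  have htrue : ∀ x, F V x = true → ∑ j, p j * tind e (T j) x ≤ 1 / 3 := by
    intro x h
    have h1 := hx (fun i => x (e i))
    have h2 : ∑ j, p j * tind e (T j) x
        + ∑ j, (if (T j).eval (fun i => x (e i)) = onFin (F V) (fun i => x (e i)) then p j else 0)
        = ∑ j, p j := by
      rw [← Finset.sum_add_distrib]
      refine Finset.sum_congr rfl fun j _ => ?_
      rw [hF, h, tind]
      cases (T j).eval fun i => x (e i) <;> simp
    linarith
  have hall : ∀ x, ∑ j, p j * tind e (T j) x ≤ 1 := fun x =>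
    le_trans (Finset.sum_le_sum fun j _ => mul_le_of_le_one_right (hp0 j) (tind_le_one _ _ _))
      hp1.le
  set l0 : BV L → Om K L r → ℝ := fun _ => law D (fun _ => false) with hl0
  have hl1 : ∀ c, ∑ ω, l0 c ω = 1 := fun _ => law_one D hD1 _
  have hln : ∀ c ω, 0 ≤ l0 c ω := fun _ _ => law_nonneg D hD0 _ _
  set err : ℝ := 2 ^ L * q / (d + 1) + q + (2 ^ L) ^ 2 * (d / 2 ^ L + L * r * δ) with herr
  set fl : ℝ := 4 * L ^ 2 * r / (r * μ - θ) ^ 2 with hfl
  have h1 := Finset.sum_le_sum fun j (_ : j ∈ Finset.univ) =>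
    mul_le_mul_of_nonneg_left (tree_step D hD0 hD1 V e hδ (T j) (hT j)) (hp0 j)
  simp only [mul_add, Finset.sum_add_distrib, ← Finset.sum_mul, hp1, one_mul] at h1
  have h2 : 2 / 3 ≤ ∑ j, p j * pf l0 (fun y => tind e (T j) (x0 y)) := by
    simp only [← pf_mul]
    rw [← pf_sum, ← pf_one hl1 (2 / 3)]
    exact pf_mono hln fun y => hfalse _ (F_x0 V y)
  have h3 : ∀ ca : BV L × BV L, ∑ j, p j * pf (Function.update l0 ca.1 (law D ca.2))
      (fun y => tind e (T j) (xc ca.1 y (col1 V ca.1 ca.2 y))) ≤ 1 / 3 + fl := by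
    rintro ⟨c, a⟩
    have hu1 : ∀ c', ∑ ω, Function.update l0 c (law D a) c' ω = 1 := by
      intro c'
      by_cases h : c' = c
      · subst h; simp [law_one D hD1]
      · simp [h, hl1]
    have hun : ∀ c' ω, 0 ≤ Function.update l0 c (law D a) c' ω := by
      intro c' ω
      by_cases h : c' = c
      · subst h; simp [law_nonneg D hD0]
      · simp [h, hln]
    simp only [← pf_mul]
    rw [← pf_sum]
    have b1 := promise_fail D hD0 hD1 hμ1 hμ hθ a
    have b2 := pf_coord hu1 c (fun ω => if Promise θ a (unc ω.2) then (0 : ℝ) else 1)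
    simp only [Function.update_self] at b2
    have b3 := pf_mono hun
      (g := fun y => ∑ j, p j * tind e (T j) (xc c y (col1 V c a y)))
      (h := fun y => 1 / 3 + if Promise θ a (unc (y c).2) then (0 : ℝ) else 1) (by
        intro y
        split_ifs with h
        · simpa using htrue _ (F_x1 V c a y h)
        · linarith [hall (xc c y (col1 V c a y))])
    rw [pf_add, pf_one hu1, b2] at b3
    linarith
  have h4 := Finset.sum_le_sum fun ca (_ : ca ∈ Finset.univ) => h3 ca
  simp only [Finset.sum_const, Finset.card_univ, Fintype.card_prod, card_BV, nsmul_eq_mul] at h4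
  push_cast at h4
  rw [Finset.sum_comm, ← sq] at h4
  simp only [← Finset.mul_sum] at h4
  have h5 : ∑ j, p j * ((2 ^ L) ^ 2 * pf l0 (fun y => tind e (T j) (x0 y)))
      = (2 ^ L) ^ 2 * ∑ j, p j * pf l0 (fun y => tind e (T j) (x0 y)) := by
    rw [Finset.mul_sum]; exact Finset.sum_congr rfl fun _ _ => by ring
  rw [h5] at h1
  have hN : (0 : ℝ) < 2 ^ L := by positivity
  have h6 : (2 ^ L) ^ 2 * (1 / 3 : ℝ) ≤ (2 ^ L) ^ 2 * (q / (2 ^ L * (d + 1)) + q / (2 ^ L) ^ 2
      + d / 2 ^ L + L * r * δ + fl) := by
    have e1 : (2 ^ L) ^ 2 * (q / (2 ^ L * (d + 1)) + q / (2 ^ L) ^ 2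
      + d / 2 ^ L + L * r * δ + fl : ℝ) = 2 ^ L * q / (d + 1) + q
        + ((2 ^ L) ^ 2 * (d / 2 ^ L) + (2 ^ L) ^ 2 * (L * r * δ)) + (2 ^ L) ^ 2 * fl := by
      field_simp; ring
    have := mul_le_mul_of_nonneg_left h2 (sq_nonneg ((2 : ℝ) ^ L))
    rw [e1]; linarith
  exact le_of_mul_le_mul_left h6 (by positivity)

end main

end Crest.Agent.Lead.QQ
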