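import Crest.Agent.Lead.QQForr
import Crest.Agent.Lead.QQCirc
import Crest.Agent.Lead.QQLower

/-! Assembly of S0554 from the quantum upper bound. -/

set_option autoImplicit false
open Finset Crest.MathPhysics.Query

namespace Crest.Agent.Lead.QQ

/-- polynomially bounded -/
def PB (f : ℕ → ℝ) : Prop := ∃ (C : ℝ) (n : ℕ), 0 ≤ C ∧ ∀ L : ℕ, 1 ≤ L → 0 ≤ f L ∧ f L ≤ C * L ^ n

lemma PB.const {a : ℝ} (ha : 0 ≤ a) : PB (fun _ => a) :=
  ⟨a, 0, ha, fun _ _ => ⟨ha, by simp⟩⟩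

lemma PB.id : PB (fun L => L) := ⟨1, 1, zero_le_one, fun _ _ => ⟨Nat.cast_nonneg _, by simp⟩⟩

lemma PB.mul {f g : ℕ → ℝ} (hf : PB f) (hg : PB g) : PB (fun L => f L * g L) := by
  obtain ⟨C, n, hC, h⟩ := hf
  obtain ⟨C', n', hC', h'⟩ := hg
  refine ⟨C * C', n + n', by positivity, fun L hL => ⟨mul_nonneg (h L hL).1 (h' L hL).1, ?_⟩⟩
  calc f L * g L ≤ (C * L ^ n) * (C' * L ^ n') :=
        mul_le_mul (h L hL).2 (h' L hL).2 (h' L hL).1 (by positivity)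
    _ = _ := by ring

lemma PB.add {f g : ℕ → ℝ} (hf : PB f) (hg : PB g) : PB (fun L => f L + g L) := by
  obtain ⟨C, n, hC, h⟩ := hf
  obtain ⟨C', n', hC', h'⟩ := hg
  refine ⟨C + C', n + n', by positivity, fun L hL => ⟨add_nonneg (h L hL).1 (h' L hL).1, ?_⟩⟩
  have hL' : (1 : ℝ) ≤ L := by exact_mod_cast hL
  have h1 : (L : ℝ) ^ n ≤ L ^ (n + n') := pow_le_pow_right₀ hL' (by omega)
  have h2 : (L : ℝ) ^ n' ≤ L ^ (n + n') := pow_le_pow_right₀ hL' (by omega)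
  have := mul_le_mul_of_nonneg_left h1 hC
  have := mul_le_mul_of_nonneg_left h2 hC'
  linarith [(h L hL).2, (h' L hL).2]

lemma PB.pow {f : ℕ → ℝ} (hf : PB f) (n : ℕ) : PB (fun L => f L ^ n) := by
  induction n with
  | zero => simpa using PB.const zero_le_one
  | succ n ih => simpa [pow_succ] using ih.mul hf

lemma PB.eventually {f : ℕ → ℝ} (hf : PB f) :
    ∃ j₀ : ℕ, ∀ j, j₀ ≤ j → f (2 * j) ≤ 2 ^ j := by
  obtain ⟨C, n, hC, h⟩ := hf
  have ht := (tendsto_pow_const_div_const_pow_of_one_lt n (one_lt_two : (1 : ℝ) < 2)).const_mul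
    (C * 2 ^ n)
  rw [mul_zero] at ht
  obtain ⟨j₀, hj⟩ := Filter.eventually_atTop.mp (ht.eventually (gt_mem_nhds zero_lt_one))
  refine ⟨max j₀ 1, fun j hj' => ?_⟩
  have h1 := hj j (le_of_max_le_left hj')
  have h2 := (h (2 * j) (by have := le_of_max_le_right hj'; omega)).2
  rw [← mul_div_assoc, div_lt_one (by positivity)] at h1
  push_cast at h2
  rw [mul_pow] at h2
  linarith

lemma rpow_aux {N : ℝ} (hN : 0 < N) {k : ℕ} (hk : k ≠ 0) :
    (N ^ (1 - 1 / (k : ℝ))) ^ k * N = N ^ k := by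
  have hk' : (k : ℝ) ≠ 0 := by exact_mod_cast hk
  rw [← Real.rpow_natCast, ← Real.rpow_mul hN.le, ← Real.rpow_add_one hN.ne',
    show (1 - 1 / (k : ℝ)) * k + 1 = k by field_simp; ring, Real.rpow_natCast]

lemma adv_aux {M k : ℕ} (hM : M + 1 = 3 * k) {N d x : ℝ} (hN : 0 < N) (hd : 0 ≤ d) (hdx : d ≤ x)
    (hxk : x ^ k * N = N ^ k) :
    (1 / Real.sqrt N) ^ M * Real.sqrt ((9 ^ (M + 1) * d) ^ (M + 1) * N)
      ≤ 3 ^ ((M + 1) * (M + 1)) / Real.sqrt N := by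
  refine (abs_le_of_sq_le_sq' ?_ (by positivity)).2
  have e0 : ((1 / Real.sqrt N) ^ M) ^ 2 = 1 / N ^ M := by
    rw [← pow_mul, mul_comm M 2, pow_mul, div_pow, Real.sq_sqrt hN.le]; simp
  have e1 : ((3 : ℝ) ^ ((M + 1) * (M + 1))) ^ 2 = (9 ^ (M + 1)) ^ (M + 1) := by
    rw [← pow_mul, mul_comm, pow_mul, pow_mul]; norm_num
  have e2 : d ^ (M + 1) * N ^ 3 ≤ N ^ (M + 1) := by
    rw [hM, mul_comm 3 k, pow_mul N, ← hxk, mul_pow, ← pow_mul]
    gcongr
  have e3 : d ^ (M + 1) * N * N ≤ N ^ M := by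
    refine le_of_mul_le_mul_right ?_ hN
    calc _ = d ^ (M + 1) * N ^ 3 := by ring
      _ ≤ _ := e2
  rw [mul_pow, e0, Real.sq_sqrt (by positivity), div_pow, Real.sq_sqrt hN.le, e1, one_div,
    ← div_eq_inv_mul, div_le_div_iff₀ (by positivity) hN, mul_pow]
  calc _ = ((9 : ℝ) ^ (M + 1)) ^ (M + 1) * (d ^ (M + 1) * N * N) := by ring
    _ ≤ _ := by gcongr

def QUpper : Prop := ∃ C b : ℕ, ∀ (K L r s₀ G : ℕ) (Circ Chk : Type) [Fintype Circ] [Fintype Chk]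
    (γ : ℝ), 1 ≤ L → 1 ≤ r → 0 < γ → 1 ≤ γ ^ 2 * G →
    ∀ V : Verifier K L r (r * γ / 2) Circ Chk s₀,
      ∃ q : ℕ, (q : ℝ) ≤ C * (L + 1) ^ b * (K + 1) * (G + s₀ + 1)
        * Real.sqrt (2 ^ L + Fintype.card Chk) ∧ QuantumComputes (onFin (F V)) q

set_option maxHeartbeats 3000000 in
theorem final_asm (hQ : QUpper) (k : ℕ) (hk : 2 ≤ k) :
    ∃ (c C b : ℝ), 0 < c ∧ 0 < C ∧ 0 < b ∧ ∃ m₀ : ℕ, ∀ m : ℕ, m₀ ≤ m → (∃ j : ℕ, m = 4 ^ j) →
      ∃ (n : ℕ) (F : (Fin n → Bool) → Bool),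
        (∃ q : ℕ, (q : ℝ) ≤ C * Real.sqrt m * Real.log m ^ b ∧ QuantumComputes F q) ∧
        (∀ r : ℕ, RandomizedComputes F r →
          c * (m : ℝ) ^ (2 - 1 / (k : ℝ)) / Real.log m ^ 2 ≤ r) := by
  obtain ⟨C, b, hQ⟩ := hQ
  obtain ⟨M, hM⟩ : ∃ M, M + 1 = 3 * k := ⟨3 * k - 1, by omega⟩
  have hM1 : 1 ≤ M := by omega
  set G : ℕ → ℕ := fun L => (48 * L) ^ (2 * M) with hG
  set r : ℕ → ℕ := fun L => 6400 * L ^ 2 * G L with hr
  have pG : PB (fun L => (G L : ℝ)) := by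
    simp only [hG]; push_cast
    exact ((PB.const (by norm_num)).mul PB.id).pow _
  have pr : PB (fun L => (r L : ℝ)) := by
    simp only [hr]; push_cast
    exact ((PB.const (by norm_num)).mul (PB.id.pow 2)).mul pG
  have p1 : PB (fun _ => (1 : ℝ)) := PB.const zero_le_one
  have pM : PB (fun _ => ((M : ℝ) + 1)) := PB.const (by positivity)
  -- the polylogarithmic factor of the quantum bound
  have pQ : PB (fun L => (C : ℝ) * (L + 1) ^ b * ((M + 1) + 1)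
      * (G L + (r L + 3) * ((M + 1) * L + 2) + 1)
      * (1 + (L * r L * (M + 1) * (L + 1) + L))) :=
    ((((PB.const (Nat.cast_nonneg C)).mul ((PB.id.add p1).pow b)).mul (pM.add p1)).mul
      ((pG.add ((pr.add (PB.const (by norm_num))).mul
        ((pM.mul PB.id).add (PB.const (by norm_num))))).add p1)).mul
      (p1.add ((((PB.id.mul pr).mul pM).mul (PB.id.add p1)).add PB.id))
  obtain ⟨C', n, hC', hpQ⟩ := pQ
  set Cd : ℝ := 80 * 3 ^ ((M + 1) * (M + 1)) + 48 * M with hCd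
  obtain ⟨j₁, hj₁⟩ := (((PB.const (a := 96 * M) (by positivity))).mul
    (((PB.const (a := 48) (by norm_num)).mul PB.id).pow M)).eventually
  obtain ⟨j₂, hj₂⟩ := (((PB.const (a := 100 * Cd) (by positivity)).mul PB.id).mul pr).eventually
  obtain ⟨j₃, hj₃⟩ := (PB.const (a := 100 ^ k) (by positivity)).eventually
  refine ⟨1 / 10, C' * 2 ^ (n + 1) + 1, (n + 1 : ℕ), by norm_num, by positivity, by positivity,
    4 ^ (j₁ + j₂ + j₃ + 1), ?_⟩
  rintro m hm ⟨j, rfl⟩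
  have hj : j₁ + j₂ + j₃ + 1 ≤ j := (Nat.pow_le_pow_iff_right (by norm_num)).mp hm
  replace hj₁ := hj₁ j (by omega)
  replace hj₂ := hj₂ j (by omega)
  replace hj₃ := hj₃ j (by omega)
  set L := 2 * j with hL
  have hL1 : 1 ≤ L := by omega
  have hL1' : (1 : ℝ) ≤ L := by exact_mod_cast hL1
  have hL2' : (2 : ℝ) ≤ L := by exact_mod_cast (show 2 ≤ L by omega)
  have hN : ((4 ^ j : ℕ) : ℝ) = 2 ^ L := by
    rw [hL, pow_mul]; push_cast; norm_num
  have hsN : Real.sqrt (2 ^ L) = 2 ^ j := by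
    rw [hL, mul_comm, pow_mul, Real.sqrt_sq (by positivity)]
  have hNpos : (0 : ℝ) < 2 ^ L := by positivity
  have hN1 : (1 : ℝ) ≤ 2 ^ L := one_le_pow₀ one_le_two
  have hjL : (2 : ℝ) ^ j ≤ 2 ^ L := pow_le_pow_right₀ one_le_two (by omega)
  have hNN : (2 : ℝ) ^ L ≤ (2 ^ L) ^ 2 := by nlinarith
  have hlog : Real.log (2 ^ L) = L * Real.log 2 := by rw [Real.log_pow]
  have hl2 := Real.log_two_gt_d9
  have hlog1 : 1 ≤ Real.log (2 ^ L) := by rw [hlog]; nlinarith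
  have hlog2 : (L : ℝ) ≤ 2 * Real.log (2 ^ L) := by rw [hlog]; nlinarith
  set γ : ℝ := (1 / (48 * L : ℝ)) ^ M with hγ
  have hγ0 : 0 < γ := by positivity
  have hγG : γ ^ 2 * G L = 1 := by
    simp only [hγ, hG]; push_cast
    rw [← pow_mul, mul_comm M 2, ← mul_pow]; field_simp; simp
  have hγ1 : γ ≤ 1 := pow_le_one₀ (by positivity) (by rw [div_le_one (by positivity)]; linarith)
  have hG1 : 1 ≤ G L := Nat.one_le_pow _ _ (by omega)
  have hr1 : 1 ≤ r L := by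
    simp only [hr]; have : 1 ≤ L ^ 2 := Nat.one_le_pow _ _ hL1
    nlinarith
  have hr0 : (0 : ℝ) < r L := by exact_mod_cast hr1
  obtain ⟨V⟩ := exists_verifier M L (r L) (r L * γ / 2)
  refine ⟨_, onFin (F V), ?_, ?_⟩
  · obtain ⟨q, hq, hq'⟩ := hQ (M + 1) L (r L) _ (G L) _ _ γ hL1 hr1 hγ0 hγG.ge V
    refine ⟨q, hq.trans ?_, hq'⟩
    rw [hN, Real.rpow_natCast]
    have h1 := (hpQ L hL1).2
    set P : ℝ := 1 + (L * r L * (M + 1) * (L + 1) + L) with hP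
    have hP1 : 1 ≤ P := by rw [hP]; have : (0 : ℝ) ≤ L * r L * (M + 1) * (L + 1) + L := by positivity
                           linarith
    have h2 : Real.sqrt (2 ^ L + Fintype.card (ChkT (M + 1) L (r L)))
        ≤ Real.sqrt (2 ^ L) * P := by
      rw [← Real.sqrt_sq (by linarith : 0 ≤ P), ← Real.sqrt_mul hNpos.le]
      refine Real.sqrt_le_sqrt ?_
      have e : (Fintype.card (ChkT (M + 1) L (r L)) : ℝ)
          = L * r L * (M + 1) * (L + 1) * 2 ^ L + L := by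
        simp only [Fintype.card_sum, Fintype.card_prod, Fintype.card_fin, card_BV]
        push_cast; ring
      have : 2 ^ L + (L * r L * (M + 1) * (L + 1) * 2 ^ L + L) ≤ 2 ^ L * P := by
        rw [hP]; nlinarith
      rw [e]
      refine this.trans (mul_le_mul_of_nonneg_left (by nlinarith) hNpos.le)
    have h3 : (L : ℝ) ^ n ≤ (2 * Real.log (2 ^ L)) ^ (n + 1) :=
      (pow_le_pow_right₀ hL1' (Nat.le_succ n)).trans (pow_le_pow_left₀ (by linarith) hlog2 _)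
    push_cast
    calc _ ≤ (C : ℝ) * (L + 1) ^ b * ((M + 1) + 1) * (G L + (r L + 3) * ((M + 1) * L + 2) + 1)
          * (Real.sqrt (2 ^ L) * P) := by gcongr
      _ = Real.sqrt (2 ^ L) * ((C : ℝ) * (L + 1) ^ b * ((M + 1) + 1)
          * (G L + (r L + 3) * ((M + 1) * L + 2) + 1) * P) := by ring
      _ ≤ Real.sqrt (2 ^ L) * (C' * (2 * Real.log (2 ^ L)) ^ (n + 1)) := by
          exact mul_le_mul_of_nonneg_left (h1.trans (mul_le_mul_of_nonneg_left h3 hC'))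
            (Real.sqrt_nonneg _)
      _ = (C' * 2 ^ (n + 1)) * Real.sqrt (2 ^ L) * Real.log (2 ^ L) ^ (n + 1) := by
          rw [mul_pow]; ring
      _ ≤ _ := by gcongr; linarith
  · intro q hq
    rw [hN]
    by_contra hlt
    push Not at hlt
    have h48 : (1 : ℝ) ≤ (48 * L) ^ M := one_le_pow₀ (by linarith)
    have hM0 : (0 : ℝ) ≤ M := Nat.cast_nonneg _
    have hML : (4 * M : ℝ) ≤ (2 ^ L) ^ 2 := by nlinarith
    obtain ⟨D, hD0, hD1, hμ, hδ⟩ := forr_dist hM1 hL1 hML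
    have hk0 : (0 : ℝ) < k := by positivity
    have hk2 : (2 : ℝ) ≤ k := by exact_mod_cast hk
    set x : ℝ := ((2 : ℝ) ^ L) ^ (1 - 1 / (k : ℝ)) with hx
    have hx1 : 1 ≤ x := Real.one_le_rpow hN1 (by
      rw [sub_nonneg, div_le_one hk0]; linarith)
    set d : ℕ := ⌊x⌋₊ with hd
    have hd1 : 1 ≤ d := Nat.le_floor (by simpa using hx1)
    have hdx : (d : ℝ) ≤ x := Nat.floor_le (by linarith)
    have hxd : x < d + 1 := Nat.lt_floor_add_one x
    have hxk : x ^ k * 2 ^ L = (2 ^ L) ^ k := by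
      exact rpow_aux hNpos (by omega)
    -- the mean
    have hμ3 : 24 * (M : ℝ) / (2 ^ L) ^ 2 ≤ γ / 4 := by
      rw [hγ, one_div, inv_pow, div_le_div_iff₀ (by positivity) (by norm_num),
        ← div_eq_inv_mul, le_div_iff₀ (by positivity)]
      linarith
    have hμ4 : 0 ≤ 24 * (M : ℝ) / (2 ^ L) ^ 2 := by positivity
    -- the advantage
    have hQd : (1 / Real.sqrt (2 ^ L)) ^ M * Real.sqrt ((9 ^ (M + 1) * d) ^ (M + 1) * 2 ^ L)
        ≤ 3 ^ ((M + 1) * (M + 1)) / 2 ^ j := by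
      rw [← hsN]
      exact adv_aux hM hNpos (Nat.cast_nonneg d) hdx hxk
    have hδ' : ∀ h, DT U01 d h → |∑ z, D false z * h z - ∑ z, D true z * h z| ≤ Cd / 2 ^ j := by
      intro h hh
      refine (hδ d hd1 h hh).trans ?_
      set Q := (1 / Real.sqrt (2 ^ L)) ^ M * Real.sqrt ((9 ^ (M + 1) * d) ^ (M + 1) * 2 ^ L)
      have hQ0 : 0 ≤ Q := by positivity
      have a1 : 160 * (M : ℝ) / (2 ^ L) ^ 2 ≤ 40 := by
        rw [div_le_iff₀ (by positivity)]; linarith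
      have a2 : 48 * (M : ℝ) / (2 ^ L) ^ 2 ≤ 48 * M / 2 ^ j := by
        gcongr; linarith
      have a3 := mul_le_mul_of_nonneg_right a1 hQ0
      have e : Cd / 2 ^ j = 80 * (3 ^ ((M + 1) * (M + 1)) / 2 ^ j) + 48 * M / 2 ^ j := by
        rw [hCd]; ring
      rw [e]; linarith
    have hθ : r L * γ / 2 < r L * (γ - 24 * M / (2 ^ L) ^ 2) := by nlinarith
    have hlow := classical_lower D hD0 hD1 V (μ := γ - 24 * M / (2 ^ L) ^ 2)
      (by rw [abs_le]; constructor <;> linarith) hμ hθ hδ' hq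
    have hq1 : (q : ℝ) ≤ 1 / 10 * (2 ^ L * x) := by
      have e : ((2 : ℝ) ^ L) ^ (2 - 1 / (k : ℝ)) = 2 ^ L * x := by
        rw [hx, mul_comm, ← Real.rpow_add_one hNpos.ne']; congr 1; ring
      rw [e] at hlt
      refine hlt.le.trans (div_le_self (by positivity) (one_le_pow₀ hlog1))
    have hx100 : 100 * x ≤ 2 ^ L := by
      refine le_of_pow_le_pow_left₀ (n := k) (by omega) hNpos.le ?_
      rw [mul_pow, ← hxk, mul_comm]
      gcongr
      linarith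
    have b1 : (q : ℝ) / (2 ^ L * (d + 1)) ≤ 1 / 10 := by
      rw [div_le_iff₀ (by positivity)]
      refine hq1.trans ?_
      gcongr
    have b2 : (q : ℝ) / (2 ^ L) ^ 2 ≤ 1 / 10 := by
      rw [div_le_iff₀ (by positivity)]
      refine hq1.trans ?_
      rw [sq]; gcongr; linarith
    have b3 : (d : ℝ) / 2 ^ L ≤ 1 / 100 := by
      rw [div_le_iff₀ hNpos]; linarith
    have b4 : (L : ℝ) * r L * (Cd / 2 ^ j) ≤ 1 / 100 := by
      rw [← mul_div_assoc, div_le_iff₀ (by positivity)]; linarith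
    have b5 : 4 * (L : ℝ) ^ 2 * r L / (r L * (γ - 24 * M / (2 ^ L) ^ 2) - r L * γ / 2) ^ 2
        ≤ 1 / 100 := by
      have c1 : r L * γ / 4 ≤ r L * (γ - 24 * M / (2 ^ L) ^ 2) - r L * γ / 2 := by nlinarith
      have c2 : 4 * (L : ℝ) ^ 2 * r L / (r L * γ / 4) ^ 2 = 1 / 100 := by
        have : (r L : ℝ) * γ ^ 2 = 6400 * L ^ 2 := by
          simp only [hr]; push_cast; linear_combination (6400 * (L : ℝ) ^ 2) * hγG
        field_simp; linarith
      rw [← c2]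
      gcongr
    linarith

end Crest.Agent.Lead.QQ
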