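import Crest.Agent.Lead.QQChain

/-! Two laws on forrelation instances with opposite forrelation bias that shallow decision trees
cannot tell apart. -/

set_option autoImplicit false
open Finset MeasureTheory ProbabilityTheory MvPolynomial

namespace Crest.Agent.Lead.QQ

variable {M L : ℕ}

noncomputable def Zr (s t : ℝ) (w : GJ M L → ℝ) (v : FV (M + 1) L) : ℝ := ev t w (ZP s v)

lemma ev_DP (s t : ℝ) (w : GJ M L → ℝ) (h : (FV (M + 1) L → Bool) → ℝ)
    (ω : Fin (M + 1) → Option (BV L)) : ev t w (DP (ZP s) h ω) = pf (W (Zr s t w) ω) h :=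
  DP_eval _ _ _ _

lemma cont_ev {J : Type} (t : ℝ) (p : MvPolynomial (Option J) ℝ) :
    Continuous (fun w : J → ℝ => ev t w p) := by
  refine (MvPolynomial.continuous_eval p).comp (continuous_pi fun o => ?_)
  cases o
  · exact continuous_const
  · exact continuous_apply _

noncomputable def gA (s : ℝ) : GJ M L ⊕ GJ M L → GJ M L → ℝ :=
  Sum.elim (fun a j => if j = a then s else 0)
    (fun a j => if j.1 = a.1 then s / Real.sqrt (2 ^ L) * had a.2 j.2 else 0)

lemma gA_norm (s : ℝ) (c : GJ M L ⊕ GJ M L → ℝ) :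
    ∑ j, (∑ α, c α * gA s α j) ^ 2 ≤ 2 * s ^ 2 * ∑ α, c α ^ 2 := by
  have hN : (0 : ℝ) < 2 ^ L := by positivity
  have e : ∀ j : GJ M L, ∑ α, c α * gA s α j = s * c (Sum.inl j)
      + s / Real.sqrt (2 ^ L) * ∑ u, had j.2 u * c (Sum.inr (j.1, u)) := by
    intro j
    rw [Fintype.sum_sum_type]
    simp only [gA, Sum.elim_inl, Sum.elim_inr, mul_ite, mul_zero, Finset.sum_ite_eq,
      Finset.mem_univ, if_true]
    rw [Fintype.sum_prod_type, Finset.sum_eq_single j.1, Finset.mul_sum, mul_comm]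
    · congr 1
      refine Finset.sum_congr rfl fun u _ => ?_
      rw [if_pos rfl, had_comm]; ring
    · intro i _ hi; simp [hi.symm]
    · simp
  simp only [e]
  have e2 : ∀ j : GJ M L, (s * c (Sum.inl j)
      + s / Real.sqrt (2 ^ L) * ∑ u, had j.2 u * c (Sum.inr (j.1, u))) ^ 2
      ≤ 2 * s ^ 2 * c (Sum.inl j) ^ 2
        + 2 * s ^ 2 / 2 ^ L * (∑ u, had j.2 u * c (Sum.inr (j.1, u))) ^ 2 := by
    intro j
    have : 2 * s ^ 2 / 2 ^ L * (∑ u, had j.2 u * c (Sum.inr (j.1, u))) ^ 2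
        = 2 * (s / Real.sqrt (2 ^ L) * ∑ u, had j.2 u * c (Sum.inr (j.1, u))) ^ 2 := by
      rw [mul_pow, div_pow, Real.sq_sqrt hN.le]; ring
    rw [this]
    nlinarith [sq_nonneg (s * c (Sum.inl j)
      - s / Real.sqrt (2 ^ L) * ∑ u, had j.2 u * c (Sum.inr (j.1, u)))]
  refine (Finset.sum_le_sum fun j _ => e2 j).trans (le_of_eq ?_)
  rw [Finset.sum_add_distrib, ← Finset.mul_sum, ← Finset.mul_sum, Fintype.sum_sum_type, mul_add]
  congr 1
  rw [Fintype.sum_prod_type, Fintype.sum_prod_type]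
  simp only [sum_sq_had]
  rw [← Finset.mul_sum]; field_simp

lemma prod_mx_le (hM : 1 ≤ M) (s t : ℝ) (ht : |t| ≤ 1) {lam : ℝ} (hl : 2 ≤ lam)
    (w : GJ M L → ℝ) : ∏ v, mx (Zr s t w v) ≤ Lam (gA s) lam (lam / 2) w := by
  have h0 : ∀ s, 0 ≤ mx s := fun s => le_trans zero_le_one (one_le_mx s)
  set A : Fin (M + 1) → BV L → ℝ := fun i u =>
    Fin.cases 1 (fun i' => mx (ev t w (yP s i' u))) i with hA
  set Bq : Fin (M + 1) → BV L → ℝ := fun i u =>
    Fin.lastCases 1 (fun i' => mx (ev t w (xP s i' u))) i with hB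
  have h1 : ∀ v : FV (M + 1) L, mx (Zr s t w v) ≤ A v.1 v.2 * Bq v.1 v.2 := by
    rintro ⟨i, u⟩
    simp only [Zr, ZP, map_mul]
    refine Fin.cases ?_ (fun i' => ?_) i
    · have e : (0 : Fin (M + 1)) = Fin.castSucc ⟨0, hM⟩ := rfl
      have e1 : ev t w (aP s 0 u) = t := by simp [aP, ev]
      have e2 : A 0 u = 1 := by simp [hA]
      rw [e1, e2, one_mul, e]
      simp only [hB, bP, Fin.lastCases_castSucc]
      exact mx_mul_le ht _
    · simp only [hA, aP, Fin.cases_succ]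
      generalize i'.succ = i''
      refine Fin.lastCases ?_ (fun i'' => ?_) i''
      · simp [hB, bP]
      · simp only [hB, bP, Fin.lastCases_castSucc]
        exact mx_mul _ _
  have hA0 : ∀ i u, 0 ≤ A i u := by
    intro i u; refine Fin.cases ?_ (fun i' => ?_) i <;> simp [hA, h0]
  have hB0 : ∀ i u, 0 ≤ Bq i u := by
    intro i u; refine Fin.lastCases ?_ (fun i' => ?_) i <;> simp [hB, h0]
  refine (Finset.prod_le_prod (fun v _ => h0 _) fun v _ => h1 v).trans ?_
  rw [Finset.prod_mul_distrib, Fintype.prod_prod_type, Fintype.prod_prod_type,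
    Fin.prod_univ_succ, Fin.prod_univ_castSucc, mul_comm]
  simp only [hA, hB, Fin.cases_zero, Fin.cases_succ, Fin.lastCases_castSucc, Fin.lastCases_last,
    Finset.prod_const_one, mul_one, one_mul]
  unfold Lam
  rw [Fintype.prod_sum_type, Fintype.prod_prod_type, Fintype.prod_prod_type]
  refine mul_le_mul ?_ ?_ (Finset.prod_nonneg fun _ _ => Finset.prod_nonneg fun _ _ => h0 _)
    (Finset.prod_nonneg fun _ _ => Finset.prod_nonneg fun _ _ => by positivity)
  · refine Finset.prod_le_prod (fun _ _ => Finset.prod_nonneg fun _ _ => h0 _) fun i _ =>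
      Finset.prod_le_prod (fun _ _ => h0 _) fun u _ => ?_
    have : ∑ j, gA s (Sum.inl (i, u)) j * w j = ev t w (xP s i u) := by
      simp [gA, xP, ev]
    rw [this]; exact mx_le_exp hl _
  · refine Finset.prod_le_prod (fun _ _ => Finset.prod_nonneg fun _ _ => h0 _) fun i _ =>
      Finset.prod_le_prod (fun _ _ => h0 _) fun u _ => ?_
    have : ∑ j, gA s (Sum.inr (i, u)) j * w j = ev t w (yP s i u) := by
      rw [Fintype.sum_prod_type, Finset.sum_eq_single i]
      · simp [gA, yP, ev]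
      · intro i' _ hi; simp [gA, hi]
      · simp
    rw [this]; exact mx_le_exp hl _

noncomputable def DD (s t : ℝ) (z : FV (M + 1) L → Bool) : ℝ :=
  ∫ w, ∏ v, W (fun v => clip (Zr s t w v)) (fun _ => none) v (z v) ∂(gam (GJ M L))

lemma W_clip_mem (Y : FV (M + 1) L → ℝ) (v : FV (M + 1) L) (b : Bool) :
    0 ≤ W (fun v => clip (Y v)) (fun _ => none) v b ∧
      W (fun v => clip (Y v)) (fun _ => none) v b ≤ 1 := by
  have := abs_le.mp (abs_clip (Y v))
  cases b <;> simp only [W, reduceCtorEq, if_false, sg_true, sg_false] <;> constructor <;> linarith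

lemma DD_int (s t : ℝ) (z : FV (M + 1) L → Bool) :
    Integrable (fun w => ∏ v, W (fun v => clip (Zr s t w v)) (fun _ => none) v (z v))
      (gam (GJ M L)) := by
  refine Integrable.of_bound (C := 1) (Continuous.aestronglyMeasurable ?_)
    (Filter.Eventually.of_forall fun w => ?_)
  · refine continuous_finsetProd _ fun v _ => ?_
    simp only [W, reduceCtorEq, if_false, clip, Zr]
    have := cont_ev t (ZP s v : PR M L)
    fun_prop
  · rw [Real.norm_eq_abs, abs_of_nonneg (Finset.prod_nonneg fun v _ => (W_clip_mem _ _ _).1)]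
    exact Finset.prod_le_one (fun v _ => (W_clip_mem _ _ _).1) fun v _ => (W_clip_mem _ _ _).2

lemma DD_nonneg (s t : ℝ) (z : FV (M + 1) L → Bool) : 0 ≤ DD s t z :=
  integral_nonneg fun _ => Finset.prod_nonneg fun _ _ => (W_clip_mem _ _ _).1

lemma DD_pair_int (s t : ℝ) (h : (FV (M + 1) L → Bool) → ℝ) :
    Integrable (fun w => pf (W (fun v => clip (Zr s t w v)) (fun _ => none)) h)
      (gam (GJ M L)) :=
  integrable_finsetSum _ fun z _ => (DD_int s t z).mul_const _

lemma DD_pair (s t : ℝ) (h : (FV (M + 1) L → Bool) → ℝ) :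
    ∑ z, DD s t z * h z
      = ∫ w, pf (W (fun v => clip (Zr s t w v)) (fun _ => none)) h ∂(gam (GJ M L)) := by
  unfold pf DD
  rw [integral_finsetSum _ fun z _ => (DD_int s t z).mul_const _]
  simp only [integral_mul_const]

lemma DD_sum (s t : ℝ) : ∑ z : FV (M + 1) L → Bool, DD s t z = 1 := by
  have := DD_pair (M := M) (L := L) s t (fun _ => 1)
  simpa [pf_W_const] using this

lemma DD_err (hM : 1 ≤ M) (s t : ℝ) (ht : |t| ≤ 1) {lam ρ : ℝ} (hl : 2 ≤ lam)
    (hρ : ∫ w, Lam (gA (M := M) (L := L) s) lam (lam / 2) w ∂(gam (GJ M L)) ≤ 1 + ρ)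
    {h : (FV (M + 1) L → Bool) → ℝ} (hh : ∀ z, |h z| ≤ 1) :
    |∑ z, DD s t z * h z - EE t (DP (ZP s) h (fun _ => none))| ≤ 3 * ρ := by
  rw [DD_pair, EE, ← integral_sub (DD_pair_int s t h) (ev_int _ _)]
  have hi := Lam_int (gA (M := M) (L := L) s) lam (lam / 2)
  calc _ ≤ ∫ w, 3 * (Lam (gA (M := M) (L := L) s) lam (lam / 2) w - 1) ∂(gam (GJ M L)) := by
        rw [← Real.norm_eq_abs]
        refine norm_integral_le_of_norm_le ((hi.sub (integrable_const _)).const_mul _)
          (Filter.Eventually.of_forall fun w => ?_)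
        rw [Real.norm_eq_abs, ev_DP]
        refine (clip_err _ hh).trans ?_
        have := prod_mx_le hM s t ht hl w
        linarith
    _ ≤ 3 * ρ := by
        rw [integral_const_mul, integral_sub hi (integrable_const _)]
        simp only [integral_const, probReal_univ, smul_eq_mul, mul_one]
        linarith

lemma EE_Phi (s t : ℝ) : EE t (DP (ZP s) (Phi : (FV (M + 1) L → Bool) → ℝ) (fun _ => none))
    = (s ^ 2) ^ M * t := by
  set φ : ℝ → ℝ := fun t => EE t (DP (ZP s) (Phi : (FV (M + 1) L → Bool) → ℝ) (fun _ => none))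
    with hφ
  have hN : (0 : ℝ) < 2 ^ L := by positivity
  have hsq : 0 < Real.sqrt (2 ^ L) := Real.sqrt_pos.mpr hN
  have hd : ∀ t, HasDerivAt (fun t => φ t - (s ^ 2) ^ M * t) 0 t := by
    intro t
    have h1 := (chain_deriv (M := M) (L := L) s t Phi).sub
      ((hasDerivAt_id t).const_mul ((s ^ 2) ^ M))
    refine h1.congr_deriv ?_
    have e : ∀ u : Fin (M + 1) → BV L,
        hp M u * EE t (DP (ZP s) Phi (fun i => some (u i)))
          = 1 / Real.sqrt (2 ^ L) ^ (M + 2) := by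
      intro u
      simp only [EE, ev_DP, pf_W_Phi_full, integral_const, probReal_univ, smul_eq_mul, one_mul]
      have := abs_hp M u
      have h2 : hp M u * hp M u = 1 := by rw [← abs_mul_abs_self, this, one_mul]
      linear_combination (1 / Real.sqrt (2 ^ L) ^ (M + 2)) * h2
    simp only [e, Finset.sum_const, Finset.card_univ, Fintype.card_fun, Fintype.card_fin,
      Fintype.card_bool, nsmul_eq_mul, mul_one]
    push_cast
    set q := Real.sqrt (2 ^ L) with hq
    have : (2 : ℝ) ^ L = q ^ 2 := (Real.sq_sqrt hN.le).symm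
    rw [this, div_pow]; field_simp; ring
  have hc := is_const_of_deriv_eq_zero (fun t => (hd t).differentiableAt)
    (fun t => (hd t).deriv) t 0
  have h0 : φ 0 = 0 := by
    simp only [hφ, EE, ev_DP]
    have : ∀ w : GJ M L → ℝ, pf (W (Zr s 0 w) fun _ => none) Phi = 0 := fun w =>
      pf_W_Phi_none _ fun b => by simp [Zr, ZP, aP, ev]
    simp [this]
  simp only [h0, mul_zero, sub_zero] at hc
  linarith

lemma EE_diff (hM : 1 ≤ M) (s : ℝ) (hs : s ^ 2 ≤ 1) {lam ρ : ℝ} (hl : 2 ≤ lam)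
    (hρ : ∫ w, Lam (gA (M := M) (L := L) s) lam (lam / 2) w ∂(gam (GJ M L)) ≤ 1 + ρ)
    {d : ℕ} (hd : 1 ≤ d) {h : (FV (M + 1) L → Bool) → ℝ} (hh : DT U01 d h) :
    |EE 1 (DP (ZP s) h (fun _ => none)) - EE (-1) (DP (ZP s) h (fun _ => none))|
      ≤ 2 * ((1 / Real.sqrt (2 ^ L)) ^ M
        * (10 * Real.sqrt ((9 ^ (M + 1) * d) ^ (M + 1) * 2 ^ L) * (1 + ρ))) := by
  obtain ⟨t, ht, he⟩ := exists_hasDerivAt_eq_slope
    (fun t => EE t (DP (ZP s) h (fun _ => none))) _ (by norm_num : (-1 : ℝ) < 1)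
    (fun t _ => (chain_deriv s t h).continuousAt.continuousWithinAt)
    (fun t _ => chain_deriv s t h)
  have ht' : |t| ≤ 1 := abs_le.mpr ⟨ht.1.le, ht.2.le⟩
  have e : EE 1 (DP (ZP s) h (fun _ => none)) - EE (-1) (DP (ZP s) h (fun _ => none))
      = 2 * ((s ^ 2 / Real.sqrt (2 ^ L)) ^ M *
        ∑ u : Fin (M + 1) → BV L, hp M u * EE t (DP (ZP s) h (fun i => some (u i)))) := by
    rw [he]; ring
  rw [e, abs_mul, abs_mul, abs_two]
  have hi := Lam_int (gA (M := M) (L := L) s) lam (lam / 2)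
  have hB : (0 : ℝ) ≤ 10 * Real.sqrt ((9 ^ (M + 1) * d) ^ (M + 1) * 2 ^ L) := by positivity
  refine mul_le_mul_of_nonneg_left (mul_le_mul ?_ ?_ (abs_nonneg _) (by positivity)) zero_le_two
  · rw [abs_of_nonneg (by positivity)]
    gcongr
  · have e2 : ∑ u : Fin (M + 1) → BV L, hp M u * EE t (DP (ZP s) h (fun i => some (u i)))
        = ∫ w, ∑ u : Fin (M + 1) → BV L, hp M u * pf (W (Zr s t w) (fun i => some (u i))) h
          ∂(gam (GJ M L)) := by
      simp only [← ev_DP]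
      rw [integral_finsetSum _ fun u _ => (ev_int _ _).const_mul _]
      simp only [integral_const_mul, EE]
    rw [e2]
    calc _ ≤ ∫ w, 10 * Real.sqrt ((9 ^ (M + 1) * d) ^ (M + 1) * 2 ^ L)
          * Lam (gA (M := M) (L := L) s) lam (lam / 2) w ∂(gam (GJ M L)) := by
          rw [← Real.norm_eq_abs]
          refine norm_integral_le_of_norm_le (hi.const_mul _)
            (Filter.Eventually.of_forall fun w => ?_)
          rw [Real.norm_eq_abs]
          have := gamma_bound' (K := M + 1) (B := BV L) (by omega) hd hh (Zr s t w) (hp M)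
            (fun u => (abs_hp M u).le)
          rw [card_BV] at this
          push_cast at this
          exact this.trans (mul_le_mul_of_nonneg_left (prod_mx_le hM s t ht' hl w) hB)
      _ ≤ _ := by
          rw [integral_const_mul]
          exact mul_le_mul_of_nonneg_left hρ hB

theorem forr_dist (hM : 1 ≤ M) (hL : 1 ≤ L) (hML : (4 * M : ℝ) ≤ (2 ^ L) ^ 2) :
    ∃ D : Bool → (FV (M + 1) L → Bool) → ℝ, (∀ b z, 0 ≤ D b z) ∧ (∀ b, ∑ z, D b z = 1) ∧
      (∀ b, (1 / (48 * L : ℝ)) ^ M - 24 * M / (2 ^ L) ^ 2 ≤ ∑ z, D b z * (sg b * Phi z)) ∧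
      ∀ d : ℕ, 1 ≤ d → ∀ h, DT U01 d h → |∑ z, D false z * h z - ∑ z, D true z * h z|
        ≤ 40 * ((1 / Real.sqrt (2 ^ L)) ^ M * Real.sqrt ((9 ^ (M + 1) * d) ^ (M + 1) * 2 ^ L))
          + 48 * M / (2 ^ L) ^ 2 + 160 * M / (2 ^ L) ^ 2
            * ((1 / Real.sqrt (2 ^ L)) ^ M
              * Real.sqrt ((9 ^ (M + 1) * d) ^ (M + 1) * 2 ^ L)) := by
  have hL' : (1 : ℝ) ≤ L := by exact_mod_cast hL
  set s : ℝ := Real.sqrt (1 / (48 * L)) with hs
  have hs2 : s ^ 2 = 1 / (48 * L) := Real.sq_sqrt (by positivity)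
  set ρ : ℝ := 8 * M / (2 ^ L) ^ 2 with hρ
  have hN : (0 : ℝ) < 2 ^ L := by positivity
  have hl : (2 : ℝ) ≤ 12 * L := by linarith
  have hLam : ∫ w, Lam (gA (M := M) (L := L) s) (12 * L) (12 * L / 2) w ∂(gam (GJ M L))
      ≤ 1 + ρ := by
    refine (Lam_integral _ _ _ (s ^ 2) (gA_norm s)).trans ?_
    have e1 : (12 * L : ℝ) ^ 2 * s ^ 2 - 12 * L / 2 = -(L * 3) := by
      rw [hs2]; field_simp; ring
    have e2 : Real.exp (-(L * 3)) ≤ 1 / (2 ^ L) ^ 3 := by
      rw [Real.exp_neg, one_div]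
      refine inv_anti₀ (by positivity) ?_
      rw [← pow_mul, show (L * 3 : ℝ) = ((L * 3 : ℕ) : ℝ) * 1 by push_cast; ring,
        Real.exp_nat_mul]
      refine pow_le_pow_left₀ zero_le_two ?_ _
      linarith [Real.add_one_le_exp 1]
    have e3 : (Fintype.card (GJ M L ⊕ GJ M L) : ℝ) = 2 * M * 2 ^ L := by
      simp; ring
    rw [e1]
    calc (1 + 2 * Real.exp (-(L * 3))) ^ Fintype.card (GJ M L ⊕ GJ M L)
        ≤ Real.exp (2 * (1 / (2 ^ L) ^ 3)) ^ Fintype.card (GJ M L ⊕ GJ M L) := by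
          refine pow_le_pow_left₀ (by positivity) ?_ _
          linarith [Real.add_one_le_exp (2 * (1 / (2 ^ L : ℝ) ^ 3))]
      _ = Real.exp (4 * M / (2 ^ L) ^ 2) := by
          rw [← Real.exp_nat_mul, e3]; congr 1; field_simp; ring
      _ ≤ 1 + ρ := by
          have hy0 : (0 : ℝ) ≤ 4 * M / (2 ^ L) ^ 2 := by positivity
          have hy1 : (4 * M / (2 ^ L) ^ 2 : ℝ) ≤ 1 := by rwa [div_le_one (by positivity)]
          have := Real.abs_exp_sub_one_le (x := 4 * M / (2 ^ L) ^ 2) (by rwa [abs_of_nonneg hy0])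
          rw [abs_of_nonneg hy0] at this
          have h2 := le_abs_self (Real.exp (4 * M / (2 ^ L) ^ 2) - 1)
          have : ρ = 2 * (4 * M / (2 ^ L) ^ 2) := by rw [hρ]; ring
          linarith
  refine ⟨fun b => DD s (sg b), fun b z => DD_nonneg _ _ _, fun b => DD_sum _ _, fun b => ?_,
    fun d hd h hh => ?_⟩
  · have h1 := DD_err hM s (sg b) (abs_sg b).le hl hLam (h := Phi) abs_Phi_le
    rw [EE_Phi, hs2] at h1
    have e : ∑ z : FV (M + 1) L → Bool, DD s (sg b) z * (sg b * Phi z)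
        = sg b * ∑ z : FV (M + 1) L → Bool, DD s (sg b) z * Phi z := by
      rw [Finset.mul_sum]; exact Finset.sum_congr rfl fun _ _ => by ring
    have e2 : 24 * (M : ℝ) / (2 ^ L) ^ 2 = 3 * ρ := by rw [hρ]; ring
    rw [e, e2]
    have := abs_le.mp h1
    cases b <;> simp only [sg_true, sg_false] at this ⊢ <;> linarith
  · have hh1 : ∀ z, |h z| ≤ 1 := fun z => by
      have := hh.prop z
      rw [abs_of_nonneg this.1]; exact this.2
    have h1 := abs_le.mp (DD_err hM s 1 (by simp) hl hLam hh1)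
    have h2 := abs_le.mp (DD_err hM s (-1) (by simp) hl hLam hh1)
    have hs1 : s ^ 2 ≤ 1 := by rw [hs2, div_le_one (by positivity)]; linarith
    have h3 := abs_le.mp (EE_diff hM s hs1 hl hLam hd hh)
    simp only [sg_true, sg_false]
    set Q := (1 / Real.sqrt (2 ^ L)) ^ M * Real.sqrt ((9 ^ (M + 1) * d) ^ (M + 1) * 2 ^ L)
      with hQ
    have hQ0 : 0 ≤ Q := by positivity
    have e : 2 * ((1 / Real.sqrt (2 ^ L)) ^ M
        * (10 * Real.sqrt ((9 ^ (M + 1) * d) ^ (M + 1) * 2 ^ L) * (1 + ρ)))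
        = 20 * Q + 160 * M / (2 ^ L) ^ 2 * Q := by rw [hQ, hρ]; ring
    have e2 : 48 * (M : ℝ) / (2 ^ L) ^ 2 = 6 * ρ := by rw [hρ]; ring
    rw [e] at h3
    rw [e2, abs_le]
    constructor <;> linarith

end Crest.Agent.Lead.QQ
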