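import Crest.Agent.Lead.QQDefs

/-! Level-`K` signed Fourier bound for decision trees under biased product laws. -/

set_option autoImplicit false
open Finset

namespace Crest.Agent.Lead.QQ

section pfsplit
variable {T Ω : Type} [Fintype T] [DecidableEq T] [Fintype Ω] [DecidableEq Ω]

/-- point mass -/
def dl (b : Ω) : Ω → ℝ := fun b' => if b' = b then 1 else 0

lemma pf_split (c : T → Ω → ℝ) (v : T) (g : Ω → (T → Ω) → ℝ) :
    pf c (fun y => g (y v) y) = ∑ b, c v b * pf (Function.update c v (dl b)) (g b) := by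
  unfold pf
  simp only [Finset.mul_sum]
  rw [Finset.sum_comm]
  refine Finset.sum_congr rfl fun y _ => ?_
  have h : ∀ b, ∏ t, Function.update c v (dl b) t (y t)
      = dl b (y v) * ∏ t ∈ Finset.univ.erase v, c t (y t) := by
    intro b
    rw [← Finset.mul_prod_erase _ _ (Finset.mem_univ v)]
    simp only [Function.update_self]
    congr 1
    refine Finset.prod_congr rfl fun t ht => ?_
    rw [Function.update_of_ne (Finset.ne_of_mem_erase ht)]
  simp only [h]
  rw [Finset.sum_eq_single (y v), ← Finset.mul_prod_erase _ _ (Finset.mem_univ v)]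
  · simp [dl]; ring
  · intro b _ hb; simp [dl, hb.symm]
  · simp

end pfsplit

lemma mom_mixed {α β θ : ℝ} (hα : 0 ≤ α) (hβ : 0 ≤ β) (hθ : 0 < θ) (hθ1 : θ ≤ 1) {j m : ℕ}
    (hj : j ≤ m) : β ^ (j + 2) * α ^ (m - j) ≤ θ ^ 2 * α ^ (m + 2) + β ^ (m + 2) / θ ^ m := by
  obtain ⟨k, rfl⟩ := Nat.exists_eq_add_of_le hj
  simp only [Nat.add_sub_cancel_left]
  by_cases h : β ≤ θ * α
  · have h1 : β ^ (j + 2) ≤ (θ * α) ^ (j + 2) := pow_le_pow_left₀ hβ h _
    have h2 : θ ^ j ≤ 1 := pow_le_one₀ hθ.le hθ1
    have h3 : β ^ (j + 2) * α ^ k ≤ θ ^ 2 * α ^ (j + k + 2) := by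
      calc β ^ (j + 2) * α ^ k ≤ (θ * α) ^ (j + 2) * α ^ k := by gcongr
        _ = θ ^ j * (θ ^ 2 * α ^ (j + k + 2)) := by ring
        _ ≤ 1 * (θ ^ 2 * α ^ (j + k + 2)) := by gcongr
        _ = _ := one_mul _
    have : 0 ≤ β ^ (j + k + 2) / θ ^ (j + k) := by positivity
    linarith
  · push Not at h
    have h0 : α ≤ β / θ := by rw [le_div_iff₀ hθ]; linarith
    have h2 : θ ^ j ≤ 1 := pow_le_one₀ hθ.le hθ1
    have h3 : β ^ (j + 2) * α ^ k ≤ β ^ (j + k + 2) / θ ^ (j + k) := by
      calc β ^ (j + 2) * α ^ k ≤ β ^ (j + 2) * (β / θ) ^ k := by gcongr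
        _ = θ ^ j * (β ^ (j + k + 2) / θ ^ (j + k)) := by rw [div_pow]; field_simp; ring
        _ ≤ 1 * (β ^ (j + k + 2) / θ ^ (j + k)) := by gcongr
        _ = _ := one_mul _
    have : 0 ≤ θ ^ 2 * α ^ (j + k + 2) := by positivity
    linarith

lemma mom_point {A A' y θ : ℝ} (hθ : 0 < θ) (hθ1 : θ ≤ 1) (hy : |y| ≤ 2 * |A'|) (m : ℕ) :
    (A + y) ^ (m + 2) ≤ A ^ (m + 2) + (m + 2) * A ^ (m + 1) * y
      + 3 ^ (m + 2) * (θ ^ 2 * |A| ^ (m + 2) + |A'| ^ (m + 2) / θ ^ m) := by
  set M := θ ^ 2 * |A| ^ (m + 2) + |A'| ^ (m + 2) / θ ^ m with hM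
  have hM0 : 0 ≤ M := by positivity
  rw [add_comm A y, add_pow, Finset.sum_range_succ', Finset.sum_range_succ']
  have h3 : (3 : ℝ) ^ (m + 2)
      = ∑ j ∈ range (m + 2 + 1), (2 : ℝ) ^ j * 1 ^ (m + 2 - j) * ((m + 2).choose j : ℕ) := by
    rw [← add_pow]; norm_num
  have h4 : ∑ j ∈ range (m + 1), (2 : ℝ) ^ (j + 2) * ((m + 2).choose (j + 2) : ℕ)
      ≤ 3 ^ (m + 2) := by
    rw [h3, Finset.sum_range_succ' _ (m + 2), Finset.sum_range_succ' _ (m + 1)]
    simp only [one_pow, mul_one]
    have : (0 : ℝ) ≤ 2 ^ (0 + 1) * ((m + 2).choose (0 + 1) : ℕ) := by positivity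
    have : (0 : ℝ) ≤ 2 ^ 0 * ((m + 2).choose 0 : ℕ) := by positivity
    linarith
  have h5 : ∑ j ∈ range (m + 1),
      y ^ (j + 1 + 1) * A ^ (m + 2 - (j + 1 + 1)) * ((m + 2).choose (j + 1 + 1) : ℕ)
      ≤ 3 ^ (m + 2) * M := by
    refine le_trans ?_ (mul_le_mul_of_nonneg_right h4 hM0)
    rw [Finset.sum_mul]
    refine Finset.sum_le_sum fun j hj => ?_
    have hj' : j ≤ m := Nat.lt_succ_iff.mp (Finset.mem_range.mp hj)
    have e : m + 2 - (j + 1 + 1) = m - j := by omega
    rw [e]
    have h6 : y ^ (j + 2) * A ^ (m - j) ≤ 2 ^ (j + 2) * M := by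
      calc y ^ (j + 2) * A ^ (m - j) ≤ |y ^ (j + 2) * A ^ (m - j)| := le_abs_self _
        _ = |y| ^ (j + 2) * |A| ^ (m - j) := by rw [abs_mul, abs_pow, abs_pow]
        _ ≤ (2 * |A'|) ^ (j + 2) * |A| ^ (m - j) := by gcongr
        _ = 2 ^ (j + 2) * (|A'| ^ (j + 2) * |A| ^ (m - j)) := by ring
        _ ≤ 2 ^ (j + 2) * M := by
          gcongr
          exact mom_mixed (abs_nonneg _) (abs_nonneg _) hθ hθ1 hj'
    have h7 : (0 : ℝ) ≤ ((m + 2).choose (j + 2) : ℕ) := by positivity
    calc y ^ (j + 1 + 1) * A ^ (m - j) * ((m + 2).choose (j + 1 + 1) : ℕ)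
        ≤ 2 ^ (j + 2) * M * ((m + 2).choose (j + 2) : ℕ) := mul_le_mul_of_nonneg_right h6 h7
      _ = _ := by ring
  simp only [zero_add, pow_one, Nat.choose_one_right, pow_zero, Nat.sub_zero,
    Nat.choose_zero_right, Nat.cast_one, mul_one, one_mul] at h5 ⊢
  rw [show m + 2 - 1 = m + 1 by omega]
  push_cast at h5 ⊢
  linarith

section Gamma
variable {K : ℕ} {B : Type} [Fintype B] [DecidableEq B]

/-- local weights of the derivative in the variables of `ω` at the point `Y` -/
noncomputable def W (Y : Fin K × B → ℝ) (ω : Fin K → Option B) : Fin K × B → Bool → ℝ :=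
  fun v b => if ω v.1 = some v.2 then sg b / 2 else (1 + sg b * Y v) / 2

noncomputable def Gam (h : (Fin K × B → Bool) → ℝ) (Y : Fin K × B → ℝ)
    (a : (Fin K → Option B) → ℝ) : ℝ := ∑ ω, a ω * pf (W Y ω) h

def sz (ω : Fin K → Option B) : ℕ := (Finset.univ.filter fun i => ω i ≠ none).card

noncomputable def Psi (w : ℝ) (n : ℕ) (a : (Fin K → Option B) → ℝ) : ℝ :=
  ∑ ω, w ^ sz ω * |a ω| ^ n

lemma sum_reindex (i : Fin K) (u : B) (g : (Fin K → Option B) → ℝ) :
    ∑ ω : Fin K → Option B, (if ω i = some u then g ω else 0)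
      = ∑ ω : Fin K → Option B,
        (if ω i = none then g (Function.update ω i (some u)) else 0) := by
  rw [← Finset.sum_filter, ← Finset.sum_filter]
  refine Finset.sum_nbij' (fun ω => Function.update ω i none)
    (fun ω => Function.update ω i (some u)) ?_ ?_ ?_ ?_ ?_
  · intro ω _; simp
  · intro ω _; simp
  · intro ω hω
    simp only [Finset.mem_filter, Finset.mem_univ, true_and] at hω
    simp [← hω]
  · intro ω hω
    simp only [Finset.mem_filter, Finset.mem_univ, true_and] at hω
    simp [← hω]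
  · intro ω hω
    simp only [Finset.mem_filter, Finset.mem_univ, true_and] at hω
    simp [← hω]

omit [Fintype B] [DecidableEq B] in
lemma sz_update {ω : Fin K → Option B} {i : Fin K} (h : ω i = none) (u : B) :
    sz (Function.update ω i (some u)) = sz ω + 1 := by
  unfold sz
  have : (Finset.univ.filter fun j => Function.update ω i (some u) j ≠ none)
      = insert i (Finset.univ.filter fun j => ω j ≠ none) := by
    ext j
    by_cases hj : j = i
    · subst hj; simp
    · simp [hj]
  rw [this, Finset.card_insert_of_notMem]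
  simp [h]

lemma W_update_not {Y : Fin K × B → ℝ} {ω : Fin K → Option B} {v : Fin K × B}
    (h : ω v.1 ≠ some v.2) (b : Bool) :
    Function.update (W Y ω) v (dl b) = W (Function.update Y v (sg b)) ω := by
  funext v' b'
  by_cases hv : v' = v
  · subst hv
    simp only [Function.update_self, W, h, if_false, dl]
    cases b <;> cases b' <;> simp <;> norm_num
  · simp [W, Function.update_of_ne hv]

lemma W_update_mem {Y : Fin K × B → ℝ} {ω : Fin K → Option B} {v : Fin K × B}
    (h : ω v.1 = none) (b : Bool) :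
    Function.update (W Y (Function.update ω v.1 (some v.2))) v (dl b)
      = W (Function.update Y v (sg b)) ω := by
  funext v' b'
  by_cases hv : v' = v
  · subst hv
    simp only [Function.update_self, W, h, dl]
    cases b <;> cases b' <;> simp <;> norm_num
  · simp only [W, Function.update_of_ne hv]
    by_cases h1 : v'.1 = v.1
    · have h2 : v.2 ≠ v'.2 := fun h2 => hv (Prod.ext h1 h2.symm)
      simp [h1, h, h2]
    · simp [Function.update_of_ne h1]

lemma pf_W_const (Y : Fin K × B → ℝ) (ω : Fin K → Option B) (β : ℝ) :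
    pf (W Y ω) (fun _ => β) = if ω = fun _ => none then β else 0 := by
  rw [pf_const]
  split_ifs with h
  · subst h
    rw [Finset.prod_eq_one, mul_one]
    intro v _
    simp [W]; ring
  · obtain ⟨i, hi⟩ := Function.ne_iff.mp h
    obtain ⟨u, hu⟩ := Option.ne_none_iff_exists'.mp hi
    rw [Finset.prod_eq_zero (Finset.mem_univ (i, u)), mul_zero]
    simp [W, hu]; ring

lemma Gam_bound_aux {θ τ : ℝ} (hθ : 0 < θ) (hθ1 : θ ≤ 1) (hτ : 0 < τ) (m : ℕ) (hm : Even m)
    {d : ℕ} {h : (Fin K × B → Bool) → ℝ} (hh : DT U01 d h) :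
    ∀ (Y : Fin K × B → ℝ) (a : (Fin K → Option B) → ℝ),
      (∀ v, |Y v| ≤ 1 / 2 ∨ ((∃ b, Y v = sg b) ∧ ∀ ω, ω v.1 = some v.2 → a ω = 0)) →
      |Gam h Y a| ≤ τ + (1 + 2 * (3 ^ (m + 2) * θ ^ 2)) ^ d
        * Psi (1 / θ ^ (m + 2)) (m + 2) a / τ ^ (m + 1) := by
  set η : ℝ := 3 ^ (m + 2) * θ ^ 2 with hη
  set w : ℝ := 1 / θ ^ (m + 2) with hw
  have hη0 : 0 ≤ η := by positivity
  have hw0 : 0 < w := by positivity
  have hPsi : ∀ a : (Fin K → Option B) → ℝ, 0 ≤ Psi w (m + 2) a := fun a =>
    Finset.sum_nonneg fun ω _ => by positivity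
  induction hh with
  | const d β hβ =>
    intro Y a _
    have e : Gam (fun _ => β) Y a = a (fun _ => none) * β := by
      unfold Gam
      simp only [pf_W_const]
      rw [Finset.sum_eq_single (fun _ => none)]
      · simp
      · intro ω _ hω; simp [hω]
      · simp
    rw [e, abs_mul, abs_of_nonneg hβ.1]
    have h1 : |a fun _ => none| ^ (m + 2) ≤ Psi w (m + 2) a := by
      have := Finset.single_le_sum (f := fun ω => w ^ sz ω * |a ω| ^ (m + 2))
        (fun ω _ => by positivity) (Finset.mem_univ (fun _ => none))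
      have e0 : sz (fun _ => none : Fin K → Option B) = 0 := by simp [sz]
      simp only [e0, pow_zero, one_mul] at this
      exact this
    have h2 : (1 : ℝ) ≤ (1 + 2 * η) ^ d := one_le_pow₀ (by linarith)
    have h3 : |a fun _ => none| ≤ τ + |a fun _ => none| ^ (m + 2) / τ ^ (m + 1) := by
      by_cases hc : |a fun _ => none| ≤ τ
      · have : 0 ≤ |a fun _ => none| ^ (m + 2) / τ ^ (m + 1) := by positivity
        linarith
      · push Not at hc
        have : |a fun _ => none| ≤ |a fun _ => none| ^ (m + 2) / τ ^ (m + 1) := by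
          rw [le_div_iff₀ (by positivity), pow_succ' _ (m + 1)]
          gcongr
        linarith
    have h4 : |a fun _ => none| ^ (m + 2) / τ ^ (m + 1)
        ≤ (1 + 2 * η) ^ d * Psi w (m + 2) a / τ ^ (m + 1) := by
      gcongr
      nlinarith [hPsi a]
    nlinarith [abs_nonneg (a fun _ => none), hβ.2]
  | read d v f₀ f₁ _ _ ih₀ ih₁ =>
    intro Y a hinv
    set f : Bool → (Fin K × B → Bool) → ℝ := fun b => if b then f₁ else f₀ with hf
    have ih : ∀ b (Y : Fin K × B → ℝ) (a : (Fin K → Option B) → ℝ),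
        (∀ v, |Y v| ≤ 1 / 2 ∨ ((∃ b, Y v = sg b) ∧ ∀ ω, ω v.1 = some v.2 → a ω = 0)) →
        |Gam (f b) Y a| ≤ τ + (1 + 2 * η) ^ d * Psi w (m + 2) a / τ ^ (m + 1) := by
      intro b; cases b
      · exact ih₀
      · exact ih₁
    have hsplit : ∀ ω, pf (W Y ω) (fun x => if x v then f₁ x else f₀ x)
        = ∑ b, W Y ω v b * pf (Function.update (W Y ω) v (dl b)) (f b) := by
      intro ω
      rw [← pf_split]
      congr 1; funext y; simp only [hf]; split_ifs <;> rfl
    rcases hinv v with hY | ⟨⟨b₀, hb₀⟩, ha⟩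
    · -- a fresh variable
      set P : Bool → ℝ := fun b => (1 + sg b * Y v) / 2 with hP
      have hP4 : ∀ b, 1 / 4 ≤ P b := by
        intro b; have := abs_le.mp hY
        cases b <;> simp only [hP, sg_true, sg_false] <;> linarith
      have hPpos : ∀ b, 0 < P b := fun b => lt_of_lt_of_le (by norm_num) (hP4 b)
      have hPsum : P true + P false = 1 := by simp only [hP, sg_true, sg_false]; ring
      set φ : Bool → ℝ := fun b => sg b / (2 * P b) with hφ
      have hφ2 : ∀ b, |φ b| ≤ 2 := by
        intro b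
        simp only [hφ]
        rw [abs_div, abs_sg, abs_of_pos (by linarith [hPpos b]),
          div_le_iff₀ (by linarith [hPpos b])]
        linarith [hP4 b]
      have hPφ : ∀ b, P b * φ b = sg b / 2 := by
        intro b; simp only [hφ]; have := (hPpos b).ne'; field_simp
      set a' : Bool → (Fin K → Option B) → ℝ := fun b ω =>
        if ω v.1 = some v.2 then 0 else a ω +
          (if ω v.1 = none then φ b * a (Function.update ω v.1 (some v.2)) else 0) with ha'
      have hG : Gam (fun x => if x v then f₁ x else f₀ x) Y a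
          = ∑ b, P b * Gam (f b) (Function.update Y v (sg b)) (a' b) := by
        unfold Gam
        simp only [hsplit, Finset.mul_sum]
        rw [Finset.sum_comm]
        refine Finset.sum_congr rfl fun b _ => ?_
        have e1 : ∀ ω, a ω * (W Y ω v b * pf (Function.update (W Y ω) v (dl b)) (f b))
            = (if ω v.1 = some v.2 then
                a ω * (sg b / 2 * pf (Function.update (W Y ω) v (dl b)) (f b)) else 0)
              + (if ω v.1 = some v.2 then 0 else
                a ω * (P b * pf (W (Function.update Y v (sg b)) ω) (f b))) := by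
          intro ω
          split_ifs with hω
          · simp [W, hω]
          · rw [W_update_not hω]; simp [W, hω, hP]
        simp only [e1, Finset.sum_add_distrib]
        rw [sum_reindex, ← Finset.sum_add_distrib]
        refine Finset.sum_congr rfl fun ω _ => ?_
        simp only [ha']
        by_cases h1 : ω v.1 = none
        · have h2 : ω v.1 ≠ some v.2 := by simp [h1]
          rw [if_pos h1, if_neg h2, if_neg h2, if_pos h1, W_update_mem h1, ← hPφ]; ring
        · rw [if_neg h1, if_neg h1]
          split_ifs <;> ring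
      have hinv' : ∀ b v', |Function.update Y v (sg b) v'| ≤ 1 / 2 ∨
          ((∃ b', Function.update Y v (sg b) v' = sg b') ∧
            ∀ ω, ω v'.1 = some v'.2 → a' b ω = 0) := by
        intro b v'
        by_cases hv : v' = v
        · subst hv
          exact Or.inr ⟨⟨b, by simp⟩, fun ω hω => by simp [ha', hω]⟩
        · rw [Function.update_of_ne hv]
          rcases hinv v' with h1 | ⟨h1, h2⟩
          · exact Or.inl h1
          · refine Or.inr ⟨h1, fun ω hω => ?_⟩
            simp only [ha']
            split_ifs with h3 h4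
            · rfl
            · have h5 : v'.1 ≠ v.1 := by
                intro h5; rw [h5, h4] at hω; cases hω
              rw [h2 ω hω, h2 _ (by rw [Function.update_of_ne h5]; exact hω)]; simp
            · rw [h2 ω hω]; simp
      have hpot : ∑ b, P b * Psi w (m + 2) (a' b) ≤ (1 + 2 * η) * Psi w (m + 2) a := by
        have hev : Even (m + 2) := hm.add even_two
        have e1 : ∀ ω, ∑ b, P b * (w ^ sz ω * |a' b ω| ^ (m + 2))
            ≤ (1 + η) * (w ^ sz ω * |a ω| ^ (m + 2))
              + η * (if ω v.1 = none then w ^ sz (Function.update ω v.1 (some v.2))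
                  * |a (Function.update ω v.1 (some v.2))| ^ (m + 2) else 0) := by
          intro ω
          have hws : 0 ≤ w ^ sz ω := by positivity
          have hA : 0 ≤ |a ω| ^ (m + 2) := by positivity
          simp only [Fintype.sum_bool, ha']
          by_cases h1 : ω v.1 = none
          · have h2 : ω v.1 ≠ some v.2 := by simp [h1]
            simp only [if_neg h2, if_pos h1, sz_update h1]
            set A := a ω
            set A' := a (Function.update ω v.1 (some v.2))
            have k : ∀ b, |A + φ b * A'| ^ (m + 2) ≤ |A| ^ (m + 2)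
                + (m + 2) * A ^ (m + 1) * (φ b * A')
                + 3 ^ (m + 2) * (θ ^ 2 * |A| ^ (m + 2) + |A'| ^ (m + 2) / θ ^ m) := by
              intro b
              have := mom_point (A := A) (A' := A') (y := φ b * A') hθ hθ1
                (by rw [abs_mul]; exact mul_le_mul_of_nonneg_right (hφ2 b) (abs_nonneg _)) m
              rw [hev.pow_abs (A + φ b * A'), hev.pow_abs A]
              rw [hev.pow_abs A] at this
              exact this
            have k2 : P true * |A + φ true * A'| ^ (m + 2) + P false * |A + φ false * A'| ^ (m + 2)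
                ≤ (1 + η) * |A| ^ (m + 2) + η * (w * |A'| ^ (m + 2)) := by
              have e3 : η * (w * |A'| ^ (m + 2)) = 3 ^ (m + 2) * (|A'| ^ (m + 2) / θ ^ m) := by
                simp only [hη, hw]; field_simp; ring
              have e4 : P true * φ true + P false * φ false = 0 := by
                rw [hPφ, hPφ]; simp; ring
              have k3 := mul_le_mul_of_nonneg_left (k true) (hPpos true).le
              have k4 := mul_le_mul_of_nonneg_left (k false) (hPpos false).le
              have e5 : P true * (|A| ^ (m + 2) + (m + 2) * A ^ (m + 1) * (φ true * A')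
                  + 3 ^ (m + 2) * (θ ^ 2 * |A| ^ (m + 2) + |A'| ^ (m + 2) / θ ^ m))
                  + P false * (|A| ^ (m + 2) + (m + 2) * A ^ (m + 1) * (φ false * A')
                  + 3 ^ (m + 2) * (θ ^ 2 * |A| ^ (m + 2) + |A'| ^ (m + 2) / θ ^ m))
                  = (P true + P false) * (|A| ^ (m + 2)
                  + 3 ^ (m + 2) * (θ ^ 2 * |A| ^ (m + 2) + |A'| ^ (m + 2) / θ ^ m))
                  + (m + 2) * A ^ (m + 1) * A' * (P true * φ true + P false * φ false) := by
                ring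
              rw [e3, hη]
              rw [hPsum, e4] at e5
              linarith
            have := mul_le_mul_of_nonneg_left k2 hws
            rw [pow_succ w (sz ω)]
            linarith
          · simp only [if_neg h1, add_zero, mul_zero]
            split_ifs
            · simp only [abs_zero, ne_eq, Nat.add_eq_zero_iff, OfNat.ofNat_ne_zero, and_false,
                not_false_eq_true, zero_pow, mul_zero, add_zero]
              positivity
            · have : 0 ≤ η * (w ^ sz ω * |a ω| ^ (m + 2)) := by positivity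
              rw [← add_mul, hPsum]
              linarith
        unfold Psi
        simp only [Finset.mul_sum]
        rw [Finset.sum_comm]
        refine (Finset.sum_le_sum fun ω _ => e1 ω).trans ?_
        rw [Finset.sum_add_distrib, ← Finset.mul_sum, ← Finset.mul_sum,
          ← sum_reindex v.1 v.2 (fun ω => w ^ sz ω * |a ω| ^ (m + 2)), ← Finset.mul_sum]
        have : ∑ ω : Fin K → Option B,
            (if ω v.1 = some v.2 then w ^ sz ω * |a ω| ^ (m + 2) else 0)
            ≤ ∑ ω : Fin K → Option B, w ^ sz ω * |a ω| ^ (m + 2) := by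
          refine Finset.sum_le_sum fun ω _ => ?_
          split_ifs
          · exact le_rfl
          · positivity
        nlinarith
      rw [hG]
      have hc : 0 ≤ (1 + 2 * η) ^ d / τ ^ (m + 1) := by positivity
      calc |∑ b, P b * Gam (f b) (Function.update Y v (sg b)) (a' b)|
          ≤ ∑ b, P b * (τ + (1 + 2 * η) ^ d * Psi w (m + 2) (a' b) / τ ^ (m + 1)) := by
            refine (Finset.abs_sum_le_sum_abs _ _).trans (Finset.sum_le_sum fun b _ => ?_)
            rw [abs_mul, abs_of_pos (hPpos b)]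
            exact mul_le_mul_of_nonneg_left (ih b _ _ (hinv' b)) (hPpos b).le
        _ = τ + (1 + 2 * η) ^ d / τ ^ (m + 1) * ∑ b, P b * Psi w (m + 2) (a' b) := by
            simp only [Fintype.sum_bool]
            linear_combination τ * hPsum
        _ ≤ τ + (1 + 2 * η) ^ d / τ ^ (m + 1) * ((1 + 2 * η) * Psi w (m + 2) a) := by gcongr
        _ = _ := by ring
    · -- a variable read before
      have hG : Gam (fun x => if x v then f₁ x else f₀ x) Y a = Gam (f b₀) Y a := by
        unfold Gam
        refine Finset.sum_congr rfl fun ω _ => ?_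
        by_cases hω : ω v.1 = some v.2
        · simp [ha ω hω]
        · rw [hsplit, Finset.sum_eq_single b₀, W_update_not hω, ← hb₀, Function.update_eq_self]
          · simp only [W, hω, if_false, hb₀, sg_mul_self]; ring
          · intro b _ hb
            have : W Y ω v b = 0 := by
              simp only [W, hω, if_false, hb₀]
              revert hb; cases b <;> cases b₀ <;> simp
            rw [this, zero_mul]
          · simp
      rw [hG]
      refine (ih b₀ Y a hinv).trans ?_
      have : (1 + 2 * η) ^ d ≤ (1 + 2 * η) ^ (d + 1) :=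
        pow_le_pow_right₀ (by linarith) (by omega)
      have := hPsi a
      gcongr

/-- the level-`K` bound -/
theorem gamma_bound (hK : 1 ≤ K) [Nonempty B] {d : ℕ} (hd : 1 ≤ d)
    {h : (Fin K × B → Bool) → ℝ} (hh : DT U01 d h) (Y : Fin K × B → ℝ)
    (hY : ∀ v, |Y v| ≤ 1 / 2) (ε : (Fin K → B) → ℝ) (hε : ∀ u, |ε u| ≤ 1) :
    |∑ u, ε u * pf (W Y (fun i => some (u i))) h|
      ≤ 10 * Real.sqrt ((9 ^ K * d) ^ K * Fintype.card B) := by
  obtain ⟨k, rfl⟩ : ∃ k, K = k + 1 := ⟨K - 1, by omega⟩
  set e : (Fin (k + 1) → B) → (Fin (k + 1) → Option B) := fun u i => some (u i) with he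
  have hinj : Function.Injective e := by
    intro u u' huu
    funext i
    exact Option.some.inj (congrFun huu i)
  set a : (Fin (k + 1) → Option B) → ℝ := Function.extend e ε 0 with ha
  have hae : ∀ u, a (e u) = ε u := fun u => hinj.extend_apply _ _ _
  have ha0 : ∀ ω, ω ∉ Set.range e → a ω = 0 := fun ω hω =>
    Function.extend_apply' _ _ _ (by simpa using hω)
  have hd' : (1 : ℝ) ≤ d := by exact_mod_cast hd
  set D : ℝ := 9 ^ (k + 1) * d with hD
  have hD1 : 1 ≤ D := by
    have : (1 : ℝ) ≤ 9 ^ (k + 1) := one_le_pow₀ (by norm_num)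
    nlinarith
  set θ : ℝ := 1 / Real.sqrt D with hθ
  have hsD : 1 ≤ Real.sqrt D := Real.one_le_sqrt.mpr hD1
  have hθ0 : 0 < θ := by positivity
  have hθ1 : θ ≤ 1 := by rw [hθ, div_le_one (by linarith)]; exact hsD
  have hθ2 : θ ^ 2 = 1 / D := by rw [hθ, div_pow, Real.sq_sqrt (by linarith), one_pow]
  have hN : (0 : ℝ) < Fintype.card B := by exact_mod_cast Fintype.card_pos
  set τ : ℝ := Real.sqrt (D ^ (k + 1) * Fintype.card B) with hτ
  have hτ0 : 0 < τ := Real.sqrt_pos.mpr (by positivity)
  have hb := Gam_bound_aux hθ0 hθ1 hτ0 (2 * k) (even_two_mul k) hh Y a (fun v => Or.inl (hY v))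
  have e1 : Gam h Y a = ∑ u, ε u * pf (W Y (e u)) h := by
    unfold Gam
    symm
    refine Fintype.sum_of_injective e hinj _ _ (fun ω hω => by rw [ha0 ω hω, zero_mul])
      fun u => by rw [hae]
  have e2 : (1 : ℝ) / θ ^ (2 * k + 2) = D ^ (k + 1) := by
    rw [show 2 * k + 2 = 2 * (k + 1) by ring, pow_mul, hθ2, div_pow, one_pow, one_div_one_div]
  have e3 : (3 : ℝ) ^ (2 * k + 2) * θ ^ 2 = 1 / d := by
    rw [hθ2, show 2 * k + 2 = 2 * (k + 1) by ring, pow_mul, hD]
    norm_num; field_simp
  have e4 : Psi (D ^ (k + 1)) (2 * k + 2) a ≤ τ ^ (2 * k + 2) := by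
    have : Psi (D ^ (k + 1)) (2 * k + 2) a
        = ∑ u, (D ^ (k + 1)) ^ (k + 1) * |ε u| ^ (2 * k + 2) := by
      unfold Psi
      symm
      refine Fintype.sum_of_injective e hinj _ _ (fun ω hω => by rw [ha0 ω hω]; simp)
        fun u => ?_
      rw [hae]; simp [sz, he]
    rw [this, show 2 * k + 2 = 2 * (k + 1) by ring, pow_mul τ, hτ,
      Real.sq_sqrt (by positivity), mul_pow (D ^ (k + 1))]
    calc ∑ u : Fin (k + 1) → B, (D ^ (k + 1)) ^ (k + 1) * |ε u| ^ (2 * (k + 1))
        ≤ ∑ _u : Fin (k + 1) → B, (D ^ (k + 1)) ^ (k + 1) * 1 := by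
          refine Finset.sum_le_sum fun u _ => ?_
          have := pow_le_one₀ (abs_nonneg (ε u)) (hε u) (n := 2 * (k + 1))
          gcongr
      _ = _ := by simp [mul_comm]
  have e5 : (1 + 2 * (1 / d : ℝ)) ^ d ≤ 9 := by
    calc (1 + 2 * (1 / d : ℝ)) ^ d ≤ (Real.exp (2 * (1 / d))) ^ d := by
          gcongr
          linarith [Real.add_one_le_exp (2 * (1 / d : ℝ))]
      _ = Real.exp 1 ^ 2 := by
          rw [← Real.exp_nat_mul, ← Real.exp_nat_mul]; congr 1; field_simp; norm_num
      _ ≤ 9 := by
          have := Real.exp_one_lt_three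
          have := Real.exp_pos 1
          nlinarith
  rw [e1, e2, e3] at hb
  refine hb.trans ?_
  have : (1 + 2 * (1 / d : ℝ)) ^ d * Psi (D ^ (k + 1)) (2 * k + 2) a / τ ^ (2 * k + 1)
      ≤ 9 * τ := by
    rw [div_le_iff₀ (by positivity)]
    have hP : 0 ≤ Psi (D ^ (k + 1)) (2 * k + 2) a :=
      Finset.sum_nonneg fun ω _ => by positivity
    calc _ ≤ 9 * τ ^ (2 * k + 2) := by gcongr
      _ = _ := by ring
  linarith

end Gamma

end Crest.Agent.Lead.QQ
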