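import Crest.Agent.Lead.QQGamma

/-! Gaussian expectations of polynomials: Stein identity, derivative in a parameter, tail bound. -/

set_option autoImplicit false
open Finset MeasureTheory ProbabilityTheory MvPolynomial

namespace Crest.Agent.Lead.QQ

noncomputable def gm (n : ℕ) : ℝ := ∫ x, x ^ n ∂(gaussianReal 0 1)

lemma gm_int (n : ℕ) : Integrable (fun x : ℝ => x ^ n) (gaussianReal 0 1) :=
  integrable_pow_of_mem_interior_integrableExpSet (X := fun x : ℝ => x) (by simp) n

lemma iter_exp (n : ℕ) :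
    iteratedDeriv (n + 1) (fun t : ℝ => Real.exp (t ^ 2 / 2)) = fun t =>
      t * iteratedDeriv n (fun t : ℝ => Real.exp (t ^ 2 / 2)) t
        + n * iteratedDeriv (n - 1) (fun t : ℝ => Real.exp (t ^ 2 / 2)) t := by
  set f : ℝ → ℝ := fun t => Real.exp (t ^ 2 / 2) with hf
  have hcd : ∀ k : ℕ, Differentiable ℝ (iteratedDeriv k f) := by
    intro k
    have : ContDiff ℝ (k + 1 : ℕ) f := by rw [hf]; fun_prop
    exact this.differentiable_iteratedDeriv k (by exact_mod_cast Nat.lt_succ_self k)
  induction n with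
  | zero =>
    funext t
    simp only [zero_add, iteratedDeriv_one, iteratedDeriv_zero, Nat.cast_zero, zero_mul, add_zero]
    have : HasDerivAt f (Real.exp (t ^ 2 / 2) * (2 * t / 2)) t := by
      have h1 : HasDerivAt (fun t : ℝ => t ^ 2 / 2) (2 * t / 2) t := by
        simpa using (hasDerivAt_pow 2 t).div_const 2
      exact h1.exp
    rw [this.deriv, hf]; ring
  | succ n ih =>
    funext t
    have h1 : HasDerivAt (fun t => t * iteratedDeriv n f t + n * iteratedDeriv (n - 1) f t)
        (1 * iteratedDeriv n f t + t * deriv (iteratedDeriv n f) t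
          + n * deriv (iteratedDeriv (n - 1) f) t) t :=
      ((hasDerivAt_id t).mul (hcd n t).hasDerivAt).add
        (((hcd (n - 1)) t).hasDerivAt.const_mul (n : ℝ))
    rw [← ih] at h1
    rw [iteratedDeriv_succ, h1.deriv, ← iteratedDeriv_succ, ← iteratedDeriv_succ]
    cases n with
    | zero => simp; ring
    | succ n => simp; ring

lemma gm_succ (n : ℕ) : gm (n + 1) = n * gm (n - 1) := by
  have h : ∀ k, gm k = iteratedDeriv k (fun t : ℝ => Real.exp (t ^ 2 / 2)) 0 := by
    intro k
    have := iteratedDeriv_mgf_zero (X := fun x : ℝ => x) (μ := gaussianReal 0 1) (by simp) k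
    rw [mgf_fun_id_gaussianReal] at this
    simp only [zero_mul, NNReal.coe_one, one_mul, zero_add] at this
    rw [this]; rfl
  rw [h, h, iter_exp]; simp

section E
variable {J : Type} [Fintype J] [DecidableEq J]

/-- the standard Gaussian product law -/
noncomputable abbrev gam (J : Type) [Fintype J] : Measure (J → ℝ) :=
  Measure.pi (fun _ => gaussianReal 0 1)

/-- evaluation: the variable `none` is the parameter `t` -/
noncomputable def ev (t : ℝ) (w : J → ℝ) : MvPolynomial (Option J) ℝ →+* ℝ :=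
  MvPolynomial.eval (fun o => o.elim t w)

noncomputable def EE (t : ℝ) (p : MvPolynomial (Option J) ℝ) : ℝ := ∫ w, ev t w p ∂(gam J)

omit [DecidableEq J] in
lemma ev_monomial (t : ℝ) (w : J → ℝ) (d : Option J →₀ ℕ) (a : ℝ) :
    ev t w (monomial d a) = a * t ^ d none * ∏ j, w j ^ d (some j) := by
  unfold ev
  rw [MvPolynomial.eval_monomial, Finsupp.prod_fintype _ _ (by simp), Fintype.prod_option]
  simp [mul_assoc]

omit [DecidableEq J] in
lemma ev_int (t : ℝ) (p : MvPolynomial (Option J) ℝ) :
    Integrable (fun w => ev t w p) (gam J) := by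
  induction p using MvPolynomial.induction_on' with
  | monomial d a =>
    simp only [ev_monomial]
    exact (Integrable.fintype_prod (f := fun j (x : ℝ) => x ^ d (some j))
      fun j => gm_int _).const_mul _
  | add p q hp hq => simp only [map_add]; exact hp.add hq

omit [DecidableEq J] in
lemma EE_monomial (t : ℝ) (d : Option J →₀ ℕ) (a : ℝ) :
    EE t (monomial d a) = a * t ^ d none * ∏ j, gm (d (some j)) := by
  unfold EE
  simp only [ev_monomial]
  rw [integral_const_mul, integral_fintype_prod_eq_prod (fun j (x : ℝ) => x ^ d (some j))]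
  rfl

omit [DecidableEq J] in
lemma EE_add (t : ℝ) (p q : MvPolynomial (Option J) ℝ) : EE t (p + q) = EE t p + EE t q := by
  unfold EE; simp only [map_add]; exact integral_add (ev_int t p) (ev_int t q)

omit [DecidableEq J] in
lemma EE_C_mul (t a : ℝ) (p : MvPolynomial (Option J) ℝ) : EE t (C a * p) = a * EE t p := by
  unfold EE; simp only [map_mul, ev, eval_C]; exact integral_const_mul _ _

omit [DecidableEq J] in
lemma EE_sum {A : Type} (s : Finset A) (t : ℝ) (p : A → MvPolynomial (Option J) ℝ) :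
    EE t (∑ a ∈ s, p a) = ∑ a ∈ s, EE t (p a) := by
  unfold EE; simp only [map_sum]; exact integral_finsetSum _ fun a _ => ev_int t _

lemma EE_stein (t : ℝ) (j : J) (p : MvPolynomial (Option J) ℝ) :
    EE t (X (some j) * p) = EE t (pderiv (some j) p) := by
  induction p using MvPolynomial.induction_on' with
  | monomial d a =>
    have e : X (some j) * monomial d a = monomial (Finsupp.single (some j) 1 + d) a := by
      rw [monomial_single_add, pow_one]
    rw [e, pderiv_monomial, EE_monomial, EE_monomial,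
      ← Finset.mul_prod_erase _ _ (Finset.mem_univ j),
      ← Finset.mul_prod_erase _ _ (Finset.mem_univ j)]
    have e1 : ∏ x ∈ univ.erase j, gm ((Finsupp.single (some j) 1 + d : Option J →₀ ℕ) (some x))
        = ∏ x ∈ univ.erase j, gm (d (some x)) := by
      refine Finset.prod_congr rfl fun x hx => ?_
      have : x ≠ j := Finset.ne_of_mem_erase hx
      simp [this.symm]
    have e2 : ∏ x ∈ univ.erase j, gm ((d - Finsupp.single (some j) 1 : Option J →₀ ℕ) (some x))
        = ∏ x ∈ univ.erase j, gm (d (some x)) := by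
      refine Finset.prod_congr rfl fun x hx => ?_
      have : x ≠ j := Finset.ne_of_mem_erase hx
      simp [this.symm]
    rw [e1, e2]
    simp only [Finsupp.coe_add, Pi.add_apply, Finsupp.single_eq_same, Finsupp.coe_tsub,
      Pi.sub_apply]
    rw [add_comm 1, gm_succ]
    simp [Finsupp.single_apply]; ring
  | add p q hp hq => rw [mul_add, map_add, EE_add, EE_add, hp, hq]

lemma EE_hasDerivAt (t : ℝ) (p : MvPolynomial (Option J) ℝ) :
    HasDerivAt (fun t => EE t p) (EE t (pderiv none p)) t := by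
  induction p using MvPolynomial.induction_on' with
  | monomial d a =>
    simp only [pderiv_monomial, EE_monomial]
    have := ((hasDerivAt_pow (d none) t).const_mul a).mul_const (∏ j, gm (d (some j)))
    refine this.congr_deriv ?_
    have e : ∀ j, (d - Finsupp.single none 1 : Option J →₀ ℕ) (some j) = d (some j) := by
      intro j; simp
    have e' : (d - Finsupp.single none 1 : Option J →₀ ℕ) none = d none - 1 := by simp
    simp only [e, e']; ring
  | add p q hp hq =>
    simp only [map_add, EE_add]; exact hp.add hq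

omit [DecidableEq J] in
lemma exp_lin_int (c : J → ℝ) :
    Integrable (fun w : J → ℝ => Real.exp (∑ j, c j * w j)) (gam J) := by
  simp only [Real.exp_sum]
  exact Integrable.fintype_prod (f := fun j (x : ℝ) => Real.exp (c j * x))
    fun j => integrable_exp_mul_gaussianReal _

omit [DecidableEq J] in
lemma exp_lin_integral (c : J → ℝ) :
    ∫ w, Real.exp (∑ j, c j * w j) ∂(gam J) = Real.exp ((∑ j, c j ^ 2) / 2) := by
  simp only [Real.exp_sum]
  rw [integral_fintype_prod_eq_prod (fun j (x : ℝ) => Real.exp (c j * x)), Finset.sum_div,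
    Real.exp_sum]
  refine Finset.prod_congr rfl fun j _ => ?_
  have := congrFun (mgf_fun_id_gaussianReal (μ := 0) (v := 1)) (c j)
  simpa [mgf] using this

/-- the three-term majorant -/
noncomputable def Lam {A : Type} [Fintype A] (g : A → J → ℝ) (lam th : ℝ) (w : J → ℝ) : ℝ :=
  ∏ α, (1 + Real.exp (lam * (∑ j, g α j * w j) - th) + Real.exp (-(lam * ∑ j, g α j * w j) - th))

def so : Option Bool → ℝ := fun o => o.elim 0 sg

omit [DecidableEq J] in
lemma Lam_eq {A : Type} [Fintype A] [DecidableEq A] (g : A → J → ℝ) (lam th : ℝ) (w : J → ℝ) :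
    Lam g lam th w = ∑ β : A → Option Bool, Real.exp (-th * ∑ α, so (β α) ^ 2)
      * Real.exp (∑ j, (lam * ∑ α, so (β α) * g α j) * w j) := by
  have h : ∀ α, 1 + Real.exp (lam * (∑ j, g α j * w j) - th)
      + Real.exp (-(lam * ∑ j, g α j * w j) - th)
      = ∑ o : Option Bool, Real.exp (-th * so o ^ 2 + lam * (so o * ∑ j, g α j * w j)) := by
    intro α
    simp only [Fintype.sum_option, Fintype.sum_bool, so, Option.elim, sg_true, sg_false]
    simp only [ne_eq, OfNat.ofNat_ne_zero, not_false_eq_true, zero_pow, mul_zero, zero_mul,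
      add_zero, Real.exp_zero, even_two, Even.neg_pow, one_pow, mul_one, neg_mul, one_mul, mul_neg]
    rw [add_assoc, add_comm (Real.exp _)]
    congr 3 <;> ring
  unfold Lam
  simp only [h]
  rw [Finset.prod_univ_sum, Fintype.piFinset_univ]
  refine Finset.sum_congr rfl fun β _ => ?_
  rw [← Real.exp_sum, ← Real.exp_add, Finset.sum_add_distrib, ← Finset.mul_sum]
  congr 2
  simp only [Finset.mul_sum, Finset.sum_mul]
  rw [Finset.sum_comm]
  refine Finset.sum_congr rfl fun _ _ => Finset.sum_congr rfl fun _ _ => by ring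

omit [DecidableEq J] in
lemma Lam_int {A : Type} [Fintype A] [DecidableEq A] (g : A → J → ℝ) (lam th : ℝ) :
    Integrable (Lam g lam th) (gam J) := by
  have : Lam g lam th = _ := funext (Lam_eq g lam th)
  rw [this]
  exact integrable_finsetSum _ fun β _ => (exp_lin_int _).const_mul _

omit [DecidableEq J] in
lemma Lam_integral {A : Type} [Fintype A] [DecidableEq A] (g : A → J → ℝ) (lam th s2 : ℝ)
    (hg : ∀ s : A → ℝ, ∑ j, (∑ α, s α * g α j) ^ 2 ≤ 2 * s2 * ∑ α, s α ^ 2) :
    ∫ w, Lam g lam th w ∂(gam J) ≤ (1 + 2 * Real.exp (lam ^ 2 * s2 - th)) ^ Fintype.card A := by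
  simp only [Lam_eq]
  rw [integral_finsetSum _ fun β _ => (exp_lin_int _).const_mul _]
  simp only [integral_const_mul, exp_lin_integral]
  have e : (1 + 2 * Real.exp (lam ^ 2 * s2 - th)) ^ Fintype.card A
      = ∑ β : A → Option Bool, ∏ α, Real.exp ((lam ^ 2 * s2 - th) * so (β α) ^ 2) := by
    rw [← Fintype.piFinset_univ, ← Finset.prod_univ_sum (fun _ => Finset.univ)
      (fun _ o => Real.exp ((lam ^ 2 * s2 - th) * so o ^ 2))]
    simp [so, Fintype.sum_option, two_mul]
  rw [e]
  refine Finset.sum_le_sum fun β _ => ?_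
  rw [← Real.exp_sum, ← Real.exp_add, ← Finset.mul_sum]
  refine Real.exp_le_exp.mpr ?_
  simp only [mul_pow]
  rw [← Finset.mul_sum]
  have := mul_le_mul_of_nonneg_left (hg fun α => so (β α)) (sq_nonneg lam)
  nlinarith

end E

/-- `mx s = max 1 (2|s|)` -/
noncomputable def mx (s : ℝ) : ℝ := max 1 (2 * |s|)

lemma one_le_mx (s : ℝ) : 1 ≤ mx s := le_max_left _ _

lemma mx_mul (a b : ℝ) : mx (a * b) ≤ mx a * mx b := by
  have h1 := one_le_mx a
  have h2 := one_le_mx b
  have h3 : 2 * |a| ≤ mx a := le_max_right _ _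
  have h4 : 2 * |b| ≤ mx b := le_max_right _ _
  refine max_le (by nlinarith) ?_
  rw [abs_mul]
  nlinarith [abs_nonneg a, abs_nonneg b, mul_nonneg (abs_nonneg a) (abs_nonneg b),
    mul_le_mul h3 h4 (by positivity) (by linarith)]

lemma mx_mul_le {t : ℝ} (ht : |t| ≤ 1) (b : ℝ) : mx (t * b) ≤ mx b := by
  unfold mx
  refine max_le_max le_rfl ?_
  rw [abs_mul]; nlinarith [abs_nonneg b]

lemma mx_le_exp {lam : ℝ} (hl : 2 ≤ lam) (s : ℝ) :
    mx s ≤ 1 + Real.exp (lam * s - lam / 2) + Real.exp (-(lam * s) - lam / 2) := by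
  have h1 := Real.exp_pos (lam * s - lam / 2)
  have h2 := Real.exp_pos (-(lam * s) - lam / 2)
  refine max_le (by linarith) ?_
  have h3 := Real.add_one_le_exp (lam * s - lam / 2)
  have h4 := Real.add_one_le_exp (-(lam * s) - lam / 2)
  by_cases h : |s| ≤ 1 / 2
  · linarith
  · push Not at h
    rcases le_total 0 s with hs | hs
    · rw [abs_of_nonneg hs] at h ⊢; nlinarith
    · rw [abs_of_nonpos hs] at h ⊢; nlinarith

lemma sum_abs_lam (y : ℝ) : ∑ b : Bool, |(1 + 2 * sg b * y) / 2| = mx y := by
  simp only [Fintype.sum_bool, sg_true, sg_false, mx]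
  rcases le_total 0 y with hy | hy
  · rw [abs_of_nonneg hy, abs_of_nonneg (a := (1 + 2 * 1 * y) / 2) (by linarith)]
    rcases le_total (2 * y) 1 with h | h
    · rw [max_eq_left h, abs_of_nonneg (by linarith)]; ring
    · rw [max_eq_right h, abs_of_nonpos (by linarith)]; ring
  · rw [abs_of_nonpos hy, abs_of_nonneg (a := (1 + 2 * -1 * y) / 2) (by linarith)]
    rcases le_total (2 * -y) 1 with h | h
    · rw [max_eq_left h, abs_of_nonneg (by linarith)]; ring
    · rw [max_eq_right h, abs_of_nonpos (by linarith)]; ring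

section vertex
variable {K : ℕ} {B : Type} [Fintype B] [DecidableEq B]

lemma pf_W_vertex (Y : Fin K × B → ℝ) (ω : Fin K → Option B) (h : (Fin K × B → Bool) → ℝ) :
    pf (W Y ω) h = ∑ β : Fin K × B → Bool,
      (∏ v, (1 + 2 * sg (β v) * Y v) / 2) * pf (W (fun v => sg (β v) / 2) ω) h := by
  unfold pf
  simp only [Finset.mul_sum]
  rw [Finset.sum_comm]
  refine Finset.sum_congr rfl fun z _ => ?_
  have e : ∀ v, W Y ω v (z v) = ∑ b : Bool, (1 + 2 * sg b * Y v) / 2
      * (if ω v.1 = some v.2 then sg (z v) / 2 else (1 + sg (z v) * (sg b / 2)) / 2) := by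
    intro v
    simp only [W, Fintype.sum_bool, sg_true, sg_false]
    split_ifs <;> ring
  simp only [e]
  rw [Finset.prod_univ_sum, Fintype.piFinset_univ, Finset.sum_mul]
  refine Finset.sum_congr rfl fun β _ => ?_
  rw [Finset.prod_mul_distrib, mul_assoc]
  rfl

/-- the level-`K` bound at an arbitrary real point -/
theorem gamma_bound' (hK : 1 ≤ K) [Nonempty B] {d : ℕ} (hd : 1 ≤ d)
    {h : (Fin K × B → Bool) → ℝ} (hh : DT U01 d h) (Y : Fin K × B → ℝ)
    (ε : (Fin K → B) → ℝ) (hε : ∀ u, |ε u| ≤ 1) :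
    |∑ u, ε u * pf (W Y (fun i => some (u i))) h|
      ≤ 10 * Real.sqrt ((9 ^ K * d) ^ K * Fintype.card B) * ∏ v, mx (Y v) := by
  simp only [pf_W_vertex Y, Finset.mul_sum]
  rw [Finset.sum_comm]
  simp only [← sum_abs_lam]
  rw [Finset.prod_univ_sum, Fintype.piFinset_univ, Finset.mul_sum]
  refine (Finset.abs_sum_le_sum_abs _ _).trans (Finset.sum_le_sum fun β _ => ?_)
  have := gamma_bound hK hd hh (fun v => sg (β v) / 2)
    (fun v => by rw [abs_div, abs_sg]; norm_num) ε hε
  simp only [mul_left_comm (ε _)]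
  rw [← Finset.mul_sum, abs_mul, Finset.abs_prod, mul_comm]
  exact mul_le_mul_of_nonneg_right this (Finset.prod_nonneg fun _ _ => abs_nonneg _)

lemma abs_pf_W_none (Y : Fin K × B → ℝ) {h : (Fin K × B → Bool) → ℝ} (hh : ∀ z, |h z| ≤ 1) :
    |pf (W Y (fun _ => none)) h| ≤ ∏ v, mx (Y v / 2) := by
  simp only [← sum_abs_lam]
  rw [Finset.prod_univ_sum, Fintype.piFinset_univ]
  unfold pf
  refine (Finset.abs_sum_le_sum_abs _ _).trans (Finset.sum_le_sum fun z _ => ?_)
  rw [abs_mul, Finset.abs_prod]
  have e : ∀ v, W Y (fun _ => none) v (z v) = (1 + 2 * sg (z v) * (Y v / 2)) / 2 := by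
    intro v; simp only [W, reduceCtorEq, if_false]; ring
  simp only [e]
  exact mul_le_of_le_one_right (Finset.prod_nonneg fun _ _ => abs_nonneg _) (hh z)

/-- clipping to `[-1,1]` -/
noncomputable def clip (s : ℝ) : ℝ := max (-1) (min 1 s)

lemma abs_clip (s : ℝ) : |clip s| ≤ 1 :=
  abs_le.mpr ⟨le_max_left _ _, max_le (by norm_num) (min_le_left _ _)⟩

lemma clip_err (Y : Fin K × B → ℝ) {h : (Fin K × B → Bool) → ℝ} (hh : ∀ z, |h z| ≤ 1) :
    |pf (W (fun v => clip (Y v)) (fun _ => none)) h - pf (W Y (fun _ => none)) h|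
      ≤ 3 * (∏ v, mx (Y v) - 1) := by
  have h1 : 1 ≤ ∏ v, mx (Y v) := Finset.one_le_prod fun v _ => one_le_mx (Y v)
  by_cases hc : ∀ v, |Y v| ≤ 1
  · have : (fun v => clip (Y v)) = Y := by
      funext v
      have := abs_le.mp (hc v)
      unfold clip
      rw [min_eq_right this.2, max_eq_right this.1]
    rw [this, sub_self, abs_zero]; linarith
  · push Not at hc
    obtain ⟨v, hv⟩ := hc
    have h2 : 2 ≤ ∏ v, mx (Y v) := by
      rw [← Finset.mul_prod_erase _ _ (Finset.mem_univ v)]
      have a1 : 2 ≤ mx (Y v) := le_trans (by linarith) (le_max_right _ _)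
      have a2 : 1 ≤ ∏ x ∈ univ.erase v, mx (Y x) := Finset.one_le_prod fun v _ => one_le_mx (Y v)
      nlinarith
    have h3 := abs_pf_W_none (fun v => clip (Y v)) hh
    have h4 := abs_pf_W_none Y hh
    have h5 : ∏ v, mx (clip (Y v) / 2) = 1 := by
      refine Finset.prod_eq_one fun v _ => max_eq_left ?_
      rw [abs_div]; have := abs_clip (Y v); norm_num; linarith
    have h6 : ∏ v, mx (Y v / 2) ≤ ∏ v, mx (Y v) := by
      refine Finset.prod_le_prod (fun v _ => le_trans zero_le_one (one_le_mx _)) fun v _ => ?_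
      rw [show Y v / 2 = (1 / 2) * Y v by ring]
      exact mx_mul_le (by norm_num [abs_of_pos]) _
    have := abs_sub (pf (W (fun v => clip (Y v)) (fun _ => none)) h) (pf (W Y (fun _ => none)) h)
    linarith

end vertex

end Crest.Agent.Lead.QQ
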