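import Crest.Agent.Lead.UFPackB

/-! The packing module of row 75: conclusion. -/

set_option autoImplicit false
set_option linter.unusedSectionVars false

namespace Crest.Agent.Lead.UF

open Finset

lemma card_offset_le (L ρ o : ℕ) (hρ : 0 < ρ) :
    ((univ : Finset (Fin L)).filter fun i : Fin L => (i : ℕ) * ρ % L = o).card ≤ ρ := by
  have : ((univ : Finset (Fin L)).filter fun i : Fin L => (i : ℕ) * ρ % L = o).card ≤
      (Finset.range ρ).card := by
    refine Finset.card_le_card_of_injOn (fun i : Fin L => (i : ℕ) * ρ / L) ?_ ?_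
    · intro i _
      have hL : 0 < L := lt_of_le_of_lt (Nat.zero_le _) i.is_lt
      simp only [Finset.coe_range, Set.mem_Iio]
      rw [Nat.div_lt_iff_lt_mul hL, mul_comm ρ L]
      exact Nat.mul_lt_mul_of_pos_right i.is_lt hρ
    · intro i hi j hj h
      simp only [Finset.coe_filter, Set.mem_setOf_eq, mem_univ, true_and] at hi hj h
      have a1 := Nat.div_add_mod ((i : ℕ) * ρ) L
      have a2 := Nat.div_add_mod ((j : ℕ) * ρ) L
      rw [h, hi] at a1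
      rw [hj] at a2
      exact Fin.ext (Nat.eq_of_mul_eq_mul_right hρ (a1.symm.trans a2))
  simpa using this

set_option maxHeartbeats 1000000 in
theorem packing : Packing := by
  intro D Ξ _ _ ξ lam ρ f ε hε hρ hρlam hprim hmin hf hf1
  classical
  have hΞ : Nonempty Ξ := by
    by_contra h
    rw [not_nonempty_iff] at h
    simp at hf1
  obtain ⟨i₀⟩ := hΞ
  set ε₁ : ℝ := min (ε / 5) (1 / 2) with hε₁
  have e0 : 0 < ε₁ := lt_min (by linarith) (by norm_num)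
  have e1 : ε₁ ≤ 1 / 2 := min_le_right _ _
  have e2 : ε₁ ≤ ε / 5 := min_le_left _ _
  obtain ⟨L, hL⟩ : ∃ L : ℕ, L = 2 * ∏ i, ρ i := ⟨_, rfl⟩
  have hL0 : 0 < L := by
    have : 0 < ∏ i, ρ i := Finset.prod_pos fun i _ => hρ i
    omega
  have hρL : ∀ i, ρ i ∣ L := fun i => by
    rw [hL]; exact Dvd.dvd.mul_left (Finset.dvd_prod_of_mem _ (mem_univ i)) _
  obtain ⟨P, hPz, c, K, α, hα, hcm, hKc, hKf, hKs⟩ := exists_colouring D Ξ ξ f ε₁ (Fin L)
    (fun i ζ => (((i : ℕ) * ρ ζ / L : ℕ) : ℤ)) e0 hprim hmin hf hf1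
  have hP0 : 0 < P := Nat.pos_of_ne_zero (NeZero.ne P)
  set Pf : ℝ := ∏ ζ, f ζ with hPf
  have hPf0 : 0 < Pf := Finset.prod_pos fun _ _ => hf _
  refine ⟨ε₁, e0, ⌈1 / ε₁⌉₊ + ⌈2 * (1 + ε₁) ^ 2 * α * Pf * ρ i₀ / (f i₀ * ε₁ * (1 - ε₁))⌉₊ + 1,
    fun n cc hn₀ hcop hnc => ?_⟩
  have hn0 : ∀ i, 0 < n i := fun i => by have := hn₀ i; omega
  have hn0' : ∀ i, (0 : ℝ) < n i := fun i => by exact_mod_cast hn0 i
  have hn1 : ∀ i, 1 ≤ ε₁ * n i := fun i => by
    have a1 : 1 / ε₁ ≤ n i := (Nat.le_ceil _).trans (by exact_mod_cast (by have := hn₀ i; omega))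
    rw [div_le_iff₀ e0] at a1; linarith
  have hcc : 0 < cc := by
    have a1 : (0 : ℝ) < (ρ i₀ : ℝ) / n i₀ := div_pos (by exact_mod_cast hρ i₀) (hn0' i₀)
    exact pos_of_mul_pos_left (a1.trans_le (hnc i₀).2) (hf i₀).le
  set x : ℝ := (1 - ε₁) / (2 * (1 + ε₁) * α * Pf * cc) with hx
  have hden : 0 < 2 * (1 + ε₁) * α * Pf * cc := by positivity
  have hx1 : 1 ≤ ε₁ * x := by
    have a1 : 2 * (1 + ε₁) ^ 2 * α * Pf * ρ i₀ / (f i₀ * ε₁ * (1 - ε₁)) ≤ n i₀ :=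
      (Nat.le_ceil _).trans (by exact_mod_cast (by have := hn₀ i₀; omega))
    have hfi := hf i₀
    rw [div_le_iff₀ (mul_pos (by positivity) (by linarith))] at a1
    have a2 := (hnc i₀).1
    rw [← mul_div_assoc, le_div_iff₀ (hn0' i₀)] at a2
    rw [hx, ← mul_div_assoc, le_div_iff₀ hden, one_mul]
    have a3 : 2 * (1 + ε₁) * α * Pf * (cc * f i₀ * n i₀) ≤
        2 * (1 + ε₁) * α * Pf * ((1 + ε₁) * ρ i₀) :=
      mul_le_mul_of_nonneg_left a2 (by positivity)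
    have a4 : (2 * (1 + ε₁) * α * Pf * cc) * (f i₀ * n i₀) ≤ (ε₁ * (1 - ε₁)) * (f i₀ * n i₀) := by
      nlinarith
    exact le_of_mul_le_mul_right a4 (mul_pos hfi (hn0' i₀))
  have hx0 : 0 ≤ x := by rw [hx]; exact div_nonneg (by linarith) hden.le
  set μ : ℕ := ⌊x⌋₊ with hμ
  have hμ1 : (μ : ℝ) ≤ x := Nat.floor_le hx0
  have hμ2 : (1 - ε₁) * x ≤ μ := by have := Nat.lt_floor_add_one x; linarith
  -- items
  let T : Type := {y : Fin L × (Fin D → ZMod P) // K y.1 y.2} × Fin μ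
  let key : Ξ → T → ZMod P × ℕ := fun ζ y =>
    (lin P (ξ ζ) y.1.1.2 + ((((y.1.1.1 : ℕ) * ρ ζ / L : ℕ) : ℤ) : ZMod P),
      (y.1.1.1 : ℕ) * ρ ζ % L)
  have hfib : ∀ ζ y, (univ.filter fun z : T => key ζ z = y).card ≤ n ζ / 2 := by
    rintro ζ ⟨a, o⟩
    have b1 : ((univ.filter fun z : T => key ζ z = (a, o)).card : ℝ) =
        μ * ∑ i : Fin L, ind ((i : ℕ) * ρ ζ % L = o) * ∑ u, ind (K i u ∧
          lin P (ξ ζ) u + ((((i : ℕ) * ρ ζ / L : ℕ) : ℤ) : ZMod P) = a) := by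
      rw [← sum_ind_eq_card, Fintype.sum_prod_type]
      simp only [key, Finset.sum_const, Finset.card_univ, Fintype.card_fin, nsmul_eq_mul]
      rw [← Finset.mul_sum]
      congr 1
      rw [← Finset.sum_subtype (univ.filter fun y : Fin L × (Fin D → ZMod P) => K y.1 y.2)
        (by simp) (fun y : Fin L × (Fin D → ZMod P) => ind ((lin P (ξ ζ) y.2 +
          ((((y.1 : ℕ) * ρ ζ / L : ℕ) : ℤ) : ZMod P), (y.1 : ℕ) * ρ ζ % L) = (a, o))),
        Finset.sum_filter, Fintype.sum_prod_type]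
      refine Finset.sum_congr rfl fun i _ => ?_
      rw [Finset.mul_sum]
      refine Finset.sum_congr rfl fun u _ => ?_
      rw [← ind_and]
      split_ifs with h
      · exact ind_congr (by simp only [Prod.mk.injEq]; tauto)
      · exact (ind_neg fun h' => h h'.2.1).symm
    have b2 : ∑ i : Fin L, ind ((i : ℕ) * ρ ζ % L = o) * ∑ u, ind (K i u ∧
          lin P (ξ ζ) u + ((((i : ℕ) * ρ ζ / L : ℕ) : ℤ) : ZMod P) = a) ≤
        ρ ζ * ((1 + ε₁) * (α * (Pf / f ζ))) := by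
      refine (Finset.sum_le_sum fun i _ => mul_le_mul_of_nonneg_left (hKf i ζ a)
        (ind_nonneg _)).trans ?_
      rw [← Finset.sum_mul, sum_ind_eq_card]
      have := hf ζ
      refine mul_le_mul_of_nonneg_right ?_ (by positivity)
      exact_mod_cast card_offset_le L (ρ ζ) o (hρ ζ)
    have b3 : (ρ ζ : ℝ) * ((1 + ε₁) * (α * (Pf / f ζ))) ≤ (1 + ε₁) * α * Pf * cc * n ζ := by
      have a1 := (hnc ζ).2
      have hfz := hf ζ
      rw [div_le_iff₀ (hn0' ζ)] at a1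
      have : (ρ ζ : ℝ) * ((1 + ε₁) * (α * (Pf / f ζ))) = (1 + ε₁) * α * Pf * (ρ ζ / f ζ) := by
        field_simp
      rw [this, mul_assoc _ cc]
      refine mul_le_mul_of_nonneg_left ?_ (by positivity)
      rw [div_le_iff₀ hfz]; linarith
    have b4 : 2 * ((univ.filter fun z : T => key ζ z = (a, o)).card : ℝ) + 1 ≤ n ζ := by
      rw [b1]
      have a1 := mul_le_mul hμ1 (b2.trans b3) (Finset.sum_nonneg fun i _ =>
        mul_nonneg (ind_nonneg _) (Finset.sum_nonneg fun u _ => ind_nonneg _)) hx0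
      have a2 : x * ((1 + ε₁) * α * Pf * cc * n ζ) = (1 - ε₁) * n ζ / 2 := by
        rw [hx]; field_simp
      have := hn1 ζ
      linarith
    have b5 : 2 * (univ.filter fun z : T => key ζ z = (a, o)).card + 1 ≤ n ζ := by
      exact_mod_cast b4
    omega
  choose r hr1 hr2 using fun ζ => exists_layer (key ζ) (n ζ / 2) (hfib ζ)
  -- integer data of an item
  let ut : T → Fin D → ℤ := fun y p => ((y.1.1.2 p).val : ℤ)
  let z : Ξ → T → ℤ := fun ζ y => ξ ζ ⬝ᵥ ut y + (((y.1.1.1 : ℕ) * ρ ζ / L : ℕ) : ℤ)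
  have hz : ∀ ζ y, ((z ζ y : ℤ) : ZMod P) = (key ζ y).1 := by
    intro ζ y
    simp only [z, key, Int.cast_add]
    rw [← lin_cast]
    congr 2
    funext p
    simp [ut]
  have hzv : ∀ ζ y, (((key ζ y).1.val : ℕ) : ℤ) = z ζ y % P := by
    intro ζ y; rw [← hz, ZMod.val_intCast]
  choose V hV using fun y : T => crt_vec ξ hprim n hcop fun ζ => (r ζ y : ℤ) - z ζ y / P
  set Q : ℕ := ∏ j, n j with hQ
  have hQ0 : 0 < Q := Finset.prod_pos fun j _ => hn0 j
  have hQi : ∀ i, Q = n i * ∏ j ∈ univ.erase i, n j := fun i =>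
    (Finset.mul_prod_erase _ _ (mem_univ i)).symm
  let en : Fin (Fintype.card T) ≃ T := (Fintype.equivFin T).symm
  let lay : Fin (Fintype.card T) × (Σ i : Ξ, Fin (∏ j ∈ univ.erase i, n j)) → ℕ := fun p =>
    ((z p.2.1 (en p.1) / P + ξ p.2.1 ⬝ᵥ V (en p.1) + ((p.2.2 : ℕ) : ℤ) * n p.2.1) % Q).toNat
  have hlay : ∀ p, (lay p : ℤ) =
      (z p.2.1 (en p.1) / P + ξ p.2.1 ⬝ᵥ V (en p.1) + ((p.2.2 : ℕ) : ℤ) * n p.2.1) % Q :=
    fun p => Int.toNat_of_nonneg (Int.emod_nonneg _ (by exact_mod_cast hQ0.ne'))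
  have hlayr : ∀ p, (lay p : ℤ) ≡ r p.2.1 (en p.1) [ZMOD (n p.2.1)] := by
    intro p
    rw [hlay]
    have a1 : ((n p.2.1 : ℕ) : ℤ) ∣ (Q : ℤ) := Int.natCast_dvd_natCast.2 ⟨_, hQi _⟩
    refine ((Int.mod_modEq _ _).of_dvd a1).trans ?_
    have a2 := ((Int.ModEq.refl (z p.2.1 (en p.1) / P)).add (hV (en p.1) p.2.1)).add
      (Int.modEq_zero_iff_dvd.2 (Dvd.intro_left ((p.2.2 : ℕ) : ℤ) rfl :
        ((n p.2.1 : ℕ) : ℤ) ∣ ((p.2.2 : ℕ) : ℤ) * n p.2.1))
    simpa using a2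
  have hcol : ∀ ζ y, c (key ζ y).1 = ζ := fun ζ y => hKc _ _ y.1.2 ζ
  have hkey2 : ∀ ζ y, (key ζ y).2 = (y.1.1.1 : ℕ) * ρ ζ % L := fun _ _ => rfl
  have hzdef : ∀ ζ y, z ζ y = ξ ζ ⬝ᵥ ut y + (((y.1.1.1 : ℕ) * ρ ζ / L : ℕ) : ℤ) := fun _ _ => rfl
  clear_value lay z key ut en
  refine ⟨L * P, Fintype.card T,
    fun b => (L : ℤ) • (ut (en b) + (P : ℤ) • V (en b)) + (((en b).1.1.1 : ℕ) : ℤ) • lam,
    fun p => (key p.2.1 (en p.1)).2 + L * (key p.2.1 (en p.1)).1.val + L * P * lay p,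
    by positivity, ?_, ?_, ?_, ?_⟩
  · exact Even.mul_right (by rw [hL]; exact even_two_mul _) _
  · intro p
    have a1 := Int.emod_add_mul_ediv (z p.2.1 (en p.1)) P
    have a2 : (((((en p.1).1.1.1 : ℕ) * ρ p.2.1 % L : ℕ) : ℤ)) +
        L * ((((en p.1).1.1.1 : ℕ) * ρ p.2.1 / L : ℕ) : ℤ) =
          (((en p.1).1.1.1 : ℕ) : ℤ) * ρ p.2.1 := by
      exact_mod_cast Nat.mod_add_div _ _
    have a3 := Int.emod_add_mul_ediv
      (z p.2.1 (en p.1) / P + ξ p.2.1 ⬝ᵥ V (en p.1) + ((p.2.2 : ℕ) : ℤ) * n p.2.1) Q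
    rw [← hlay] at a3
    rw [← hzv] at a1
    refine Int.modEq_iff_dvd.2 ⟨(z p.2.1 (en p.1) / P + ξ p.2.1 ⬝ᵥ V (en p.1) +
      ((p.2.2 : ℕ) : ℤ) * n p.2.1) / Q, ?_⟩
    simp only [dotProduct_add, dotProduct_smul, smul_eq_mul, ← hρlam]
    have a4 := hzdef p.2.1 (en p.1)
    rw [← hkey2] at a2
    simp only [Nat.cast_add, Nat.cast_mul]
    linear_combination (-1 : ℤ) * a2 - (L : ℤ) * a1 - (L : ℤ) * a4 - (L : ℤ) * P * a3
  · refine disj_of_layers L P Q (fun p => (key p.2.1 (en p.1)).2)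
      (fun p => (key p.2.1 (en p.1)).1.val) lay (fun p => ρ p.2.1) ?_ ?_ ?_ ?_ ?_
    · intro p
      simp only [hkey2]
      have a1 : ρ p.2.1 ∣ ((en p.1).1.1.1 : ℕ) * ρ p.2.1 % L :=
        (Nat.dvd_mod_iff (hρL _)).2 (Dvd.intro_left _ rfl)
      have a2 := Nat.mod_lt (((en p.1).1.1.1 : ℕ) * ρ p.2.1) hL0
      obtain ⟨k, hk⟩ := a1
      obtain ⟨k', hk'⟩ := hρL p.2.1
      rw [hk] at a2 ⊢
      have a3 : k < k' := by
        exact lt_of_mul_lt_mul_left (a2.trans_eq hk') (Nat.zero_le _)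
      have := Nat.mul_le_mul_left (ρ p.2.1) (show k + 1 ≤ k' from a3)
      refine le_trans ?_ (this.trans_eq hk'.symm)
      rw [Nat.mul_succ]
    · intro p; exact ZMod.val_lt _
    · intro p
      have := hlay p
      have a2 := Int.emod_lt_of_pos
        (z p.2.1 (en p.1) / P + ξ p.2.1 ⬝ᵥ V (en p.1) + ((p.2.2 : ℕ) : ℤ) * n p.2.1)
        (show (0 : ℤ) < Q by exact_mod_cast hQ0)
      omega
    · rintro ⟨b, ζ, j⟩ ⟨b', ζ', j'⟩ hne ha hl
      simp only at ha ⊢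
      have ha' := ZMod.val_injective P ha
      have hζ : ζ = ζ' := by rw [← hcol ζ (en b), ha', hcol]
      subst hζ
      have hrr : r ζ (en b) = r ζ (en b') := by
        have a1 := hlayr ⟨b, ζ, j⟩
        have a2 := hlayr ⟨b', ζ, j'⟩
        rw [hl] at a1
        have a3 := a1.symm.trans a2
        simp only at a3
        have a4 := hr1 ζ (en b)
        have a5 := hr1 ζ (en b')
        have a6 : r ζ (en b) ≡ r ζ (en b') [MOD n ζ] := Int.natCast_modEq_iff.1 a3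
        exact Nat.ModEq.eq_of_lt_of_lt a6 (by omega) (by omega)
      by_cases ho : (key ζ (en b)).2 = (key ζ (en b')).2
      · exfalso
        have hb : b = b' := en.injective (hr2 ζ _ _ (Prod.ext ha' ho) hrr)
        subst hb
        apply hne
        have a1 := hlay ⟨b, ζ, j⟩
        have a2 := hlay ⟨b, ζ, j'⟩
        rw [hl] at a1
        have a3 : _ ≡ _ [ZMOD Q] := a1.symm.trans a2
        simp only at a3
        have a4 := Int.ModEq.add_left_cancel' _ a3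
        have a5 : (j : ℕ) * n ζ ≡ (j' : ℕ) * n ζ [MOD Q] := by
          rw [← Int.natCast_modEq_iff]; push_cast; exact a4
        have a6 : ∀ k : Fin (∏ l ∈ univ.erase ζ, n l), (k : ℕ) * n ζ < Q := fun k => by
          rw [hQi ζ, mul_comm (n ζ)]
          exact Nat.mul_lt_mul_of_pos_right k.is_lt (hn0 ζ)
        have a7 := Nat.eq_of_mul_eq_mul_right (hn0 ζ)
          (Nat.ModEq.eq_of_lt_of_lt a5 (a6 j) (a6 j'))
        rw [Fin.ext a7]
      · have a1 : ∀ y : T, ρ ζ ∣ (key ζ y).2 := fun y => by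
          rw [hkey2]; exact (Nat.dvd_mod_iff (hρL _)).2 (Dvd.intro_left _ rfl)
        obtain ⟨k, hk⟩ := a1 (en b)
        obtain ⟨k', hk'⟩ := a1 (en b')
        rw [hk, hk'] at ho ⊢
        have : k ≠ k' := fun h => ho (by rw [h])
        rcases lt_or_gt_of_ne this with h | h
        · left
          have := Nat.mul_le_mul_left (ρ ζ) (show k + 1 ≤ k' from h); nlinarith
        · right
          have := Nat.mul_le_mul_left (ρ ζ) (show k' + 1 ≤ k from h); nlinarith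
    · rintro ⟨b, ζ, j⟩ ⟨b', ζ', j'⟩ ha hl
      simp only at ha
      have ha' : (key ζ' (en b')).1 = -1 - (key ζ (en b)).1 := by
        have := congrArg (Nat.cast : ℕ → ZMod P) ha
        simp only [Nat.cast_add, ZMod.natCast_zmod_val, Nat.cast_one, ZMod.natCast_self] at this
        linear_combination this
      have hζ : ζ = ζ' := by rw [← hcol ζ' (en b'), ha', hcm, hcol]
      subst hζ
      have a1 := hlayr ⟨b, ζ, j⟩
      have a2 := hlayr ⟨b', ζ, j'⟩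
      have a3 := (a1.add a2).add_right 1
      simp only at a3
      have a4 : (lay ⟨b, ζ, j⟩ : ℤ) + lay ⟨b', ζ, j'⟩ + 1 = Q := by exact_mod_cast hl
      rw [a4] at a3
      have a5 : ((n ζ : ℕ) : ℤ) ∣ (Q : ℤ) := Int.natCast_dvd_natCast.2 ⟨_, hQi _⟩
      have a6 : ((n ζ : ℕ) : ℤ) ∣ ((r ζ (en b) + r ζ (en b') + 1 : ℕ) : ℤ) := by
        push_cast
        exact (Int.modEq_zero_iff_dvd).1 (a3.symm.trans (Int.modEq_zero_iff_dvd.2 a5))
      have a7 := Nat.le_of_dvd (by omega) (Int.natCast_dvd_natCast.1 a6)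
      have := hr1 ζ (en b)
      have := hr1 ζ (en b')
      omega
  · have b1 : (Fintype.card T : ℝ) = μ * ∑ i, ∑ u, ind (K i u) := by
      rw [← Fintype.sum_prod_type', sum_ind_eq_card]
      simp only [T, Fintype.card_prod, Fintype.card_fin, Fintype.card_subtype]
      push_cast; ring
    have b2 : (Q : ℝ) * cc ≤ (1 + ε₁) * ∑ i, ((∏ j ∈ univ.erase i, n j : ℕ) : ℝ) * ρ i := by
      have : (Q : ℝ) * cc = ∑ i, Q * (cc * f i) := by
        rw [← Finset.mul_sum, ← Finset.mul_sum, hf1, mul_one]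
      rw [this, Finset.mul_sum]
      refine Finset.sum_le_sum fun i _ => ?_
      have a1 := mul_le_mul_of_nonneg_left (hnc i).1 (Nat.cast_nonneg (α := ℝ) Q)
      refine a1.trans (le_of_eq ?_)
      have := hn0' i
      rw [hQi i, Nat.cast_mul]; field_simp
    rw [Fintype.card_fin] at hKs
    set Sg : ℝ := ∑ i, ((∏ j ∈ univ.erase i, n j : ℕ) : ℝ) * ρ i with hSg
    set Kc : ℝ := ∑ i, ∑ u, ind (K i u) with hKc'
    have hLr : (0 : ℝ) < L := by exact_mod_cast hL0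
    have hPr : (0 : ℝ) < P := by exact_mod_cast hP0
    have hQr : (0 : ℝ) < Q := by exact_mod_cast hQ0
    have e3 : 0 ≤ 1 - ε₁ := by linarith
    have b3 : ((1 - ε₁) * x) * ((1 - ε₁) * L * (α * P * Pf)) ≤ μ * Kc :=
      mul_le_mul hμ2 hKs (by positivity) (Nat.cast_nonneg _)
    have b4 : (((1 - ε₁) * x) * ((1 - ε₁) * L * (α * P * Pf))) * (Q * cc) ≤
        (μ * Kc) * ((1 + ε₁) * Sg) :=
      mul_le_mul b3 b2 (by positivity) (le_trans (by positivity) b3)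
    have b5 : (((1 - ε₁) * x) * ((1 - ε₁) * L * (α * P * Pf))) * (Q * cc) =
        (1 - ε₁) ^ 3 * (L * P * Q) / (2 * (1 + ε₁)) := by
      rw [hx]; field_simp
    rw [b5, div_le_iff₀ (by positivity)] at b4
    rw [b1]
    push_cast
    have b6 : (1 - ε) * (1 + ε₁) ^ 2 ≤ (1 - ε₁) ^ 3 := by
      have : (1 - ε) * (1 + ε₁) ^ 2 ≤ (1 - 5 * ε₁) * (1 + ε₁) ^ 2 :=
        mul_le_mul_of_nonneg_right (by linarith) (by positivity)
      nlinarith [sq_nonneg ε₁, mul_pos e0 (mul_pos e0 e0)]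
    have b7 := mul_le_mul_of_nonneg_right b6 (show (0 : ℝ) ≤ L * P * Q by positivity)
    have b8 : ((1 - ε) * (L * P * Q)) * (1 + ε₁) ^ 2 ≤ (2 * (μ * Kc) * Sg) * (1 + ε₁) ^ 2 := by
      nlinarith
    exact le_of_mul_le_mul_right b8 (by positivity)

end Crest.Agent.Lead.UF
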