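import Crest.Agent.Lead.UFGauss
import Crest.Agent.Lead.UFPackC

/-! The design of row 75 from the base function, the packing and the Gauss sums. -/

set_option autoImplicit false
set_option linter.unusedSectionVars false

namespace Crest.Agent.Lead.UF

open Finset

set_option maxHeartbeats 1000000 in
theorem design (h1 : BaseFun) : Design := by
  intro ε hε
  classical
  obtain ⟨ε₁, e0, e1, e2⟩ : ∃ ε₁ : ℝ, 0 < ε₁ ∧ ε₁ ≤ 1 / 4 ∧ ε₁ ≤ ε / 4 :=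
    ⟨min (1 / 4) (ε / 4), lt_min (by norm_num) (by positivity), min_le_left _ _, min_le_right _ _⟩
  obtain ⟨D, Ξ, lam, φ, hφ, hlam, hprim, hmin, hsup, hL2⟩ := h1 ε₁ e0
  let ρ : Ξ → ℕ := fun i => (i.1 ⬝ᵥ lam).toNat
  have hρ : ∀ i : Ξ, (ρ i : ℤ) = i.1 ⬝ᵥ lam := fun i => Int.toNat_of_nonneg (hlam _ i.2).le
  have hρ0 : ∀ i, 0 < ρ i := fun i => by have := hρ i; have := hlam _ i.2; omega
  have hρ0' : ∀ i, (0 : ℝ) < ρ i := fun i => by exact_mod_cast hρ0 i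
  have hφ0 : ∀ i : Ξ, 0 < ‖φ i.1‖ := fun i => norm_pos_iff.2 (hφ _ i.2)
  obtain ⟨Sg, hSg⟩ : ∃ Sg : ℝ, Sg = ∑ i : Ξ, ‖φ i.1‖ ^ 2 := ⟨_, rfl⟩
  have hSg1 : 1 - ε₁ ≤ 2 * Sg := by
    rw [hSg, Finset.sum_coe_sort Ξ fun ξ => ‖φ ξ‖ ^ 2]; exact hL2
  have hSg0 : 0 < Sg := by linarith
  have hmin' : ∀ i j : Ξ, i ≠ j → ∃ p q, i.1 p * j.1 q ≠ i.1 q * j.1 p := fun i j h =>
    hmin _ i.2 _ j.2 fun h' => h (Subtype.ext h')
  obtain ⟨ε', hε', n₀, hpack⟩ := packing D Ξ (fun i => i.1) lam ρ (fun i => ‖φ i.1‖ ^ 2 / Sg) ε hε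
    hρ0 hρ (fun i => hprim _ i.2) hmin' (fun i => by have := hφ0 i; positivity)
    (by rw [← Finset.sum_div, ← hSg, div_self hSg0.ne'])
  obtain ⟨S1, hS1⟩ : ∃ S1 : ℝ, S1 = ∑ i : Ξ, ‖φ i.1‖ := ⟨_, rfl⟩
  have hS10 : 0 ≤ S1 := by rw [hS1]; exact Finset.sum_nonneg fun _ _ => norm_nonneg _
  obtain ⟨ε₃, f0, f1, f2, f3⟩ : ∃ ε₃ : ℝ, 0 < ε₃ ∧ ε₃ ≤ ε' ∧ ε₃ ≤ ε₁ ∧ 2 * ε₃ * S1 ≤ ε₁ := by
    refine ⟨min ε' (ε₁ / (2 * S1 + 1)), lt_min hε' (by positivity), min_le_left _ _, ?_, ?_⟩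
    · exact (min_le_right _ _).trans (div_le_self e0.le (by linarith))
    · have := min_le_right ε' (ε₁ / (2 * S1 + 1))
      rw [le_div_iff₀ (by positivity)] at this
      have h0 : 0 < min ε' (ε₁ / (2 * S1 + 1)) := lt_min hε' (by positivity)
      nlinarith
  obtain ⟨n, c, sg, ω, hc, hn₀, hn0, hcop, hnc, hω, hG⟩ := gauss D Ξ (fun i => i.1)
    (fun i => ρ i / ‖φ i.1‖ ^ 2) ε₃ n₀ f0 (fun i => by have := hφ0 i; have := hρ0' i; positivity)
    hmin'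
  have hn0' : ∀ i, (0 : ℝ) < n i := fun i => by exact_mod_cast hn0 i
  have hlo : ∀ i, c * ((ρ i : ℝ) / n i) ≤ ‖φ i.1‖ ^ 2 := fun i => by
    have := (hnc i).1
    have h2 := hφ0 i
    rw [← mul_div_assoc, div_le_iff₀ (by positivity)] at this
    rw [← mul_div_assoc, div_le_iff₀ (hn0' i)]; linarith
  have hhi : ∀ i, ‖φ i.1‖ ^ 2 ≤ (1 + ε₃) * (c * ((ρ i : ℝ) / n i)) := fun i => by
    have := (hnc i).2
    have h2 := hφ0 i
    rw [← mul_div_assoc, ← mul_div_assoc, le_div_iff₀ (by positivity)] at this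
    rw [← mul_div_assoc, ← mul_div_assoc, le_div_iff₀ (hn0' i)]; linarith
  obtain ⟨M, B, W, t, hM, hMe, ht, hDisj, hcov⟩ := hpack n (Sg / c) hn₀ hcop fun i => by
    have e : Sg / c * (‖φ i.1‖ ^ 2 / Sg) = ‖φ i.1‖ ^ 2 / c := by field_simp
    rw [e]
    constructor
    · rw [div_le_iff₀ hc]
      have : (1 + ε₃) * (c * ((ρ i : ℝ) / n i)) ≤ (1 + ε') * (c * ((ρ i : ℝ) / n i)) :=
        mul_le_mul_of_nonneg_right (by linarith)
          (by have := hρ0' i; have := hn0' i; positivity)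
      linarith [hhi i]
    · rw [le_div_iff₀ hc]; linarith [hlo i]
  obtain ⟨Q, hQ⟩ : ∃ Q : ℕ, Q = ∏ j, n j := ⟨_, rfl⟩
  rw [← hQ] at ht hDisj hcov
  have hQ0 : 0 < Q := by rw [hQ]; exact Finset.prod_pos fun j _ => hn0 j
  have hQr : (0 : ℝ) < Q := by exact_mod_cast hQ0
  have hMr : (0 : ℝ) < M := by exact_mod_cast hM
  have hQi : ∀ i, (Q : ℝ) = n i * ((∏ j ∈ univ.erase i, n j : ℕ) : ℝ) := fun i => by
    rw [hQ, ← Finset.mul_prod_erase _ _ (mem_univ i), Nat.cast_mul]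
  have hQi0 : ∀ i, (0 : ℝ) < ((∏ j ∈ univ.erase i, n j : ℕ) : ℝ) := fun i => by
    exact_mod_cast Finset.prod_pos fun j _ => hn0 j
  have hsum : ∑ s : (Σ i : Ξ, Fin (∏ j ∈ univ.erase i, n j)), (ρ s.1 : ℝ) =
      ∑ i, ((∏ j ∈ univ.erase i, n j : ℕ) : ℝ) * ρ i := by
    rw [Fintype.sum_sigma]
    simp only [Finset.sum_const, Finset.card_univ, Fintype.card_fin, nsmul_eq_mul]
  refine ⟨(Σ i : Ξ, Fin (∏ j ∈ univ.erase i, n j)), inferInstance, M * Q, B, fun s => ρ s.1, t,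
    fun s => ω s * (φ s.1.1 / ‖φ s.1.1‖), Q / c, by positivity, hMe.mul_right _, by positivity,
    fun s => hρ0 _, fun s => ?_, hDisj, by rw [hsum]; exact hcov, ?_, fun b k β => ?_⟩
  · rw [norm_mul, hω, one_mul, norm_div, Complex.norm_real, norm_norm, div_self (hφ0 _).ne']
  · have a1 := hDisj.two_mul_sum_le
    rw [Fintype.sum_prod_type] at a1
    simp only [Finset.sum_const, Finset.card_univ, Fintype.card_fin, smul_eq_mul] at a1
    have a2 : (2 : ℝ) * (B * ∑ s : (Σ i : Ξ, Fin (∏ j ∈ univ.erase i, n j)), (ρ s.1 : ℝ)) ≤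
        ((M * Q : ℕ) : ℝ) := by exact_mod_cast a1
    rw [hsum] at a2
    have a3 : Q / c * Sg ≤ (1 + ε₃) * ∑ i, ((∏ j ∈ univ.erase i, n j : ℕ) : ℝ) * ρ i := by
      rw [hSg, Finset.mul_sum, Finset.mul_sum]
      refine Finset.sum_le_sum fun i _ => ?_
      refine (mul_le_mul_of_nonneg_left (hhi i) (by positivity)).trans (le_of_eq ?_)
      have := hn0' i
      rw [hQi i]; field_simp
    have hB : (0 : ℝ) ≤ B := Nat.cast_nonneg _
    have a4 := mul_le_mul_of_nonneg_left a3 hB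
    have a5 : (0 : ℝ) ≤ B * (Q / c) := by positivity
    have a6 : (0 : ℝ) < ((M * Q : ℕ) : ℝ) := by positivity
    generalize ((M * Q : ℕ) : ℝ) = G at a2 a6 ⊢
    generalize ∑ i, ((∏ j ∈ univ.erase i, n j : ℕ) : ℝ) * ρ i = X at a2 a4
    have a7 : B * (Q / c) * (1 - ε₁) ≤ (1 + ε₃) * G := by
      have := mul_le_mul_of_nonneg_left hSg1 a5
      have := mul_le_mul_of_nonneg_left a2 (show 0 ≤ 1 + ε₃ by linarith)
      nlinarith
    have a8 : (1 + ε₃) * G ≤ (1 + ε) * G * (1 - ε₁) := by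
      have : 1 + ε₃ ≤ (1 + ε) * (1 - ε₁) := by nlinarith
      nlinarith
    exact le_of_mul_le_mul_right (a7.trans a8) (by linarith)
  · let x : Fin D → ℝ := fun p => sg p * (k : ℝ) ^ 2 - k * ((W b p : ℝ) / (M * Q)) + lam p * β
    let a : Ξ → ℝ := fun i => √(c * ((ρ i : ℝ) / n i)) / ‖φ i.1‖
    have key : ∑ s : (Σ i : Ξ, Fin (∏ j ∈ univ.erase i, n j)),
        ((√(ρ s.1 / (Q / c)) : ℝ) : ℂ) * (ω s * (φ s.1.1 / ‖φ s.1.1‖)) *
          e (ρ s.1 * β - k * ((t (b, s) : ℝ) / ((M * Q : ℕ) : ℝ))) =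
        ∑ i : Ξ, (a i : ℂ) * (φ i.1 * e (∑ p, (i.1 p : ℝ) * x p)) := by
      rw [Fintype.sum_sigma]
      refine Finset.sum_congr rfl fun i _ => ?_
      have b1 : ∀ j : Fin (∏ j ∈ univ.erase i, n j),
          e (ρ i * β - k * ((t (b, ⟨i, j⟩) : ℝ) / ((M * Q : ℕ) : ℝ))) =
          e (ρ i * β - k * (((i.1 ⬝ᵥ W b : ℤ) : ℝ) / (M * Q))) *
            e (-((j : ℕ) * k / ((∏ j ∈ univ.erase i, n j : ℕ) : ℝ))) := by
        intro j
        obtain ⟨z, hz⟩ := Int.modEq_iff_dvd.1 (ht (b, ⟨i, j⟩))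
        have hz' : (t (b, ⟨i, j⟩) : ℝ) = ((i.1 ⬝ᵥ W b : ℤ) : ℝ) + (j : ℕ) * (n i * M) -
            (M * Q) * z := by
          have : (t (b, ⟨i, j⟩) : ℤ) = i.1 ⬝ᵥ W b + ((j : ℕ) : ℤ) * (n i * M) -
            ((M * Q : ℕ) : ℤ) * z := by simp only at hz; linarith
          exact_mod_cast this
        rw [← e_add, ← e_add_int _ (-(k * z))]
        congr 1
        rw [hz']
        have := hn0' i
        have := hQi0 i
        rw [Nat.cast_mul, Int.cast_neg, Int.cast_mul]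
        have h3 := hQi i
        generalize ((∏ j ∈ univ.erase i, n j : ℕ) : ℝ) = Qi at *
        rw [h3]; field_simp; ring
      have b2 : ∑ p, (i.1 p : ℝ) * x p = (ρ i * β - k * (((i.1 ⬝ᵥ W b : ℤ) : ℝ) / (M * Q))) +
          (∑ p, (i.1 p : ℝ) * sg p) * (k : ℝ) ^ 2 := by
        have : (ρ i : ℝ) = ((i.1 ⬝ᵥ lam : ℤ) : ℝ) := by exact_mod_cast hρ i
        rw [this]
        simp only [x, dotProduct]
        push_cast
        rw [Finset.sum_mul, Finset.sum_div, Finset.mul_sum, Finset.sum_mul,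
          ← Finset.sum_sub_distrib, ← Finset.sum_add_distrib]
        exact Finset.sum_congr rfl fun p _ => by ring
      have b3 : √(ρ i / (Q / c)) * √((∏ j ∈ univ.erase i, n j : ℕ) : ℝ) =
          √(c * ((ρ i : ℝ) / n i)) := by
        rw [← Real.sqrt_mul (by positivity)]
        congr 1
        have := hn0' i
        have := hQi0 i
        rw [hQi i]; field_simp
      simp_rw [b1]
      have b4 : ∀ j : Fin (∏ j ∈ univ.erase i, n j),
          ((√(ρ i / (Q / c)) : ℝ) : ℂ) * (ω ⟨i, j⟩ * (φ i.1 / ‖φ i.1‖)) *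
            (e (ρ i * β - k * (((i.1 ⬝ᵥ W b : ℤ) : ℝ) / (M * Q))) *
              e (-((j : ℕ) * k / ((∏ j ∈ univ.erase i, n j : ℕ) : ℝ)))) =
          (((√(ρ i / (Q / c)) : ℝ) : ℂ) * (φ i.1 / ‖φ i.1‖) *
            e (ρ i * β - k * (((i.1 ⬝ᵥ W b : ℤ) : ℝ) / (M * Q)))) *
            (ω ⟨i, j⟩ * e (-((j : ℕ) * k / ((∏ j ∈ univ.erase i, n j : ℕ) : ℝ)))) :=
        fun j => by ring
      simp_rw [b4]
      rw [← Finset.mul_sum, hG i k, b2, e_add]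
      simp only [a]
      rw [← b3]
      push_cast; ring
    rw [key]
    have ha : ∀ i, |a i - 1| ≤ ε₃ := fun i => by
      have h0 := hφ0 i
      have a1 : √(c * ((ρ i : ℝ) / n i)) ≤ ‖φ i.1‖ := Real.sqrt_le_iff.2 ⟨h0.le, hlo i⟩
      have a2 : ‖φ i.1‖ ≤ (1 + ε₃) * √(c * ((ρ i : ℝ) / n i)) := by
        have hx : 0 ≤ c * ((ρ i : ℝ) / n i) := by positivity
        refine (abs_le_of_sq_le_sq' ?_ (by positivity)).2
        rw [mul_pow, Real.sq_sqrt hx]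
        refine (hhi i).trans (mul_le_mul_of_nonneg_right (by nlinarith) hx)
      simp only [a]
      rw [abs_le]
      constructor
      · rw [le_sub_iff_add_le, le_div_iff₀ h0]; nlinarith
      · rw [sub_le_iff_le_add, div_le_iff₀ h0]; nlinarith
    have hs := hsup x
    rw [← Finset.sum_coe_sort Ξ fun ξ => φ ξ * e (∑ p, (ξ p : ℝ) * x p)] at hs
    have split : ∑ i : Ξ, (a i : ℂ) * (φ i.1 * e (∑ p, (i.1 p : ℝ) * x p)) =
        ∑ i : Ξ, φ i.1 * e (∑ p, (i.1 p : ℝ) * x p) +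
        ∑ i : Ξ, ((a i - 1 : ℝ) : ℂ) * (φ i.1 * e (∑ p, (i.1 p : ℝ) * x p)) := by
      rw [← Finset.sum_add_distrib]
      exact Finset.sum_congr rfl fun i _ => by push_cast; ring
    rw [split, Complex.add_re, mul_add]
    refine (abs_add_le _ _).trans ?_
    have a1 : |(∑ i : Ξ, ((a i - 1 : ℝ) : ℂ) * (φ i.1 * e (∑ p, (i.1 p : ℝ) * x p))).re| ≤
        ε₃ * S1 := by
      refine (Complex.abs_re_le_norm _).trans ((norm_sum_le _ _).trans ?_)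
      rw [hS1, Finset.mul_sum]
      refine Finset.sum_le_sum fun i _ => ?_
      rw [norm_mul, norm_mul, norm_e, mul_one, Complex.norm_real, Real.norm_eq_abs]
      exact mul_le_mul_of_nonneg_right (ha i) (norm_nonneg _)
    rw [abs_mul 2 (∑ i : Ξ, ((a i - 1 : ℝ) : ℂ) * (φ i.1 * e (∑ p, (i.1 p : ℝ) * x p))).re,
      abs_two]
    linarith

end Crest.Agent.Lead.UF
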