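import Crest.Agent.Lead.UFDefs

/-! Moduli and flat quadratic Gauss sums (row 75). -/

set_option autoImplicit false
set_option linter.unusedSectionVars false

namespace Crest.Agent.Lead.UF

open Finset

lemma e_eq_one_iff (x : ℝ) : e x = 1 ↔ ∃ z : ℤ, x = z := by
  constructor
  · intro h
    unfold e at h
    obtain ⟨n, hn⟩ := Complex.exp_eq_one_iff.1 h
    refine ⟨n, ?_⟩
    have hpi : (2 * Real.pi * Complex.I : ℂ) ≠ 0 := Complex.two_pi_I_ne_zero
    have : ((x : ℝ) : ℂ) = n := by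
      apply mul_right_cancel₀ hpi
      rw [← hn]; ring
    exact_mod_cast this
  · rintro ⟨z, rfl⟩; exact e_int z

lemma sum_e_range (q : ℕ) (hq : 0 < q) (m : ℤ) :
    ∑ h ∈ range q, e ((m : ℝ) * h / q) = if (q : ℤ) ∣ m then (q : ℂ) else 0 := by
  have hq' : (q : ℝ) ≠ 0 := by exact_mod_cast hq.ne'
  have h1 : ∀ h : ℕ, e ((m : ℝ) * h / q) = e ((m : ℝ) / q) ^ h := fun h => by
    rw [← e_nat_mul]; congr 1; ring
  simp_rw [h1]
  split_ifs with hd
  · obtain ⟨c, rfl⟩ := hd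
    have : (((q : ℤ) * c : ℤ) : ℝ) / q = (c : ℝ) := by push_cast; field_simp
    rw [this]; simp
  · have hne : e ((m : ℝ) / q) ≠ 1 := by
      intro h
      obtain ⟨z, hz⟩ := (e_eq_one_iff _).1 h
      apply hd
      refine ⟨z, ?_⟩
      rw [div_eq_iff hq'] at hz
      have : (m : ℝ) = (q : ℝ) * z := by rw [hz]; ring
      exact_mod_cast this
    rw [geom_sum_eq hne, ← e_nat_mul]
    have : (q : ℝ) * ((m : ℝ) / q) = (m : ℤ) := by field_simp
    rw [this, e_int]; simp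

lemma e_div_congr (q : ℕ) (hq : 0 < q) {a b : ℤ} (h : a ≡ b [ZMOD q]) :
    e ((a : ℝ) / q) = e ((b : ℝ) / q) := by
  have hq' : (q : ℝ) ≠ 0 := by exact_mod_cast hq.ne'
  obtain ⟨c, hc⟩ := Int.modEq_iff_dvd.1 h
  have : (b : ℝ) / q = (a : ℝ) / q + (c : ℤ) := by
    have : (b : ℝ) = a + q * c := by exact_mod_cast (by linarith : b = a + q * c)
    rw [this]; field_simp
  rw [this, e_add_int]

/-- additive character of `ZMod q` -/
noncomputable def ch (q : ℕ) (a : ZMod q) : ℂ := e ((a.val : ℝ) / q)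

lemma ch_int (q : ℕ) [NeZero q] (a : ℤ) : ch q (a : ZMod q) = e ((a : ℝ) / q) := by
  unfold ch
  have hq : 0 < q := Nat.pos_of_ne_zero (NeZero.ne q)
  have := e_div_congr q hq (a := (((a : ZMod q).val : ℕ) : ℤ)) (b := a) (by
    rw [ZMod.val_intCast]; exact Int.mod_modEq _ _)
  simpa using this

lemma ch_add (q : ℕ) [NeZero q] (a b : ZMod q) : ch q (a + b) = ch q a * ch q b := by
  obtain ⟨a, rfl⟩ := ZMod.intCast_surjective a
  obtain ⟨b, rfl⟩ := ZMod.intCast_surjective b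
  rw [← Int.cast_add, ch_int, ch_int, ch_int, ← e_add]; congr 1; push_cast; ring

lemma conj_ch (q : ℕ) [NeZero q] (a : ZMod q) : (starRingEnd ℂ) (ch q a) = ch q (-a) := by
  obtain ⟨a, rfl⟩ := ZMod.intCast_surjective a
  rw [← Int.cast_neg, ch_int, ch_int, conj_e]; congr 1; push_cast; ring

lemma sum_zmod_eq_range (q : ℕ) [NeZero q] (F : ZMod q → ℂ) :
    ∑ a, F a = ∑ h ∈ range q, F (h : ZMod q) := by
  symm
  refine Finset.sum_bij (fun h _ => (h : ZMod q)) (fun _ _ => mem_univ _) ?_ ?_ fun _ _ => rfl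
  · intro a ha b hb h
    have := congrArg ZMod.val h
    rwa [ZMod.val_cast_of_lt (mem_range.1 ha), ZMod.val_cast_of_lt (mem_range.1 hb)] at this
  · intro b _
    exact ⟨b.val, mem_range.2 (ZMod.val_lt b), ZMod.natCast_zmod_val b⟩

lemma sum_ch (q : ℕ) [NeZero q] (m : ZMod q) :
    ∑ h, ch q (m * h) = if m = 0 then (q : ℂ) else 0 := by
  obtain ⟨m, rfl⟩ := ZMod.intCast_surjective m
  have hq : 0 < q := Nat.pos_of_ne_zero (NeZero.ne q)
  rw [sum_zmod_eq_range]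
  have : ∀ h : ℕ, ch q ((m : ZMod q) * (h : ZMod q)) = e ((m : ℝ) * h / q) := fun h => by
    have := ch_int q (m * h)
    push_cast at this
    exact this
  simp_rw [this, sum_e_range q hq, ZMod.intCast_zmod_eq_zero_iff_dvd]

lemma gauss_flat (q : ℕ) (hq : 0 < q) (A : ℤ) (hA : IsCoprime (2 * A) q) :
    ∃ ω : Fin q → ℂ, (∀ j, ‖ω j‖ = 1) ∧ ∀ k : ℤ,
      ∑ j : Fin q, ω j * e (-((j : ℕ) * k / (q : ℝ))) =
        ((√(q : ℝ) : ℝ) : ℂ) * e ((A : ℝ) / q * (k : ℝ) ^ 2) := by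
  haveI : NeZero q := ⟨hq.ne'⟩
  have hq' : (0 : ℝ) < q := by exact_mod_cast hq
  have hs : 0 < √(q : ℝ) := Real.sqrt_pos.2 hq'
  have hsq : ((√(q : ℝ) : ℝ) : ℂ) * ((√(q : ℝ) : ℝ) : ℂ) = q := by
    rw [← Complex.ofReal_mul, Real.mul_self_sqrt hq'.le]; simp
  have hs' : ((√(q : ℝ) : ℝ) : ℂ) ≠ 0 := by exact_mod_cast hs.ne'
  let T : ZMod q → ℂ := fun j => ∑ g, ch q ((A : ZMod q) * g ^ 2 + j * g)
  have hunit : IsUnit ((2 * A : ℤ) : ZMod q) := (ZMod.coe_int_isUnit_iff_isCoprime _ _).2 hA.symm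
  have hT : ∀ j, T j * (starRingEnd ℂ) (T j) = q := by
    intro j
    simp only [T, map_sum, conj_ch]
    rw [Finset.sum_mul_sum, Finset.sum_comm]
    have : ∀ h : ZMod q, ∑ g, ch q ((A : ZMod q) * g ^ 2 + j * g) *
        ch q (-((A : ZMod q) * h ^ 2 + j * h)) =
        ∑ d, ch q ((A : ZMod q) * d ^ 2 + j * d) * ch q ((((2 * A : ℤ) : ZMod q) * d) * h) := by
      intro h
      refine (Fintype.sum_equiv (Equiv.addRight h) _ _ fun d => ?_).symm
      rw [← ch_add, ← ch_add]; congr 1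
      simp only [Equiv.coe_addRight]; push_cast; ring
    simp_rw [this]
    rw [Finset.sum_comm]
    simp_rw [← Finset.mul_sum, sum_ch, hunit.mul_right_eq_zero]
    rw [Finset.sum_eq_single 0]
    · simp [ch]
    · intro d _ hd; simp [hd]
    · simp
  refine ⟨fun j => T ((j : ℕ) : ZMod q) / ((√(q : ℝ) : ℝ) : ℂ), fun j => ?_, fun k => ?_⟩
  · rw [norm_div, Complex.norm_real, Real.norm_eq_abs, abs_of_pos hs, div_eq_one_iff_eq hs.ne']
    have := hT ((j : ℕ) : ZMod q)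
    rw [Complex.mul_conj, Complex.normSq_eq_norm_sq] at this
    have h2 : ‖T ((j : ℕ) : ZMod q)‖ ^ 2 = q := by exact_mod_cast this
    rw [← h2, Real.sqrt_sq (norm_nonneg _)]
  · have h1 : ∀ j : ℕ, e (-((j : ℝ) * k / (q : ℝ))) = ch q (-((j : ZMod q) * k)) := fun j => by
      have := ch_int q (-(j * k))
      push_cast at this
      rw [this]; congr 1; ring
    simp_rw [h1]
    rw [Fin.sum_univ_eq_sum_range (fun j : ℕ => T (j : ZMod q) / ((√(q : ℝ) : ℝ) : ℂ) *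
      ch q (-((j : ZMod q) * k))), ← sum_zmod_eq_range q (fun j => T j / ((√(q : ℝ) : ℝ) : ℂ) *
      ch q (-(j * k)))]
    simp_rw [div_mul_eq_mul_div, ← Finset.sum_div]
    rw [div_eq_iff hs', mul_right_comm, hsq]
    simp only [T, Finset.sum_mul]
    rw [Finset.sum_comm]
    have : ∀ g : ZMod q, ∑ j, ch q ((A : ZMod q) * g ^ 2 + j * g) * ch q (-(j * k)) =
        ch q ((A : ZMod q) * g ^ 2) * ∑ j, ch q ((g - k) * j) := by
      intro g
      rw [Finset.mul_sum]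
      refine Finset.sum_congr rfl fun j _ => ?_
      rw [← ch_add, ← ch_add]; congr 1; ring
    simp_rw [this, sum_ch, sub_eq_zero]
    rw [Finset.sum_eq_single (k : ZMod q)]
    · have := ch_int q (A * k ^ 2)
      push_cast at this
      rw [this, if_pos rfl, mul_comm]
    · intro d _ hd; simp [hd]
    · simp

lemma exists_orth {D : ℕ} {Ξ : Type} [DecidableEq Ξ] (ξ : Ξ → Fin D → ℤ) (i : Ξ) (U : Finset Ξ)
    (h : ∀ j ∈ U, ∃ p q, ξ i p * ξ j q ≠ ξ i q * ξ j p) :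
    ∃ v : Fin D → ℤ, ξ i ⬝ᵥ v = 0 ∧ ∀ j ∈ U, ξ j ⬝ᵥ v ≠ 0 := by
  induction U using Finset.induction_on with
  | empty => exact ⟨0, by simp, by simp⟩
  | insert j U hj ih =>
    obtain ⟨v, hv0, hv⟩ := ih fun j' hj' => h j' (mem_insert_of_mem hj')
    obtain ⟨p, q, hpq⟩ := h j (mem_insert_self _ _)
    let w : Fin D → ℤ := Pi.single q (ξ i p) - Pi.single p (ξ i q)
    have hw : ∀ l, ξ l ⬝ᵥ w = ξ l q * ξ i p - ξ l p * ξ i q := fun l => by
      simp only [w, dotProduct_sub, dotProduct_single]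
    by_cases hjv : ξ j ⬝ᵥ v = 0
    · -- take `m • v + w` with `m` large
      let m : ℤ := ∑ l ∈ U, |ξ l ⬝ᵥ w| + 1
      refine ⟨m • v + w, ?_, fun l hl => ?_⟩
      · rw [dotProduct_add, dotProduct_smul, hv0, hw]; simp [mul_comm]
      · rw [dotProduct_add, dotProduct_smul, smul_eq_mul]
        rcases mem_insert.1 hl with rfl | hl
        · rw [hjv, hw, mul_zero, zero_add, sub_ne_zero, mul_comm, mul_comm (ξ l p)]; exact hpq
        · intro h0
          have a1 : |ξ l ⬝ᵥ w| ≤ ∑ l ∈ U, |ξ l ⬝ᵥ w| :=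
            Finset.single_le_sum (f := fun l => |ξ l ⬝ᵥ w|) (fun _ _ => abs_nonneg _) hl
          have a2 : 1 ≤ |ξ l ⬝ᵥ v| := Int.one_le_abs (hv l hl)
          have a3 : |ξ l ⬝ᵥ w| = m * |ξ l ⬝ᵥ v| := by
            have hm : 0 ≤ m := by have := abs_nonneg (ξ l ⬝ᵥ w); simp only [m]; linarith
            rw [← abs_of_nonneg hm, ← abs_mul, ← abs_neg]; congr 1; linarith
          have hm : |ξ l ⬝ᵥ w| + 1 ≤ m := by simp only [m]; linarith
          nlinarith [abs_nonneg (ξ l ⬝ᵥ w)]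
    · refine ⟨v, hv0, fun l hl => ?_⟩
      rcases mem_insert.1 hl with rfl | hl
      · exact hjv
      · exact hv l hl

lemma exists_moduli {Ξ : Type} [Fintype Ξ] [DecidableEq Ξ] (τ : Ξ → ℝ) (ε : ℝ) (T₀ : ℕ)
    (hT₀ : 0 < T₀) (hε : 0 < ε) (hτ : ∀ i, 0 < τ i) :
    ∃ (n : Ξ → ℕ) (c : ℝ), 0 < c ∧ (∀ i, T₀ < n i) ∧ (∀ i, Nat.Coprime (n i) T₀) ∧
      (∀ i j, i ≠ j → Nat.Coprime (n i) (n j)) ∧
      ∀ i, c * τ i ≤ n i ∧ (n i : ℝ) ≤ (1 + ε) * (c * τ i) := by
  let idx := Fintype.equivFin Ξ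
  set K : ℕ := Fintype.card Ξ with hK
  obtain ⟨c', hc0, hc⟩ : ∃ c' : ℝ, 0 < c' ∧ ∀ i, 3 ≤ ε * (c' * τ i) := by
    refine ⟨∑ i, 3 / (ε * τ i) + 1, ?_, fun i => ?_⟩
    · have : 0 ≤ ∑ i, 3 / (ε * τ i) := Finset.sum_nonneg fun i _ => by have := hτ i; positivity
      linarith
    · have h1 : 3 / (ε * τ i) ≤ ∑ i, 3 / (ε * τ i) :=
        Finset.single_le_sum (f := fun i => 3 / (ε * τ i))
          (fun i _ => by have := hτ i; positivity) (mem_univ i)
      have := hτ i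
      rw [div_le_iff₀ (by positivity)] at h1
      nlinarith [mul_pos hε this]
  let a : Ξ → ℕ := fun i => ⌈c' * τ i⌉₊ * K + idx i + 1
  have hainj : ∀ i j, a i = a j → i = j := by
    intro i j h
    have hi : (idx i : ℕ) < K := (idx i).is_lt
    have hj : (idx j : ℕ) < K := (idx j).is_lt
    have h' : ⌈c' * τ i⌉₊ * K + idx i = ⌈c' * τ j⌉₊ * K + idx j := by simp only [a] at h; omega
    have := congrArg (· % K) h'
    simp only [Nat.mul_add_mod_self_right, Nat.mod_eq_of_lt hi, Nat.mod_eq_of_lt hj] at this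
    exact idx.injective (Fin.ext this)
  let T : ℕ := T₀ * (∑ i, a i).factorial
  have hT : 0 < T := Nat.mul_pos hT₀ (Nat.factorial_pos _)
  have hcopT : ∀ i, Nat.Coprime (1 + T * a i) T := fun i => by
    rw [Nat.coprime_add_mul_left_left]; exact Nat.coprime_one_left _
  rcases isEmpty_or_nonempty Ξ with hE | hE
  · exact ⟨fun _ => 0, 1, one_pos, fun i => isEmptyElim i, fun i => isEmptyElim i,
      fun i => isEmptyElim i, fun i => isEmptyElim i⟩
  have hK0 : 0 < K := Fintype.card_pos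
  refine ⟨fun i => 1 + T * a i, T * K * c', by positivity, fun i => ?_, fun i => ?_,
    fun i j hij => ?_, fun i => ?_⟩
  · have h1 : T₀ ≤ T := Nat.le_mul_of_pos_right _ (Nat.factorial_pos _)
    have h2 : T ≤ T * a i := Nat.le_mul_of_pos_right _ (by simp only [a]; omega)
    simp only; omega
  · exact Nat.Coprime.coprime_dvd_right (Dvd.intro _ rfl) (hcopT i)
  · refine Nat.coprime_of_dvd fun p hp h1 h2 => ?_
    have hle : ∀ i, a i ≤ ∑ i, a i := fun i =>
      Finset.single_le_sum (f := a) (fun _ _ => Nat.zero_le _) (mem_univ i)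
    have hpT : ¬ p ∣ T := fun h => hp.one_lt.ne' (Nat.eq_one_of_dvd_coprimes (hcopT i) h1 h)
    have key : ∀ i j, a i < a j → p ∣ 1 + T * a i → p ∣ 1 + T * a j → False := by
      intro i j hlt h1 h2
      have h3 : p ∣ T * (a j - a i) := by
        have := Nat.dvd_sub h2 h1
        rwa [Nat.add_sub_add_left, ← Nat.mul_sub] at this
      rcases (Nat.Prime.dvd_mul hp).1 h3 with h | h
      · exact hpT h
      · refine hpT (Dvd.dvd.mul_left (h.trans (Nat.dvd_factorial (by omega) ?_)) _)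
        have := hle j; omega
    rcases lt_or_gt_of_ne (fun h => hij (hainj i j h)) with h | h
    · exact key i j h h1 h2
    · exact key j i h h2 h1
  · have hTr : (1 : ℝ) ≤ T := by exact_mod_cast hT
    have hKr : (1 : ℝ) ≤ K := by exact_mod_cast hK0
    have hi : ((idx i : ℕ) : ℝ) + 1 ≤ K := by exact_mod_cast (idx i).is_lt
    have hi0 : (0 : ℝ) ≤ ((idx i : ℕ) : ℝ) := Nat.cast_nonneg _
    have b1 := Nat.le_ceil (c' * τ i)
    have b2 := (Nat.ceil_lt_add_one (mul_pos hc0 (hτ i)).le).le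
    have b3 := hc i
    simp only [a]
    push_cast
    set x := c' * τ i
    have e1 : (T : ℝ) * K * c' * τ i = T * (K * x) := by simp only [x]; ring
    rw [e1]
    constructor
    · have : K * x ≤ (⌈x⌉₊ : ℝ) * K + idx i + 1 := by nlinarith
      nlinarith
    · have : (⌈x⌉₊ : ℝ) * K + idx i + 1 + 1 ≤ (1 + ε) * (K * x) := by nlinarith
      nlinarith

theorem gauss : Gauss := by
  intro D Ξ _ _ ξ τ ε n₀ hε hτ hmin
  choose v hv0 hv using fun i => exists_orth ξ i (univ.erase i)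
    fun j hj => hmin i j (Finset.ne_of_mem_erase hj).symm
  let T₀ : ℕ := 2 * (n₀ + 1) * ∏ i, ∏ j ∈ univ.erase i, (ξ j ⬝ᵥ v i).natAbs
  have hP : 0 < ∏ i, ∏ j ∈ univ.erase i, (ξ j ⬝ᵥ v i).natAbs :=
    Finset.prod_pos fun i _ => Finset.prod_pos fun j hj => Int.natAbs_pos.2 (hv i j hj)
  have hT₀ : 0 < T₀ := by positivity
  obtain ⟨n, c, hc, hn1, hn2, hn3, hn4⟩ := exists_moduli τ ε T₀ hT₀ hε hτ
  have hn0 : ∀ i, 0 < n i := fun i => lt_of_le_of_lt (Nat.zero_le _) (hn1 i)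
  let A : Ξ → ℤ := fun i => ∑ j ∈ univ.erase i,
    (ξ i ⬝ᵥ v j) * ∏ l ∈ (univ.erase i).erase j, (n l : ℤ)
  have hA : ∀ i, IsCoprime (2 * A i) ((∏ j ∈ univ.erase i, n j : ℕ) : ℤ) := by
    intro i
    rw [Nat.cast_prod]
    refine IsCoprime.prod_right fun j hj => IsCoprime.mul_left ?_ ?_
    · have : Nat.Coprime 2 (n j) := (Nat.Coprime.coprime_dvd_right
        (Dvd.dvd.mul_right (Dvd.intro _ rfl) _) (hn2 j)).symm
      exact_mod_cast Nat.isCoprime_iff_coprime.2 this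
    · simp only [A]
      rw [← Finset.add_sum_erase _ _ hj]
      obtain ⟨r, hr⟩ : (n j : ℤ) ∣ ∑ x ∈ (univ.erase i).erase j,
          (ξ i ⬝ᵥ v x) * ∏ l ∈ (univ.erase i).erase x, (n l : ℤ) :=
        Finset.dvd_sum fun x hx => Dvd.dvd.mul_left (Finset.dvd_prod_of_mem _
          (Finset.mem_erase.2 ⟨(Finset.ne_of_mem_erase hx).symm, hj⟩)) _
      rw [hr]
      refine IsCoprime.add_mul_left_left (IsCoprime.mul_left ?_ ?_) _
      · have h1 : (ξ i ⬝ᵥ v j).natAbs ∣ T₀ := Dvd.dvd.mul_left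
          ((Finset.dvd_prod_of_mem (fun l => (ξ l ⬝ᵥ v j).natAbs)
            (Finset.mem_erase.2 ⟨(Finset.ne_of_mem_erase hj).symm, mem_univ i⟩)).trans
            (Finset.dvd_prod_of_mem (fun i => ∏ j ∈ univ.erase i, (ξ j ⬝ᵥ v i).natAbs)
              (mem_univ j))) _
        have h2 : Nat.Coprime (ξ i ⬝ᵥ v j).natAbs (n j) :=
          (Nat.Coprime.coprime_dvd_right h1 (hn2 j)).symm
        exact Int.isCoprime_iff_gcd_eq_one.2 (by simpa [Int.gcd] using h2)
      · exact IsCoprime.prod_left fun l hl =>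
          Nat.isCoprime_iff_coprime.2 (hn3 l j (Finset.ne_of_mem_erase hl))
  choose ω hω1 hω2 using fun i => gauss_flat (∏ j ∈ univ.erase i, n j)
    (Finset.prod_pos fun j _ => hn0 j) (A i) (hA i)
  refine ⟨n, c, fun p => ∑ j, (v j p : ℝ) / n j, fun s => ω s.1 s.2, hc, fun i => ?_, hn0, hn3,
    hn4, fun s => hω1 _ _, fun i k => ?_⟩
  · have h1 : 2 * (n₀ + 1) ≤ T₀ := Nat.le_mul_of_pos_right _ hP
    have := hn1 i
    omega
  · rw [hω2]
    congr 3
    simp_rw [Finset.mul_sum]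
    rw [Finset.sum_comm]
    have h1 : ∀ j, ∑ p, (ξ i p : ℝ) * ((v j p : ℝ) / n j) = ((ξ i ⬝ᵥ v j : ℤ) : ℝ) / n j := by
      intro j
      rw [dotProduct]; push_cast
      rw [Finset.sum_div]
      exact Finset.sum_congr rfl fun p _ => by ring
    simp_rw [h1]
    rw [← Finset.add_sum_erase _ _ (mem_univ i), hv0, Int.cast_zero, zero_div, zero_add]
    simp only [A]
    push_cast
    rw [Finset.sum_div]
    refine Finset.sum_congr rfl fun j hj => ?_
    rw [← Finset.mul_prod_erase _ _ hj]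
    have h2 : (n j : ℝ) ≠ 0 := by exact_mod_cast (hn0 j).ne'
    have h3 : ∏ l ∈ (univ.erase i).erase j, (n l : ℝ) ≠ 0 :=
      Finset.prod_ne_zero_iff.2 fun l _ => by exact_mod_cast (hn0 l).ne'
    field_simp

end Crest.Agent.Lead.UF
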