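import Crest.Agent.Lead.UFDefs

/-! Assembly of row 75: auxiliary lemmas. -/

set_option autoImplicit false
set_option linter.unusedSectionVars false

namespace Crest.Agent.Lead.UF

open Finset

lemma exists_levels {Gr : Type} [Fintype Gr] (len : Gr → ℝ) (hlen : ∀ g, 0 ≤ len g) (m γ : ℝ)
    (hm : 0 ≤ m) :
    ∃ y : Gr → ℝ, (∀ g, γ ≤ y g ∧ y g + len g ≤ γ + ∑ g', (len g' + m)) ∧
      ∀ g g', g ≠ g' → y g + len g + m ≤ y g' ∨ y g' + len g' + m ≤ y g := by
  classical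
  let idx := Fintype.equivFin Gr
  have hnn : ∀ g, 0 ≤ len g + m := fun g => add_nonneg (hlen g) hm
  have key : ∀ g (U : Finset Gr), g ∈ U → (∀ g', idx g' < idx g → g' ∈ U) →
      ∑ g' ∈ univ.filter (fun g' => idx g' < idx g), (len g' + m) + (len g + m) ≤
        ∑ g' ∈ U, (len g' + m) := by
    intro g U hg hU
    rw [add_comm, ← Finset.sum_insert (s := univ.filter (fun g' => idx g' < idx g))
      (f := fun g' => len g' + m) (by simp)]
    refine Finset.sum_le_sum_of_subset_of_nonneg ?_ fun g' _ _ => hnn g'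
    intro g' hg'
    rcases Finset.mem_insert.1 hg' with rfl | h
    · exact hg
    · exact hU g' (Finset.mem_filter.1 h).2
  refine ⟨fun g => γ + ∑ g' ∈ univ.filter (fun g' => idx g' < idx g), (len g' + m),
    fun g => ⟨?_, ?_⟩, fun g g' hne => ?_⟩
  · have : 0 ≤ ∑ g' ∈ univ.filter (fun g' => idx g' < idx g), (len g' + m) :=
      Finset.sum_nonneg fun g' _ => hnn g'
    linarith
  · have := key g univ (mem_univ _) fun _ _ => mem_univ _
    linarith
  · rcases lt_or_gt_of_ne (idx.injective.ne hne) with h | h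
    · left
      have := key g (univ.filter (fun g'' => idx g'' < idx g')) (by simp [h])
        fun g'' h' => by simp [h'.trans h]
      linarith
    · right
      have := key g' (univ.filter (fun g'' => idx g'' < idx g)) (by simp [h])
        fun g'' h' => by simp [h'.trans h]
      linarith

lemma sum_near {Gr : Type} [Fintype Gr] (z b : Gr → ℝ) (a : ℝ) (near : Gr → Prop) (ha : 0 ≤ a)
    (hb : ∀ g, 0 ≤ b g) (h1 : ∀ g, |z g| ≤ a) (h2 : ∀ g, ¬ near g → |z g| ≤ b g)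
    (h3 : ∀ g g', near g → near g' → g = g') : |∑ g, z g| ≤ a + ∑ g, b g := by
  classical
  refine (Finset.abs_sum_le_sum_abs _ _).trans ?_
  by_cases h : ∃ g, near g
  · obtain ⟨g₀, hg₀⟩ := h
    rw [← Finset.add_sum_erase _ _ (mem_univ g₀)]
    refine add_le_add (h1 g₀) ((Finset.sum_le_sum fun g hg => h2 g fun hn =>
      Finset.ne_of_mem_erase hg (h3 _ _ hn hg₀)).trans ?_)
    exact Finset.sum_le_sum_of_subset_of_nonneg (Finset.erase_subset _ _) fun g _ _ => hb g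
  · push Not at h
    have := Finset.sum_le_sum fun g (_ : g ∈ univ) => h2 g (h g)
    linarith

lemma exists_atoms {S : Type} {G : ℕ} {t ℓ : S → ℕ} (h : Disj G t ℓ) (hG : Even G)
    (hℓ : ∀ s, 0 < ℓ s) :
    ∃ (At : Type) (_ : Fintype At) (xa : At → ℕ),
      Disj G (Sum.elim t xa) (Sum.elim ℓ fun _ => 1) ∧
      Covers G (Sum.elim t xa) (Sum.elim ℓ fun _ => 1) := by
  classical
  obtain ⟨g, hg⟩ := hG
  obtain ⟨h1, h2, h3⟩ := h
  refine ⟨{x : Fin g // ∀ s, ¬ ((t s ≤ x ∧ x < t s + ℓ s) ∨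
    (t s ≤ G - 1 - x ∧ G - 1 - x < t s + ℓ s))}, inferInstance, fun x => x.1,
    ⟨?_, ?_, ?_⟩, ?_⟩
  · rintro (s | x)
    · exact h1 s
    · have := x.1.is_lt
      simp only [Sum.elim_inr]; omega
  · rintro (s | x) (s' | x') hne
    · exact h2 s s' fun h => hne (by rw [h])
    · have := x'.2 s
      simp only [Sum.elim_inr, Sum.elim_inl]; omega
    · have := x.2 s'
      simp only [Sum.elim_inr, Sum.elim_inl]; omega
    · have : (x.1 : ℕ) ≠ x'.1 := fun h => hne (by rw [Subtype.ext (Fin.ext h)])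
      simp only [Sum.elim_inr]; omega
  · rintro (s | x) (s' | x')
    · exact h3 s s'
    · have := x'.2 s
      have := x'.1.is_lt
      have := hℓ s
      simp only [Sum.elim_inr, Sum.elim_inl]; omega
    · have := x.2 s'
      have := x.1.is_lt
      have := hℓ s'
      simp only [Sum.elim_inr, Sum.elim_inl]; omega
    · have := x.1.is_lt
      have := x'.1.is_lt
      simp only [Sum.elim_inr]; omega
  · intro x hx
    by_cases hc : ∃ s, (t s ≤ x ∧ x < t s + ℓ s) ∨ (t s ≤ G - 1 - x ∧ G - 1 - x < t s + ℓ s)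
    · obtain ⟨s, hs⟩ := hc
      exact ⟨Sum.inl s, hs⟩
    · have hc' : ∀ s, ¬ ((t s ≤ x ∧ x < t s + ℓ s) ∨
          (t s ≤ G - 1 - x ∧ G - 1 - x < t s + ℓ s)) := fun s hs => hc ⟨s, hs⟩
      by_cases hxg : x < g
      · refine ⟨Sum.inr ⟨⟨x, hxg⟩, hc'⟩, ?_⟩
        simp
      · refine ⟨Sum.inr ⟨⟨G - 1 - x, by omega⟩, fun s hs => hc' s ?_⟩, ?_⟩
        · have : G - 1 - (G - 1 - x) = x := by omega
          simp only [this] at hs
          tauto
        · simp

lemma content_deriv {K K' : ℝ → ℝ} (hK : ∀ x, HasDerivAt K (K' x) x) (c κ : ℝ) :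
    (∀ x, HasDerivAt (fun τ => c * ((∫ r in (0 : ℝ)..τ, K r) - κ * τ)) (c * (K x - κ)) x) ∧
    ∀ x, HasDerivAt (fun τ => c * (K τ - κ)) (c * K' x) x := by
  have hc : Continuous K := continuous_iff_continuousAt.2 fun x => (hK x).continuousAt
  refine ⟨fun x => ?_, fun x => ((hK x).sub_const κ).const_mul c⟩
  have h1 := (hc.deriv_integral K 0 x)
  have h2 : HasDerivAt (fun τ => ∫ r in (0 : ℝ)..τ, K r) (K x) x :=
    intervalIntegral.integral_hasDerivAt_right (hc.intervalIntegrable _ _)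
      (hc.stronglyMeasurableAtFilter _ _) hc.continuousAt
  have h3 : HasDerivAt (fun τ : ℝ => κ * τ) κ x := by simpa using (hasDerivAt_id x).const_mul κ
  exact (h2.sub h3).const_mul c

lemma far_bound (hFD : FirstDeriv) {K K' : ℝ → ℝ} (hK : ∀ x, HasDerivAt K (K' x) x)
    (hK' : Continuous K') (hK0 : K 0 = 0) (hK1 : ∀ x, 0 ≤ K' x) {w ρ N m κ : ℝ} (hw : 0 ≤ w)
    (hρ : 0 < ρ) (hN : 0 < N) (hm : 0 < m) (hκ : κ ≤ -(m / 2) ∨ K w + m / 2 ≤ κ) :
    ‖(ρ : ℂ) * ∫ τ in (0 : ℝ)..w, e (ρ * N * ((∫ r in (0 : ℝ)..τ, K r) - κ * τ))‖ ≤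
      2 / (m * N) := by
  obtain ⟨d1, d2⟩ := content_deriv hK (ρ * N) κ
  have hmono : Monotone K := monotone_of_deriv_nonneg (fun x => (hK x).differentiableAt)
    fun x => by rw [(hK x).deriv]; exact hK1 x
  have hρN : 0 < ρ * N := mul_pos hρ hN
  have := hFD _ _ _ 0 w (ρ * N * (m / 2)) hw (by positivity) d1 d2 (by fun_prop)
    (fun x _ => mul_nonneg hρN.le (hK1 x)) (by
      rcases hκ with h | h
      · left
        intro x hx
        have := hmono hx.1
        exact mul_le_mul_of_nonneg_left (by linarith) hρN.le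
      · right
        intro x hx
        have := hmono hx.2
        rw [← mul_neg]
        exact mul_le_mul_of_nonneg_left (by linarith) hρN.le)
  rw [norm_mul, Complex.norm_real, Real.norm_eq_abs, abs_of_pos hρ]
  refine (mul_le_mul_of_nonneg_left this hρ.le).trans (le_of_eq ?_)
  field_simp

lemma atom_bound (hV : VdC) {w N κ : ℝ} (hw : 0 ≤ w) (hN : 0 < N) :
    √N * ‖((1 : ℝ) : ℂ) * ∫ τ in (0 : ℝ)..w,
      e (1 * N * ((∫ r in (0 : ℝ)..τ, 64 * r) - κ * τ))‖ ≤ 1 / 2 := by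
  have hK : ∀ x : ℝ, HasDerivAt (fun r : ℝ => 64 * r) ((fun _ => 64) x) x := fun x => by
    simpa using (hasDerivAt_id x).const_mul (64 : ℝ)
  obtain ⟨d1, d2⟩ := content_deriv hK (1 * N) κ
  have := hV _ _ _ 0 w (64 * N) hw (by positivity) d1 d2 (by fun_prop)
    (fun x _ => by simp [mul_comm])
  rw [Complex.ofReal_one, one_mul]
  have hs : √(64 * N) = 8 * √N := by
    rw [Real.sqrt_mul (by norm_num), show (64 : ℝ) = 8 ^ 2 by norm_num,
      Real.sqrt_sq (by norm_num)]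
  have hsN : 0 < √N := Real.sqrt_pos.2 hN
  refine (mul_le_mul_of_nonneg_left this hsN.le).trans (le_of_eq ?_)
  rw [hs]; field_simp; norm_num

lemma block_bound {S : Type} [Fintype S] (ρ θ α : S → ℝ) (ω J : S → ℂ) (F : ℂ)
    {Λ q a β η κ u s M : ℝ} (hq : 0 < q) (ha0 : 0 ≤ a) (ha1 : a ≤ 1) (hM : 0 ≤ M)
    (hα : ∀ i, e (α i) * F = ω i)
    (hJ : ∀ i, ‖(s : ℂ) * J i - F * ((√(ρ i / (Λ / q ^ 2)) * a : ℝ) : ℂ) * e (ρ i * β)‖ ≤ η)
    (hD : |2 * (∑ i, ((√(ρ i / Λ) : ℝ) : ℂ) * ω i * e (ρ i * (β - κ * u) - κ * θ i)).re| ≤ M) :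
    |s * (2 * (∑ i, e (α i - κ * (θ i + ρ i * u)) * J i).re)| ≤
      q * M + 2 * Fintype.card S * η := by
  have h1 : ∀ i, (s : ℂ) * (e (α i - κ * (θ i + ρ i * u)) * J i) =
      ((q * a : ℝ) : ℂ) * (((√(ρ i / Λ) : ℝ) : ℂ) * ω i * e (ρ i * (β - κ * u) - κ * θ i)) +
      e (α i - κ * (θ i + ρ i * u)) *
        ((s : ℂ) * J i - F * ((√(ρ i / (Λ / q ^ 2)) * a : ℝ) : ℂ) * e (ρ i * β)) := by
    intro i
    have e1 : √(ρ i / (Λ / q ^ 2)) = q * √(ρ i / Λ) := by
      rw [div_div_eq_mul_div, mul_comm (ρ i), mul_div_assoc, Real.sqrt_mul (by positivity),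
        Real.sqrt_sq hq.le]
    have e2 : e (α i - κ * (θ i + ρ i * u)) * e (ρ i * β) =
        e (α i) * e (ρ i * (β - κ * u) - κ * θ i) := by
      rw [← e_add, ← e_add]; congr 1; ring
    rw [e1, ← hα i]
    push_cast
    linear_combination (F * q * ((√(ρ i / Λ) : ℝ) : ℂ) * a) * e2
  have h2 : s * (2 * (∑ i, e (α i - κ * (θ i + ρ i * u)) * J i).re) =
      (q * a) * (2 * (∑ i, ((√(ρ i / Λ) : ℝ) : ℂ) * ω i *
        e (ρ i * (β - κ * u) - κ * θ i)).re) +
      2 * (∑ i, e (α i - κ * (θ i + ρ i * u)) *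
        ((s : ℂ) * J i - F * ((√(ρ i / (Λ / q ^ 2)) * a : ℝ) : ℂ) * e (ρ i * β))).re := by
    have := congrArg Complex.re (Finset.sum_congr rfl fun i (_ : i ∈ univ) => h1 i)
    rw [Finset.sum_add_distrib, ← Finset.mul_sum, ← Finset.mul_sum, Complex.add_re,
      Complex.re_ofReal_mul, Complex.re_ofReal_mul] at this
    linarith
  rw [h2]
  refine (abs_add_le _ _).trans (add_le_add ?_ ?_)
  · rw [abs_mul, abs_of_nonneg (mul_nonneg hq.le ha0)]
    have : q * a ≤ q := mul_le_of_le_one_right hq.le ha1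
    exact mul_le_mul this hD (abs_nonneg _) hq.le
  · rw [abs_mul, abs_two, mul_assoc]
    refine mul_le_mul_of_nonneg_left ((Complex.abs_re_le_norm _).trans
      ((norm_sum_le _ _).trans ?_)) (by norm_num)
    refine (Finset.sum_le_sum (g := fun _ => η) fun i _ => ?_).trans (by simp)
    rw [norm_mul, norm_e, one_mul]; exact hJ i

end Crest.Agent.Lead.UF
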