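import Crest.Agent.Lead.UFMainA

/-! Assembly of row 75: the phase and its Fourier coefficients. -/

set_option autoImplicit false
set_option linter.unusedSectionVars false

namespace Crest.Agent.Lead.UF

open Finset

lemma budget {γ B Λ G w₁ Kw A : ℝ} (h0 : 0 < γ) (h1 : γ ≤ 1 / 20) (hG : 0 < G) (hB : 0 ≤ B)
    (hΛ : 0 < Λ) (hw : w₁ ≤ 1 / G) (hBΛ : B * Λ ≤ (1 + γ / 64) * G)
    (hK : Kw ≤ (1 + γ) * (Λ / (1 + 10 * γ) ^ 2) * w₁) (hA0 : 0 ≤ A) (hA : 2 * A ≤ γ / 64 * G) :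
    B * Kw + A * (64 * w₁) ≤ 1 - 5 * γ := by
  have a1 : A * (64 * w₁) ≤ γ / 2 := by
    have : A * (64 * w₁) ≤ A * (64 * (1 / G)) := mul_le_mul_of_nonneg_left (by linarith) hA0
    refine this.trans ?_
    rw [mul_one_div, ← mul_div_assoc, div_le_iff₀ hG]; linarith
  have a2 : Kw ≤ (1 + γ) * (Λ / (1 + 10 * γ) ^ 2) * (1 / G) :=
    hK.trans (mul_le_mul_of_nonneg_left hw (by positivity))
  have a3 : B * Kw ≤ (1 + γ) * (1 + γ / 64) / (1 + 10 * γ) ^ 2 := by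
    refine (mul_le_mul_of_nonneg_left a2 hB).trans ?_
    have : B * ((1 + γ) * (Λ / (1 + 10 * γ) ^ 2) * (1 / G)) =
        (1 + γ) * (B * Λ / G) / (1 + 10 * γ) ^ 2 := by field_simp
    rw [this]
    refine div_le_div_of_nonneg_right (mul_le_mul_of_nonneg_left ?_ (by positivity))
      (by positivity)
    rw [div_le_iff₀ hG]; exact hBΛ
  have a4 : (1 + γ) * (1 + γ / 64) / (1 + 10 * γ) ^ 2 ≤ 1 - 6 * γ := by
    rw [div_le_iff₀ (by positivity)]
    nlinarith [mul_pos h0 h0, mul_pos h0 (mul_pos h0 h0)]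
  linarith

set_option maxHeartbeats 1000000 in
theorem coeffs (hGl : Gluing) (hFD : FirstDeriv) (hV : VdC) (hCh : Chirp) (hSl : Slot)
    (hDe : Design) (γ : ℝ) (h0 : 0 < γ) (h1 : γ ≤ 1 / 20) :
    ∃ C : ℝ, ∃ N₀ : ℕ, ∀ N ≥ N₀, ∃ g : ℝ → ℝ,
      (∀ x y, |g x - g y| ≤ C * N * |x - y|) ∧ g 0 = g 1 ∧
      (∀ x ∈ Set.Icc (0 : ℝ) 1, γ * N ≤ g x ∧ g x ≤ (1 - γ) * N) ∧
      (∃ z : ℤ, ∫ s in (0 : ℝ)..1, g s = z) ∧
      ∀ k : ℤ, ∃ r : ℝ, ∫ s in (0 : ℝ)..1, e ((∫ r in (0 : ℝ)..s, g r) - k * s) = (r : ℂ) ∧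
        |√N * r| ≤ 1 + 15 * γ := by
  classical
  obtain ⟨S, _, G, B, ρ, t, ω, Λ, hG, hGe, hΛ, hρ, hω, hDisj, hcov, hBΛ, hD⟩ :=
    hDe (γ / 64) (by positivity)
  obtain ⟨At, _, xa, hDisj', hCov'⟩ := exists_atoms hDisj hGe fun p => hρ p.2
  have hGr : (0 : ℝ) < G := by exact_mod_cast hG
  have hρ1 : ∀ s, (1 : ℝ) ≤ ρ s := fun s => by exact_mod_cast hρ s
  have hAt : 2 * (Fintype.card At : ℝ) ≤ γ / 64 * G := by
    have := hDisj'.two_mul_sum_le
    rw [Fintype.sum_sum_type, Fintype.sum_prod_type] at this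
    simp only [Sum.elim_inl, Sum.elim_inr, Finset.sum_const, Finset.card_univ, Fintype.card_fin,
      smul_eq_mul, mul_one] at this
    have a1 : (2 : ℝ) * (B * ∑ s, (ρ s : ℝ) + Fintype.card At) ≤ G := by exact_mod_cast this
    linarith
  obtain ⟨R, hR1, hR⟩ : ∃ R : ℝ, 1 ≤ R ∧ ∀ s, (ρ s : ℝ) ≤ R := by
    have : 0 ≤ ∑ s, (ρ s : ℝ) := Finset.sum_nonneg fun s _ => Nat.cast_nonneg _
    refine ⟨∑ s, (ρ s : ℝ) + 1, by linarith, fun s => ?_⟩
    have := Finset.single_le_sum (f := fun s => (ρ s : ℝ)) (fun s _ => Nat.cast_nonneg _)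
      (mem_univ s)
    linarith
  obtain ⟨nT, hnT⟩ : ∃ nT : ℝ, nT = Fintype.card ((Fin B × S) ⊕ At) := ⟨_, rfl⟩
  have hnT0 : 0 ≤ nT := by rw [hnT]; positivity
  obtain ⟨u, hu0, hu1, hu2⟩ : ∃ u : ℝ, 0 < u ∧ 2 * u < 1 / G ∧
      ∀ r : ℝ, r ≤ R → 16 * √(r * u / γ) ≤ γ / (2 * nT + 1) := by
    refine ⟨min (1 / (4 * G)) (γ ^ 3 / (R * (16 * (2 * nT + 1)) ^ 2)),
      lt_min (by positivity) (by positivity), ?_, fun r hr => ?_⟩
    · have a1 := min_le_left (1 / (4 * (G : ℝ))) (γ ^ 3 / (R * (16 * (2 * nT + 1)) ^ 2))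
      have a2 : 1 / (4 * (G : ℝ)) = (1 / G) / 4 := by field_simp
      have a3 : 0 < 1 / (G : ℝ) := by positivity
      linarith
    · have a1 := min_le_right (1 / (4 * (G : ℝ))) (γ ^ 3 / (R * (16 * (2 * nT + 1)) ^ 2))
      have a0 : 0 < min (1 / (4 * (G : ℝ))) (γ ^ 3 / (R * (16 * (2 * nT + 1)) ^ 2)) :=
        lt_min (by positivity) (by positivity)
      have a2 : √(r * min (1 / (4 * (G : ℝ))) (γ ^ 3 / (R * (16 * (2 * nT + 1)) ^ 2)) / γ) ≤
          γ / (16 * (2 * nT + 1)) := by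
        refine Real.sqrt_le_iff.2 ⟨by positivity, ?_⟩
        refine (div_le_div_of_nonneg_right (mul_le_mul hr a1 a0.le (by linarith)) h0.le).trans
          (le_of_eq ?_)
        field_simp
      refine (mul_le_mul_of_nonneg_left a2 (by norm_num)).trans (le_of_eq ?_)
      field_simp
  obtain ⟨w₁, hw₁⟩ : ∃ w₁ : ℝ, w₁ = 1 / G - 2 * u := ⟨_, rfl⟩
  have hw0 : 0 < w₁ := by rw [hw₁]; linarith
  obtain ⟨F, hF, hCh⟩ := hCh
  obtain ⟨K, K', hK, hK', hK0, hK1, hKw, N₁, hN₁⟩ := hCh w₁ (Λ / (1 + 10 * γ) ^ 2) R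
    (γ / (2 * Fintype.card S + 1)) γ hw0 (by positivity) (by positivity) h0
  have hK₂ : ∀ x : ℝ, HasDerivAt (fun r : ℝ => 64 * r) ((fun _ => 64) x) x := fun x => by
    simpa using (hasDerivAt_id x).const_mul (64 : ℝ)
  obtain ⟨C₁, N₂, hN₂⟩ := hSl (1 / G) u γ 1 K K' hu0 hu1 h0 hK hK' hK0 hK1
  obtain ⟨C₂, N₃, hN₃⟩ := hSl (1 / G) u γ 1 (fun r => 64 * r) (fun _ => 64) hu0 hu1 h0 hK₂
    continuous_const (by simp) (fun _ => by norm_num)
  rw [← hw₁] at hN₂ hN₃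
  have hKw0 : 0 ≤ K w₁ := by
    have hmono : Monotone K := monotone_of_deriv_nonneg (fun x => (hK x).differentiableAt)
      fun x => by rw [(hK x).deriv]; exact hK1 x
    rw [← hK0]; exact hmono hw0.le
  obtain ⟨m, hm0, hm1⟩ : ∃ m : ℝ, 0 < m ∧ (B + Fintype.card At) * m ≤ γ := by
    refine ⟨γ / (B + Fintype.card At + 1), by positivity, ?_⟩
    rw [← mul_div_assoc, div_le_iff₀ (by positivity)]; nlinarith
  let len : Fin B ⊕ At → ℝ := Sum.elim (fun _ => K w₁) fun _ => 64 * w₁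
  have hlen : ∀ g, 0 ≤ len g := by
    rintro (b | x)
    · exact hKw0
    · simp only [len, Sum.elim_inr]; positivity
  obtain ⟨y, hy, hsep⟩ := exists_levels len hlen m γ hm0.le
  have htop : γ + ∑ g', (len g' + m) ≤ 1 - 3 * γ := by
    rw [Fintype.sum_sum_type]
    simp only [len, Sum.elim_inl, Sum.elim_inr, Finset.sum_const, Finset.card_univ,
      Fintype.card_fin, nsmul_eq_mul]
    have := budget h0 h1 hGr (Nat.cast_nonneg B) hΛ (show w₁ ≤ 1 / G by rw [hw₁]; linarith)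
      hBΛ hKw (Nat.cast_nonneg _) hAt
    nlinarith
  have hy1 : ∀ g, y g ≤ 1 := fun g => by have := (hy g).2; have := hlen g; linarith
  have hα : ∀ s, ∃ α : ℝ, e α * F = ω s := fun s => by
    obtain ⟨θ, -, hθ⟩ := exists_e_eq (z := ω s * (starRingEnd ℂ) F)
      (by rw [norm_mul, hω, Complex.norm_conj, hF, one_mul])
    refine ⟨θ, ?_⟩
    rw [hθ, mul_assoc, mul_comm _ F, Complex.mul_conj, Complex.normSq_eq_norm_sq, hF]; simp
  choose α hα using hα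
  refine ⟨2 * Fintype.card ((Fin B × S) ⊕ At) * (|C₁| + |C₂|),
    N₁ + N₂ + N₃ + ⌈1 / γ⌉₊ + ⌈(4 * nT / (m * γ)) ^ 2⌉₊ + 1, fun N hN => ?_⟩
  have hN0 : (0 : ℝ) < N := by exact_mod_cast (show 0 < N by omega)
  have hsN : 0 < √(N : ℝ) := Real.sqrt_pos.2 hN0
  have hNγ : 1 ≤ γ * N := by
    have a1 : 1 / γ ≤ N := (Nat.le_ceil _).trans (by exact_mod_cast (by omega))
    rw [div_le_iff₀ h0] at a1; linarith
  have hNm : 4 * nT / (m * γ) ≤ √(N : ℝ) := by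
    refine Real.le_sqrt_of_sq_le ((Nat.le_ceil _).trans (by exact_mod_cast (by omega)))
  -- slot data
  let tt : (Fin B × S) ⊕ At → ℕ := Sum.elim t xa
  let ll : (Fin B × S) ⊕ At → ℕ := Sum.elim (fun p => ρ p.2) fun _ => 1
  let gr : (Fin B × S) ⊕ At → Fin B ⊕ At := Sum.elim (fun p => Sum.inl p.1) Sum.inr
  let al : (Fin B × S) ⊕ At → ℝ := Sum.elim (fun p => α p.2) fun _ => 0
  let KK : (Fin B × S) ⊕ At → ℝ → ℝ := Sum.elim (fun _ => K) fun _ r => 64 * r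
  let J : (Fin B × S) ⊕ At → ℝ → ℂ := fun p κ => ((ll p : ℝ) : ℂ) * ∫ τ in (0 : ℝ)..w₁,
    e ((ll p : ℝ) * N * ((∫ r in (0 : ℝ)..τ, KK p r) - (κ / N - y (gr p)) * τ))
  have hb : ∀ p, ∃ b : ℝ → ℝ, (∀ x x', |b x - b x'| ≤ ((|C₁| + |C₂|) * N) * |x - x'|) ∧
      (∀ x, x ≤ (tt p : ℝ) / G ∨ ((tt p : ℝ) + ll p) / G ≤ x → b x = 0) ∧
      (∀ x, 0 ≤ b x ∧ b x ≤ N * (1 - 3 * γ)) ∧
      (∃ z : ℤ, ∫ x in ((tt p : ℝ) / G)..(((tt p : ℝ) + ll p) / G), b x = z) ∧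
      ∀ κ : ℝ, ‖(∫ θ in ((tt p : ℝ) / G)..(((tt p : ℝ) + ll p) / G),
          e ((∫ r in ((tt p : ℝ) / G)..θ, b r) - κ * θ))
        - e (al p - κ * ((tt p : ℝ) / G + ll p * u)) * J p κ‖ ≤ γ / (2 * nT + 1) / √N := by
    intro p
    have e1 : ((tt p : ℝ) + ll p) / G = (tt p : ℝ) / G + ll p * (1 / G) := by ring
    rw [e1]
    rcases p with p | x
    · obtain ⟨b, b1, b2, b3, b4, b5⟩ := hN₂ N (by omega) (ρ p.2) (y (Sum.inl p.1))
        ((t p : ℝ) / G) (α p.2) (hρ1 _) (hy _).1 (hy1 _)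
      refine ⟨b, fun x x' => (b1 x x').trans ?_, b2, fun x => ⟨(b3 x).1, (b3 x).2.trans ?_⟩, b4,
        fun κ => (b5 κ).trans ?_⟩
      · refine mul_le_mul_of_nonneg_right (mul_le_mul_of_nonneg_right ?_ hN0.le) (abs_nonneg _)
        linarith [le_abs_self C₁, abs_nonneg C₂]
      · exact mul_le_mul_of_nonneg_left ((hy (Sum.inl p.1)).2.trans htop) hN0.le
      · exact div_le_div_of_nonneg_right (hu2 _ (hR _)) hsN.le
    · obtain ⟨b, b1, b2, b3, b4, b5⟩ := hN₃ N (by omega) ((1 : ℕ) : ℝ) (y (Sum.inr x))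
        ((xa x : ℝ) / G) 0 (by simp) (hy _).1 (hy1 _)
      refine ⟨b, fun x x' => (b1 x x').trans ?_, b2, fun x' => ⟨(b3 x').1, (b3 x').2.trans ?_⟩,
        b4, fun κ => (b5 κ).trans ?_⟩
      · refine mul_le_mul_of_nonneg_right (mul_le_mul_of_nonneg_right ?_ hN0.le) (abs_nonneg _)
        linarith [le_abs_self C₂, abs_nonneg C₁]
      · exact mul_le_mul_of_nonneg_left ((hy (Sum.inr x)).2.trans htop) hN0.le
      · exact div_le_div_of_nonneg_right (hu2 _ (by simpa using hR1)) hsN.le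
  choose b b1 b2 b3 b4 b5 using hb
  obtain ⟨g, g1, g2, g3, g4, g5⟩ := hGl _ G tt ll b ⌈γ * N⌉ _ _ hG hDisj' hCov' b1 b2 b3 b4
  refine ⟨g, fun x x' => (g1 x x').trans (le_of_eq (by ring)), g2, fun x hx => ?_, g4,
    fun k => ⟨_, g5 k, ?_⟩⟩
  · have := g3 x hx
    have a1 := Int.le_ceil (γ * N)
    have a2 := Int.ceil_lt_add_one (γ * N)
    constructor
    · linarith [this.1]
    · linarith [this.2]
  generalize hκ : ((k - ⌈γ * N⌉ : ℤ) : ℝ) = κ
  -- remove the fast pieces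
  have c1 : |√N * (2 * (∑ p, ∫ θ in ((tt p : ℝ) / G)..(((tt p : ℝ) + ll p) / G),
        e ((∫ r in ((tt p : ℝ) / G)..θ, b p r) - κ * θ)).re) -
      √N * (2 * (∑ p, e (al p - κ * ((tt p : ℝ) / G + ll p * u)) * J p κ).re)| ≤ γ := by
    rw [← mul_sub, ← mul_sub, ← Complex.sub_re, ← Finset.sum_sub_distrib, abs_mul, abs_mul,
      abs_of_pos hsN, abs_two]
    have a1 := (Complex.abs_re_le_norm _).trans ((norm_sum_le _ _).trans
      (Finset.sum_le_sum fun p (_ : p ∈ univ) => b5 p κ))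
    rw [Finset.sum_const, Finset.card_univ, nsmul_eq_mul, ← hnT] at a1
    refine (mul_le_mul_of_nonneg_left (mul_le_mul_of_nonneg_left a1 (by norm_num)) hsN.le).trans ?_
    have : √N * (2 * (nT * (γ / (2 * nT + 1) / √N))) = γ * (2 * nT / (2 * nT + 1)) := by
      field_simp
    rw [this]
    exact mul_le_of_le_one_right h0.le (div_le_one_of_le₀ (by linarith) (by positivity))
  -- group sums
  let z : Fin B ⊕ At → ℝ := Sum.elim
    (fun b => √N * (2 * (∑ s, e (α s - κ * ((t (b, s) : ℝ) / G + ρ s * u)) *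
      J (Sum.inl (b, s)) κ).re))
    fun x => √N * (2 * (e (0 - κ * ((xa x : ℝ) / G + ((1 : ℕ) : ℝ) * u)) * J (Sum.inr x) κ).re)
  have c2 : √N * (2 * (∑ p, e (al p - κ * ((tt p : ℝ) / G + ll p * u)) * J p κ).re) =
      ∑ g, z g := by
    rw [Fintype.sum_sum_type, Fintype.sum_sum_type, Fintype.sum_prod_type, Complex.add_re,
      Complex.re_sum, Complex.re_sum, mul_add, mul_add, Finset.mul_sum, Finset.mul_sum,
      Finset.mul_sum, Finset.mul_sum]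
    rfl
  have hfar : ∀ p, (κ / N - y (gr p) ≤ -(m / 2) ∨ len (gr p) + m / 2 ≤ κ / N - y (gr p)) →
      ‖J p κ‖ ≤ 2 / (m * N) := by
    rintro (p | x) hp
    · exact far_bound hFD hK hK' hK0 hK1 hw0.le (lt_of_lt_of_le one_pos (hρ1 p.2)) hN0 hm0 hp
    · exact far_bound hFD hK₂ continuous_const (by simp) (fun _ => by norm_num) hw0.le
        (by simp [ll]) hN0 hm0 hp
  have c3 : |∑ g, z g| ≤ (1 + 13 * γ) + ∑ g : Fin B ⊕ At,
      (Sum.elim (fun _ => (Fintype.card S : ℝ)) (fun _ => 1) g) * (√N * (2 * (2 / (m * N)))) := by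
    refine sum_near z _ _ (fun g => -(m / 2) < κ / N - y g ∧ κ / N - y g < len g + m / 2)
      (by positivity) ?_ ?_ ?_ ?_
    · rintro (b | x)
      · simp only [Sum.elim_inl]; positivity
      · simp only [Sum.elim_inr]; positivity
    · rintro (b | x)
      · obtain ⟨a, β, ha0, ha1, hab⟩ := hN₁ N (by omega) (κ / N - y (Sum.inl b))
        have := block_bound (fun s => (ρ s : ℝ)) (fun s => (t (b, s) : ℝ) / G) α ω
          (fun s => J (Sum.inl (b, s)) κ) F (Λ := Λ) (q := 1 + 10 * γ) (a := a) (β := β)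
          (η := γ / (2 * Fintype.card S + 1)) (κ := κ) (u := u) (s := √N) (M := 1 + γ / 64)
          (by positivity) ha0 ha1 (by positivity) hα (fun s => by
            have := hab (ρ s) (hρ1 s) (hR s)
            rw [Complex.ofReal_mul, mul_comm ((ρ s : ℝ) : ℂ), mul_assoc] at this
            exact this) (by rw [← hκ]; exact hD b _ _)
        refine this.trans ?_
        have a1 : 2 * (Fintype.card S : ℝ) * (γ / (2 * Fintype.card S + 1)) ≤ γ := by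
          rw [← mul_div_assoc, div_le_iff₀ (by positivity)]; nlinarith
        nlinarith
      · have := atom_bound hV (κ := κ / N - y (Sum.inr x)) hw0.le hN0
        simp only [z, Sum.elim_inr]
        rw [abs_mul, abs_mul, abs_of_pos hsN, abs_two]
        have a1 := Complex.abs_re_le_norm
          (e (0 - κ * ((xa x : ℝ) / G + ((1 : ℕ) : ℝ) * u)) * J (Sum.inr x) κ)
        rw [norm_mul, norm_e, one_mul] at a1
        have a2 : √N * ‖J (Sum.inr x) κ‖ ≤ 1 / 2 := by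
          simpa only [J, ll, KK, gr, Sum.elim_inr, Nat.cast_one] using this
        have a3 := mul_le_mul_of_nonneg_left a1 hsN.le
        linarith
    · rintro (b | x) hn
      · have hn' : κ / N - y (Sum.inl b) ≤ -(m / 2) ∨
            len (Sum.inl b) + m / 2 ≤ κ / N - y (Sum.inl b) := by
          by_contra hc; push Not at hc; exact hn hc
        simp only [z, Sum.elim_inl]
        rw [abs_mul, abs_mul, abs_of_pos hsN, abs_two]
        have a1 := (Complex.abs_re_le_norm _).trans ((norm_sum_le _ _).trans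
          (Finset.sum_le_sum (g := fun _ => 2 / (m * N)) fun s (_ : s ∈ univ) =>
            (show ‖e (α s - κ * ((t (b, s) : ℝ) / G + ρ s * u)) * J (Sum.inl (b, s)) κ‖ ≤ _ by
              rw [norm_mul, norm_e, one_mul]; exact hfar (Sum.inl (b, s)) hn')))
        rw [Finset.sum_const, Finset.card_univ, nsmul_eq_mul] at a1
        have a3 := mul_le_mul_of_nonneg_left a1 hsN.le
        nlinarith
      · have hn' : κ / N - y (Sum.inr x) ≤ -(m / 2) ∨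
            len (Sum.inr x) + m / 2 ≤ κ / N - y (Sum.inr x) := by
          by_contra hc; push Not at hc; exact hn hc
        simp only [z, Sum.elim_inr]
        rw [abs_mul, abs_mul, abs_of_pos hsN, abs_two]
        have a1 := Complex.abs_re_le_norm
          (e (0 - κ * ((xa x : ℝ) / G + ((1 : ℕ) : ℝ) * u)) * J (Sum.inr x) κ)
        rw [norm_mul, norm_e, one_mul] at a1
        have a3 := mul_le_mul_of_nonneg_left (a1.trans (hfar (Sum.inr x) hn')) hsN.le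
        linarith
    · intro g g' hg hg'
      by_contra hne
      rcases hsep g g' hne with h | h <;> linarith [hg.1, hg.2, hg'.1, hg'.2]
  have c4 : ∑ g : Fin B ⊕ At,
      (Sum.elim (fun _ => (Fintype.card S : ℝ)) (fun _ => 1) g) * (√N * (2 * (2 / (m * N)))) ≤
        γ := by
    rw [← Finset.sum_mul, Fintype.sum_sum_type]
    simp only [Sum.elim_inl, Sum.elim_inr, Finset.sum_const, Finset.card_univ, Fintype.card_fin,
      nsmul_eq_mul, mul_one]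
    have a1 : (B : ℝ) * Fintype.card S + Fintype.card At = nT := by
      rw [hnT, Fintype.card_sum, Fintype.card_prod, Fintype.card_fin]; push_cast; ring
    rw [a1]
    have a2 : (N : ℝ) = √N * √N := (Real.mul_self_sqrt hN0.le).symm
    have a3 : nT * (√N * (2 * (2 / (m * N)))) = 4 * nT / (m * γ) * (γ / √N) := by
      generalize √(N : ℝ) = s at a2 hsN ⊢
      rw [a2]; field_simp; norm_num
    rw [a3]
    refine (mul_le_mul_of_nonneg_right hNm (by positivity)).trans (le_of_eq ?_)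
    field_simp
  rw [c2] at c1
  have := abs_sub_abs_le_abs_sub (√N * (2 * (∑ p, ∫ θ in ((tt p : ℝ) / G)..(((tt p : ℝ) + ll p) / G),
        e ((∫ r in ((tt p : ℝ) / G)..θ, b p r) - κ * θ)).re)) (∑ g, z g)
  linarith

theorem near_flat (hSm : Smoothing) (hGl : Gluing) (hFD : FirstDeriv) (hV : VdC) (hCh : Chirp)
    (hSl : Slot) (hDe : Design) (η : ℝ) (hη : 0 < η) :
    ∃ N₀ : ℕ, ∀ N ≥ N₀, ∃ x : Fin N → ℝ, (∀ k, |x k| ≤ 1) ∧ ∀ θ ∈ Set.Icc (0 : ℝ) 1,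
      (1 - η) * √N ≤ ‖∑ k : Fin N, (x k : ℂ) * e ((k : ℕ) * θ)‖ ∧
      ‖∑ k : Fin N, (x k : ℂ) * e ((k : ℕ) * θ)‖ ≤ (1 + η) * √N := by
  obtain ⟨γ, h0, h1, h2⟩ : ∃ γ : ℝ, 0 < γ ∧ γ ≤ 1 / 20 ∧ γ ≤ η / 16 :=
    ⟨min (1 / 20) (η / 16), lt_min (by norm_num) (by positivity), min_le_left _ _,
      min_le_right _ _⟩
  obtain ⟨C, N₁, hN₁⟩ := coeffs hGl hFD hV hCh hSl hDe γ h0 h1
  obtain ⟨N₂, hN₂⟩ := hSm C γ γ h0 h0
  refine ⟨N₁ + N₂, fun N hN => ?_⟩
  obtain ⟨g, g1, g2, g3, g4, g5⟩ := hN₁ N (by omega)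
  obtain ⟨m, hm, hms⟩ := hN₂ N (by omega) g g1 g2 g3 g4
  choose r hr1 hr2 using g5
  have hq : 0 < 1 + 15 * γ := by positivity
  refine ⟨fun k => m k * (√N * r (k : ℕ)) / (1 + 15 * γ), fun k => ?_, fun θ hθ => ?_⟩
  · rw [abs_div, abs_mul, abs_of_pos hq, div_le_one hq, abs_of_nonneg (hm k).1]
    exact (mul_le_of_le_one_left (abs_nonneg _) (hm k).2).trans (hr2 _)
  · have a1 := hms θ hθ
    have a2 : ∑ k : Fin N, ((m k * (√N * r (k : ℕ)) / (1 + 15 * γ) : ℝ) : ℂ) * e ((k : ℕ) * θ) =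
        ((√N / (1 + 15 * γ) : ℝ) : ℂ) * ∑ k : Fin N, (m k : ℂ) *
          (∫ s in (0 : ℝ)..1, e ((∫ r in (0 : ℝ)..s, g r) - (k : ℕ) * s)) * e ((k : ℕ) * θ) := by
      rw [Finset.mul_sum]
      refine Finset.sum_congr rfl fun k _ => ?_
      have := hr1 (k : ℕ)
      rw [Int.cast_natCast] at this
      rw [this]; push_cast; ring
    rw [a2, norm_mul, Complex.norm_real, Real.norm_eq_abs, abs_of_nonneg (by positivity)]
    set Z := ∑ k : Fin N, (m k : ℂ) *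
          (∫ s in (0 : ℝ)..1, e ((∫ r in (0 : ℝ)..s, g r) - (k : ℕ) * s)) * e ((k : ℕ) * θ)
    have a3 := abs_norm_sub_norm_le Z (e (∫ r in (0 : ℝ)..θ, g r))
    rw [norm_e] at a3
    have a4 := abs_le.1 (a3.trans a1)
    have hs : 0 ≤ √(N : ℝ) := Real.sqrt_nonneg _
    rw [div_mul_eq_mul_div, mul_div_assoc, mul_comm (√(N : ℝ))]
    constructor
    · refine mul_le_mul_of_nonneg_right ?_ hs
      rw [le_div_iff₀ hq]; nlinarith [a4.1, mul_pos hη h0]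
    · refine mul_le_mul_of_nonneg_right ?_ hs
      rw [div_le_iff₀ hq]; nlinarith [a4.2, mul_pos hη h0]

theorem ultraflat (hRo : Rounding) (hSm : Smoothing) (hGl : Gluing) (hFD : FirstDeriv) (hV : VdC)
    (hCh : Chirp) (hSl : Slot) (hDe : Design) (ε : ℝ) (hε : 0 < ε) :
    ∃ N₀ : ℕ, ∀ N ≥ N₀, ∃ c : Fin N → ℤˣ, ∀ z : ℂ, ‖z‖ = 1 →
      (1 - ε) * Real.sqrt N ≤ ‖∑ k : Fin N, ((c k : ℤ) : ℂ) * z ^ (k : ℕ)‖ ∧
        ‖∑ k : Fin N, ((c k : ℤ) : ℂ) * z ^ (k : ℕ)‖ ≤ (1 + ε) * Real.sqrt N := by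
  obtain ⟨η₁, hη₁, hR⟩ := hRo (ε / 2) (by positivity)
  obtain ⟨N₀, hN₀⟩ := near_flat hSm hGl hFD hV hCh hSl hDe (min η₁ (ε / 2))
    (lt_min hη₁ (by positivity))
  refine ⟨N₀, fun N hN => ?_⟩
  obtain ⟨x, hx, hp⟩ := hN₀ N hN
  have hs : 0 ≤ √(N : ℝ) := Real.sqrt_nonneg _
  obtain ⟨c, hc⟩ := hR N x hx fun θ hθ => le_trans
    (mul_le_mul_of_nonneg_right (by linarith [min_le_left η₁ (ε / 2)]) hs) (hp θ hθ).1
  refine ⟨c, fun z hz => ?_⟩
  obtain ⟨θ, hθ, rfl⟩ := exists_e_eq hz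
  have a1 := hc θ
  have a2 := hp θ hθ
  simp_rw [← e_nat_mul]
  simp_rw [sub_mul] at a1
  rw [Finset.sum_sub_distrib] at a1
  have a3 := abs_le.1 ((abs_norm_sub_norm_le _ _).trans a1)
  have a4 := mul_le_mul_of_nonneg_right (min_le_right η₁ (ε / 2)) hs
  constructor
  · nlinarith [a2.1, a3.1]
  · nlinarith [a2.2, a3.2]

end Crest.Agent.Lead.UF
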