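import Crest.Agent.Lead.UFDefs

/-! Random symmetric colouring of `ZMod P` (second moment). -/

set_option autoImplicit false
set_option linter.unusedSectionVars false

namespace Crest.Agent.Lead.UF

open Finset

/-- indicator -/
noncomputable def ind (p : Prop) : ℝ := by classical exact if p then 1 else 0

lemma ind_nonneg (p : Prop) : 0 ≤ ind p := by unfold ind; split_ifs <;> norm_num
lemma ind_le_one (p : Prop) : ind p ≤ 1 := by unfold ind; split_ifs <;> norm_num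
lemma ind_pos {p : Prop} (h : p) : ind p = 1 := by unfold ind; simp [h]
lemma ind_neg {p : Prop} (h : ¬ p) : ind p = 0 := by unfold ind; simp [h]
lemma ind_and (p q : Prop) : ind (p ∧ q) = ind p * ind q := by
  unfold ind; by_cases p <;> by_cases q <;> simp [*]
lemma ind_mono {p q : Prop} (h : p → q) : ind p ≤ ind q := by
  by_cases hp : p
  · rw [ind_pos hp, ind_pos (h hp)]
  · rw [ind_neg hp]; exact ind_nonneg _
lemma ind_congr {p q : Prop} (h : p ↔ q) : ind p = ind q := by rw [propext h]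
lemma ind_or_le (p q : Prop) : ind (p ∨ q) ≤ ind p + ind q := by
  unfold ind; by_cases p <;> by_cases q <;> simp [*]
lemma ind_exists_le {J : Type} [Fintype J] (p : J → Prop) : ind (∃ j, p j) ≤ ∑ j, ind (p j) := by
  by_cases h : ∃ j, p j
  · obtain ⟨j, hj⟩ := h
    rw [ind_pos ⟨j, hj⟩, ← ind_pos hj]
    exact Finset.single_le_sum (f := fun j => ind (p j)) (fun j _ => ind_nonneg _) (mem_univ j)
  · rw [ind_neg h]; exact Finset.sum_nonneg fun j _ => ind_nonneg _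
lemma sum_ind_eq_card {A : Type} [Fintype A] (p : A → Prop) [DecidablePred p] :
    ∑ a, ind (p a) = ((univ.filter p).card : ℝ) := by
  rw [Finset.card_filter]; push_cast
  refine Finset.sum_congr rfl fun a _ => ?_
  unfold ind; by_cases h : p a <;> simp [h]

lemma sum_ind_fiber {A B : Type} [AddCommGroup A] [AddCommGroup B] [Fintype A] [Fintype B]
    (ψ : A →+ B) (hψ : Function.Surjective ψ) (b : B) :
    ∑ u, ind (ψ u = b) = (Fintype.card A : ℝ) / Fintype.card B := by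
  classical
  have hB : (0 : ℝ) < Fintype.card B := by exact_mod_cast Fintype.card_pos
  rw [eq_div_iff hB.ne']
  have h1 : ∀ b' : B, ∑ u, ind (ψ u = b') = ∑ u, ind (ψ u = b) := by
    intro b'
    obtain ⟨v, hv⟩ := hψ (b - b')
    refine Fintype.sum_equiv (Equiv.addRight v) _ _ fun u => ind_congr ?_
    simp only [Equiv.coe_addRight, map_add, hv]
    constructor
    · intro h; rw [h]; abel
    · intro h
      rw [eq_sub_of_add_eq h]; abel
  have h2 : ∑ b' : B, ∑ u, ind (ψ u = b') = Fintype.card A := by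
    rw [Finset.sum_comm]
    have : ∀ u : A, ∑ b' : B, ind (ψ u = b') = 1 := by
      intro u
      rw [Finset.sum_eq_single (ψ u)]
      · exact ind_pos rfl
      · intro b' _ hb; exact ind_neg (Ne.symm hb)
      · simp
    simp [this]
  rw [← h2]
  simp [h1, mul_comm]

section colour
variable {O Ξ : Type} [Fintype O] [DecidableEq O] [Fintype Ξ] [DecidableEq Ξ]

/-- product weight of a colouring -/
noncomputable def wt (f : Ξ → ℝ) (c : O → Ξ) : ℝ := ∏ a, f (c a)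

omit [DecidableEq O] [Fintype Ξ] [DecidableEq Ξ] in
lemma wt_nonneg {f : Ξ → ℝ} (hf : ∀ i, 0 ≤ f i) (c : O → Ξ) : 0 ≤ wt f c :=
  Finset.prod_nonneg fun _ _ => hf _

omit [DecidableEq Ξ] in
lemma sum_wt {f : Ξ → ℝ} (hf1 : ∑ i, f i = 1) : ∑ c : O → Ξ, wt f c = 1 := by
  unfold wt
  have := Finset.prod_univ_sum (fun _ : O => (univ : Finset Ξ)) (fun _ x => f x)
  rw [Fintype.piFinset_univ] at this
  rw [← this]; simp [hf1]

lemma exp_colour {J : Type} [Fintype J] {f : Ξ → ℝ} (hf1 : ∑ i, f i = 1) (t : J → O)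
    (ht : Function.Injective t) (κ : J → Ξ) :
    ∑ c : O → Ξ, wt f c * ind (∀ j, c (t j) = κ j) = ∏ j, f (κ j) := by
  classical
  have h1 : ∀ c : O → Ξ, wt f c * ind (∀ j, c (t j) = κ j) =
      ∏ a, (f (c a) * ind (∀ j, t j = a → c a = κ j)) := by
    intro c
    rw [Finset.prod_mul_distrib]
    unfold wt
    congr 1
    by_cases h : ∀ j, c (t j) = κ j
    · rw [ind_pos h]
      symm
      refine Finset.prod_eq_one fun a _ => ind_pos ?_
      rintro j rfl; exact h j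
    · rw [ind_neg h]
      push Not at h
      obtain ⟨j, hj⟩ := h
      symm
      exact Finset.prod_eq_zero (mem_univ (t j)) (ind_neg fun h => hj (h j rfl))
  simp_rw [h1]
  have := Finset.prod_univ_sum (fun _ : O => (univ : Finset Ξ))
    (fun a x => f x * ind (∀ j, t j = a → x = κ j))
  rw [Fintype.piFinset_univ] at this
  rw [← this]
  have h2 : ∀ j, ∑ x, f x * ind (∀ j', t j' = t j → x = κ j') = f (κ j) := by
    intro j
    rw [Finset.sum_eq_single (κ j)]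
    · rw [ind_pos, mul_one]
      intro j' hj'; rw [ht hj']
    · intro x _ hx
      rw [ind_neg, mul_zero]
      intro h; exact hx (h j rfl)
    · simp
  rw [← Finset.prod_subset (Finset.subset_univ (univ.image t))]
  · rw [Finset.prod_image fun x _ y _ h => ht h]
    exact Finset.prod_congr rfl fun j _ => h2 j
  · intro a _ ha
    have : ∀ x, ind (∀ j, t j = a → x = κ j) = 1 := fun x => ind_pos fun j hj =>
      absurd (Finset.mem_image.2 ⟨j, mem_univ _, hj⟩) ha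
    simp [this, hf1]

lemma exp_colour_le {J : Type} [Fintype J] {f : Ξ → ℝ} (hf : ∀ i, 0 ≤ f i) (hf1 : ∑ i, f i = 1)
    (t : J → O) (κ : J → Ξ) :
    ∑ c : O → Ξ, wt f c * ind (∀ j, c (t j) = κ j) ≤
      ∏ j, f (κ j) + ind (¬ Function.Injective t) := by
  by_cases ht : Function.Injective t
  · rw [exp_colour hf1 t ht κ, ind_neg (not_not.2 ht), add_zero]
  · rw [ind_pos ht]
    have h0 : 0 ≤ ∏ j, f (κ j) := Finset.prod_nonneg fun _ _ => hf _
    have : ∑ c : O → Ξ, wt f c * ind (∀ j, c (t j) = κ j) ≤ ∑ c : O → Ξ, wt f c :=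
      Finset.sum_le_sum fun c _ => mul_le_of_le_one_right (wt_nonneg hf c) (ind_le_one _)
    rw [sum_wt hf1] at this
    linarith

lemma exp_colour_ge {J : Type} [Fintype J] {f : Ξ → ℝ} (hf : ∀ i, 0 ≤ f i) (hf1 : ∑ i, f i = 1)
    (t : J → O) (κ : J → Ξ) :
    (∏ j, f (κ j)) * (1 - ind (¬ Function.Injective t)) ≤
      ∑ c : O → Ξ, wt f c * ind (∀ j, c (t j) = κ j) := by
  by_cases ht : Function.Injective t
  · rw [exp_colour hf1 t ht κ, ind_neg (not_not.2 ht)]; simp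
  · rw [ind_pos ht, sub_self, mul_zero]
    exact Finset.sum_nonneg fun c _ => mul_nonneg (wt_nonneg hf c) (ind_nonneg _)

end colour

section second
variable {P : ℕ} [NeZero P] {A Ξ : Type} [AddCommGroup A] [Fintype A] [Fintype Ξ] [DecidableEq Ξ]

/-- representative of the mirror pair `{a, -1-a}` -/
def rep (a : ZMod P) : ZMod P := if a.val ≤ (-1 - a).val then a else -1 - a

lemma rep_mirror (a : ZMod P) : rep (-1 - a) = rep a := by
  unfold rep
  have h : -1 - (-1 - a) = a := by ring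
  rw [h]
  split_ifs with h1 h2 h2
  · exact ZMod.val_injective P (le_antisymm h1 h2)
  · rfl
  · rfl
  · omega

omit [NeZero P] in
lemma rep_eq {a b : ZMod P} (h : rep a = rep b) : b = a ∨ b = -1 - a := by
  unfold rep at h
  split_ifs at h with h1 h2 h2
  · exact Or.inl h.symm
  · right; rw [h]; ring
  · exact Or.inr h.symm
  · left; linear_combination h

variable (φ : Ξ → A →+ ZMod P) (s : Ξ → ZMod P)

/-- the site of frequency `ζ` at the point `u` -/
def site (ζ : Ξ) (u : A) : ZMod P := rep (φ ζ u + s ζ)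

lemma sum_bad1 (h1 : ∀ ζ ζ', ζ ≠ ζ' → Function.Surjective (φ ζ - φ ζ'))
    (h2 : ∀ ζ ζ', ζ ≠ ζ' → Function.Surjective (φ ζ + φ ζ')) :
    ∑ u, ind (¬ Function.Injective fun ζ => site φ s ζ u) ≤
      2 * (Fintype.card Ξ : ℝ) ^ 2 * ((Fintype.card A : ℝ) / P) := by
  have hle : ∀ u, ind (¬ Function.Injective fun ζ => site φ s ζ u) ≤
      ∑ p : Ξ × Ξ, (ind (p.1 ≠ p.2 ∧ (φ p.1 - φ p.2) u = s p.2 - s p.1) +
        ind (p.1 ≠ p.2 ∧ (φ p.1 + φ p.2) u = -1 - s p.2 - s p.1)) := by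
    intro u
    refine le_trans (ind_mono ?_) ((ind_exists_le (fun p : Ξ × Ξ =>
      (p.1 ≠ p.2 ∧ (φ p.1 - φ p.2) u = s p.2 - s p.1) ∨
        (p.1 ≠ p.2 ∧ (φ p.1 + φ p.2) u = -1 - s p.2 - s p.1))).trans
      (Finset.sum_le_sum fun p _ => ind_or_le _ _))
    intro h
    unfold Function.Injective at h
    push Not at h
    obtain ⟨ζ, ζ', h, hne⟩ := h
    refine ⟨(ζ, ζ'), ?_⟩
    rcases rep_eq h with h | h
    · left; refine ⟨hne, ?_⟩
      simp only [AddMonoidHom.sub_apply]; linear_combination -h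
    · right; refine ⟨hne, ?_⟩
      simp only [AddMonoidHom.add_apply]; linear_combination h
  refine (Finset.sum_le_sum fun u _ => hle u).trans ?_
  rw [Finset.sum_comm]
  have hα : (0 : ℝ) ≤ (Fintype.card A : ℝ) / P := by positivity
  have : ∀ p : Ξ × Ξ, ∑ u, (ind (p.1 ≠ p.2 ∧ (φ p.1 - φ p.2) u = s p.2 - s p.1) +
        ind (p.1 ≠ p.2 ∧ (φ p.1 + φ p.2) u = -1 - s p.2 - s p.1)) ≤
        2 * ((Fintype.card A : ℝ) / P) := by
    intro p
    by_cases hp : p.1 = p.2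
    · have e1 : ∀ q : Prop, ind (p.1 ≠ p.2 ∧ q) = 0 := fun q => ind_neg fun h => h.1 hp
      simp only [e1, add_zero, Finset.sum_const_zero]; positivity
    · have e1 : ∀ q : Prop, ind (p.1 ≠ p.2 ∧ q) = ind q := fun q => ind_congr (by simp [hp])
      simp only [e1]
      rw [Finset.sum_add_distrib, sum_ind_fiber _ (h1 _ _ hp), sum_ind_fiber _ (h2 _ _ hp),
        ZMod.card]
      linarith
  refine (Finset.sum_le_sum fun p _ => this p).trans (le_of_eq ?_)
  simp [Fintype.card_prod]; ring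

/-- number of points over `a` that are correctly coloured away from `η` -/
noncomputable def X (c : ZMod P → Ξ) (η : Ξ) (a : ZMod P) : ℝ :=
  ∑ u, ind (φ η u + s η = a) * ind (∀ ζ : {ζ // ζ ≠ η}, c (site φ s ζ.1 u) = ζ.1)

lemma sum_X (c : ZMod P → Ξ) (η : Ξ) :
    ∑ a, X φ s c η a = ∑ u, ind (∀ ζ : {ζ // ζ ≠ η}, c (site φ s ζ.1 u) = ζ.1) := by
  unfold X
  rw [Finset.sum_comm]
  refine Finset.sum_congr rfl fun u _ => ?_
  rw [← Finset.sum_mul, Finset.sum_eq_single (φ η u + s η)]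
  · rw [ind_pos rfl, one_mul]
  · intro b _ hb; exact ind_neg (Ne.symm hb)
  · simp

lemma sum_X_sq (c : ZMod P → Ξ) (η : Ξ) :
    ∑ a, X φ s c η a ^ 2 = ∑ u, ∑ u', ind (φ η u' = φ η u) *
      ind (∀ j : {ζ // ζ ≠ η} ⊕ {ζ // ζ ≠ η},
        c (Sum.elim (fun ζ => site φ s ζ.1 u) (fun ζ => site φ s ζ.1 u') j) =
          Sum.elim (fun ζ => ζ.1) (fun ζ => ζ.1) j) := by
  unfold X
  simp_rw [sq, Finset.sum_mul_sum]
  rw [Finset.sum_comm]
  refine Finset.sum_congr rfl fun u _ => ?_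
  rw [Finset.sum_comm]
  refine Finset.sum_congr rfl fun u' _ => ?_
  rw [Finset.sum_eq_single (φ η u + s η)]
  · rw [ind_pos rfl, one_mul, ind_congr (Sum.forall (p := fun j : {ζ // ζ ≠ η} ⊕ {ζ // ζ ≠ η} =>
        c (Sum.elim (fun ζ => site φ s ζ.1 u) (fun ζ => site φ s ζ.1 u') j) =
          Sum.elim (fun ζ => ζ.1) (fun ζ => ζ.1) j)), ind_and,
      ind_congr (add_left_inj (s η) (b := φ η u') (c := φ η u))]
    simp only [Sum.elim_inl, Sum.elim_inr]
    ring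
  · intro b _ hb; rw [ind_neg (Ne.symm hb)]; ring
  · simp

lemma sum_bad2 (h0 : ∀ ζ, Function.Surjective (φ ζ))
    (h1 : ∀ ζ ζ', ζ ≠ ζ' → Function.Surjective (φ ζ - φ ζ'))
    (h2 : ∀ ζ ζ', ζ ≠ ζ' → Function.Surjective (φ ζ + φ ζ'))
    (h3 : ∀ ζ ζ', ζ ≠ ζ' → Function.Surjective ((φ ζ).prod (φ ζ'))) (η : Ξ) :
    ∑ u, ∑ u', ind (φ η u' = φ η u) * ind (¬ Function.Injective
      (Sum.elim (fun ζ : {ζ // ζ ≠ η} => site φ s ζ.1 u)
        (fun ζ : {ζ // ζ ≠ η} => site φ s ζ.1 u'))) ≤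
      6 * (Fintype.card Ξ : ℝ) ^ 2 * ((Fintype.card A : ℝ) / P) ^ 2 := by
  set α : ℝ := (Fintype.card A : ℝ) / P with hαdef
  have hP : (0 : ℝ) < P := by exact_mod_cast Nat.pos_of_ne_zero (NeZero.ne P)
  have hα : 0 ≤ α := by positivity
  have hle : ∀ u u', ind (¬ Function.Injective
      (Sum.elim (fun ζ : {ζ // ζ ≠ η} => site φ s ζ.1 u)
        (fun ζ : {ζ // ζ ≠ η} => site φ s ζ.1 u'))) ≤
      ind (¬ Function.Injective fun ζ => site φ s ζ u) +
      ind (¬ Function.Injective fun ζ => site φ s ζ u') +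
      ∑ p : Ξ × Ξ, (ind (η ≠ p.2 ∧ φ p.2 u' = φ p.1 u + s p.1 - s p.2) +
        ind (η ≠ p.2 ∧ φ p.2 u' = -1 - (φ p.1 u + s p.1) - s p.2)) := by
    intro u u'
    have hs : 0 ≤ ∑ p : Ξ × Ξ, (ind (η ≠ p.2 ∧ φ p.2 u' = φ p.1 u + s p.1 - s p.2) +
        ind (η ≠ p.2 ∧ φ p.2 u' = -1 - (φ p.1 u + s p.1) - s p.2)) :=
      Finset.sum_nonneg fun p _ => add_nonneg (ind_nonneg _) (ind_nonneg _)
    by_cases b1 : Function.Injective fun ζ => site φ s ζ u
    swap
    · rw [ind_pos b1]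
      linarith [ind_le_one (¬ Function.Injective
        (Sum.elim (fun ζ : {ζ // ζ ≠ η} => site φ s ζ.1 u)
          (fun ζ : {ζ // ζ ≠ η} => site φ s ζ.1 u'))),
        ind_nonneg (¬ Function.Injective fun ζ => site φ s ζ u')]
    by_cases b2 : Function.Injective fun ζ => site φ s ζ u'
    swap
    · rw [ind_pos b2]
      linarith [ind_le_one (¬ Function.Injective
        (Sum.elim (fun ζ : {ζ // ζ ≠ η} => site φ s ζ.1 u)
          (fun ζ : {ζ // ζ ≠ η} => site φ s ζ.1 u'))),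
        ind_nonneg (¬ Function.Injective fun ζ => site φ s ζ u)]
    rw [ind_neg (not_not.2 b1), ind_neg (not_not.2 b2), zero_add, zero_add]
    refine le_trans (ind_mono ?_) ((ind_exists_le (fun p : Ξ × Ξ =>
      (η ≠ p.2 ∧ φ p.2 u' = φ p.1 u + s p.1 - s p.2) ∨
        (η ≠ p.2 ∧ φ p.2 u' = -1 - (φ p.1 u + s p.1) - s p.2))).trans
      (Finset.sum_le_sum fun p _ => ind_or_le _ _))
    intro h
    by_contra hcon
    apply h
    have key : ∀ ζ ζ' : {ζ // ζ ≠ η}, site φ s ζ.1 u ≠ site φ s ζ'.1 u' := by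
      intro ζ ζ' h
      apply hcon
      refine ⟨(ζ.1, ζ'.1), ?_⟩
      rcases rep_eq h with h | h
      · left; exact ⟨ζ'.2.symm, by linear_combination h⟩
      · right; exact ⟨ζ'.2.symm, by linear_combination h⟩
    rintro (ζ | ζ) (ζ' | ζ') h
    · rw [Subtype.ext (b1 h)]
    · exact absurd h (key _ _)
    · exact absurd h.symm (key _ _)
    · rw [Subtype.ext (b2 h)]
  have hb := sum_bad1 φ s h1 h2
  rw [← hαdef] at hb
  have hfib : ∀ b, ∑ u', ind (φ η u' = b) = α := by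
    intro b; rw [sum_ind_fiber _ (h0 η), ZMod.card]
  have t1 : ∑ u, ∑ u', ind (φ η u' = φ η u) * ind (¬ Function.Injective fun ζ => site φ s ζ u)
      ≤ 2 * (Fintype.card Ξ : ℝ) ^ 2 * α * α := by
    simp_rw [← Finset.sum_mul, hfib, ← Finset.mul_sum]
    nlinarith [mul_le_mul_of_nonneg_left hb hα]
  have t2 : ∑ u, ∑ u', ind (φ η u' = φ η u) * ind (¬ Function.Injective fun ζ => site φ s ζ u')
      ≤ 2 * (Fintype.card Ξ : ℝ) ^ 2 * α * α := by
    rw [Finset.sum_comm]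
    have hfib' : ∀ b, ∑ u', ind (b = φ η u') = α := fun b => by
      rw [← hfib b]; exact Finset.sum_congr rfl fun u _ => ind_congr eq_comm
    simp_rw [← Finset.sum_mul, hfib', ← Finset.mul_sum]
    nlinarith [mul_le_mul_of_nonneg_left hb hα]
  have t3 : ∑ u, ∑ u', ind (φ η u' = φ η u) *
      ∑ p : Ξ × Ξ, (ind (η ≠ p.2 ∧ φ p.2 u' = φ p.1 u + s p.1 - s p.2) +
        ind (η ≠ p.2 ∧ φ p.2 u' = -1 - (φ p.1 u + s p.1) - s p.2))
      ≤ 2 * (Fintype.card Ξ : ℝ) ^ 2 * α * α := by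
    have hq : ∀ (ζ : Ξ) (b b' : ZMod P),
        ∑ u', ind (φ η u' = b) * ind (η ≠ ζ ∧ φ ζ u' = b') ≤ α / P := by
      intro ζ b b'
      by_cases hz : η = ζ
      · have e1 : ∀ q : Prop, ind (η ≠ ζ ∧ q) = 0 := fun q => ind_neg fun h => h.1 hz
        simp only [e1, mul_zero, Finset.sum_const_zero]; positivity
      · have := sum_ind_fiber _ (h3 η ζ hz) (b, b')
        rw [Fintype.card_prod, ZMod.card] at this
        refine le_of_eq ?_
        rw [hαdef, div_div, ← Nat.cast_mul, ← this]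
        refine Finset.sum_congr rfl fun u' _ => ?_
        rw [← ind_and]
        exact ind_congr (by simp [hz])
    have : ∀ u : A, ∑ u', ind (φ η u' = φ η u) *
      ∑ p : Ξ × Ξ, (ind (η ≠ p.2 ∧ φ p.2 u' = φ p.1 u + s p.1 - s p.2) +
        ind (η ≠ p.2 ∧ φ p.2 u' = -1 - (φ p.1 u + s p.1) - s p.2)) ≤
        (Fintype.card Ξ : ℝ) ^ 2 * (2 * (α / P)) := by
      intro u
      simp_rw [Finset.mul_sum]
      rw [Finset.sum_comm]
      have : ∀ p : Ξ × Ξ, ∑ u', ind (φ η u' = φ η u) *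
          (ind (η ≠ p.2 ∧ φ p.2 u' = φ p.1 u + s p.1 - s p.2) +
            ind (η ≠ p.2 ∧ φ p.2 u' = -1 - (φ p.1 u + s p.1) - s p.2)) ≤ 2 * (α / P) := by
        intro p
        simp_rw [mul_add]
        rw [Finset.sum_add_distrib]
        linarith [hq p.2 (φ η u) (φ p.1 u + s p.1 - s p.2),
          hq p.2 (φ η u) (-1 - (φ p.1 u + s p.1) - s p.2)]
      refine (Finset.sum_le_sum fun p _ => this p).trans (le_of_eq ?_)
      rw [Finset.sum_const, Finset.card_univ, nsmul_eq_mul, Fintype.card_prod]; push_cast; ring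
    refine (Finset.sum_le_sum fun u _ => this u).trans (le_of_eq ?_)
    simp only [Finset.sum_const, Finset.card_univ, nsmul_eq_mul]
    rw [hαdef]; field_simp
  calc _ ≤ ∑ u, ∑ u', ind (φ η u' = φ η u) *
        (ind (¬ Function.Injective fun ζ => site φ s ζ u) +
        ind (¬ Function.Injective fun ζ => site φ s ζ u') +
        ∑ p : Ξ × Ξ, (ind (η ≠ p.2 ∧ φ p.2 u' = φ p.1 u + s p.1 - s p.2) +
          ind (η ≠ p.2 ∧ φ p.2 u' = -1 - (φ p.1 u + s p.1) - s p.2))) :=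
        Finset.sum_le_sum fun u _ => Finset.sum_le_sum fun u' _ =>
          mul_le_mul_of_nonneg_left (hle u u') (ind_nonneg _)
    _ ≤ _ := by
        simp_rw [mul_add (ind _), Finset.sum_add_distrib] at t3 ⊢
        nlinarith [t1, t2, t3]

lemma exp_var {f : Ξ → ℝ} (hf : ∀ i, 0 < f i) (hf1 : ∑ i, f i = 1)
    (h0 : ∀ ζ, Function.Surjective (φ ζ))
    (h1 : ∀ ζ ζ', ζ ≠ ζ' → Function.Surjective (φ ζ - φ ζ'))
    (h2 : ∀ ζ ζ', ζ ≠ ζ' → Function.Surjective (φ ζ + φ ζ'))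
    (h3 : ∀ ζ ζ', ζ ≠ ζ' → Function.Surjective ((φ ζ).prod (φ ζ'))) (η : Ξ) :
    ∑ c : ZMod P → Ξ, wt f c * ∑ a, (X φ s c η a -
        (Fintype.card A : ℝ) / P * ∏ ζ : {ζ // ζ ≠ η}, f ζ.1) ^ 2 ≤
      10 * (Fintype.card Ξ : ℝ) ^ 2 * ((Fintype.card A : ℝ) / P) ^ 2 := by
  set α : ℝ := (Fintype.card A : ℝ) / P with hαdef
  set F : ℝ := ∏ ζ : {ζ // ζ ≠ η}, f ζ.1 with hF
  set K : ℝ := (Fintype.card Ξ : ℝ) with hK
  have hP : (0 : ℝ) < P := by exact_mod_cast Nat.pos_of_ne_zero (NeZero.ne P)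
  have hα : 0 ≤ α := by positivity
  have hA : (Fintype.card A : ℝ) = α * P := by rw [hαdef]; field_simp
  have hf' : ∀ i, 0 ≤ f i := fun i => (hf i).le
  have hF0 : 0 ≤ F := Finset.prod_nonneg fun _ _ => hf' _
  have hF1 : F ≤ 1 := Finset.prod_le_one (fun _ _ => hf' _) fun i _ => by
    rw [← hf1]; exact Finset.single_le_sum (f := f) (fun j _ => hf' j) (mem_univ _)
  have hfib : ∀ b, ∑ u', ind (φ η u' = b) = α := by
    intro b; rw [sum_ind_fiber _ (h0 η), ZMod.card]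
  have e1 : ∀ c : ZMod P → Ξ, ∑ a, (X φ s c η a - α * F) ^ 2 =
      ∑ a, X φ s c η a ^ 2 - 2 * (α * F) * ∑ a, X φ s c η a + P * (α * F) ^ 2 := by
    intro c
    simp_rw [sub_sq]
    rw [Finset.sum_add_distrib, Finset.sum_sub_distrib, Finset.mul_sum, Finset.sum_const,
      Finset.card_univ, ZMod.card, nsmul_eq_mul]
    congr 2
    exact Finset.sum_congr rfl fun a _ => by ring
  have s2 : ∑ c : ZMod P → Ξ, wt f c * ∑ a, X φ s c η a ^ 2 ≤
      α * P * α * F ^ 2 + 6 * K ^ 2 * α ^ 2 := by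
    simp_rw [sum_X_sq, Finset.mul_sum]
    rw [Finset.sum_comm]
    have : ∀ u : A, ∑ c : ZMod P → Ξ, ∑ u', wt f c * (ind (φ η u' = φ η u) *
      ind (∀ j : {ζ // ζ ≠ η} ⊕ {ζ // ζ ≠ η},
        c (Sum.elim (fun ζ => site φ s ζ.1 u) (fun ζ => site φ s ζ.1 u') j) =
          Sum.elim (fun ζ => ζ.1) (fun ζ => ζ.1) j)) ≤
        ∑ u', ind (φ η u' = φ η u) * (F ^ 2 + ind (¬ Function.Injective
          (Sum.elim (fun ζ : {ζ // ζ ≠ η} => site φ s ζ.1 u)
            (fun ζ : {ζ // ζ ≠ η} => site φ s ζ.1 u')))) := by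
      intro u
      rw [Finset.sum_comm]
      refine Finset.sum_le_sum fun u' _ => ?_
      simp_rw [mul_left_comm (wt f _)]
      rw [← Finset.mul_sum]
      refine mul_le_mul_of_nonneg_left ?_ (ind_nonneg _)
      refine (exp_colour_le hf' hf1 _ _).trans (le_of_eq ?_)
      rw [Fintype.prod_sum_type]
      simp only [Sum.elim_inl, Sum.elim_inr]
      rw [← hF, sq]
    refine (Finset.sum_le_sum fun u _ => this u).trans ?_
    simp_rw [mul_add, Finset.sum_add_distrib, ← Finset.sum_mul, hfib]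
    have := sum_bad2 φ s h0 h1 h2 h3 η
    rw [Finset.sum_const, Finset.card_univ, nsmul_eq_mul, hA]
    linarith
  have s1 : F * (α * P - 2 * K ^ 2 * α) ≤ ∑ c : ZMod P → Ξ, wt f c * ∑ a, X φ s c η a := by
    simp_rw [sum_X, Finset.mul_sum]
    rw [Finset.sum_comm]
    have : ∀ u : A, F * (1 - ind (¬ Function.Injective fun ζ => site φ s ζ u)) ≤
        ∑ c : ZMod P → Ξ, wt f c * ind (∀ ζ : {ζ // ζ ≠ η}, c (site φ s ζ.1 u) = ζ.1) := by
      intro u
      refine le_trans ?_ (exp_colour_ge hf' hf1 (fun ζ : {ζ // ζ ≠ η} => site φ s ζ.1 u)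
        (fun ζ => ζ.1))
      refine mul_le_mul_of_nonneg_left (sub_le_sub_left (ind_mono ?_) _) hF0
      intro h h'
      exact h fun ζ ζ' e => Subtype.ext (h' e)
    refine le_trans ?_ (Finset.sum_le_sum fun u _ => this u)
    rw [← Finset.mul_sum, Finset.sum_sub_distrib, Finset.sum_const, Finset.card_univ,
      nsmul_eq_mul, hA, mul_one]
    refine mul_le_mul_of_nonneg_left ?_ hF0
    have := sum_bad1 φ s h1 h2
    linarith
  simp_rw [e1, mul_add, mul_sub, Finset.sum_add_distrib, Finset.sum_sub_distrib,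
    mul_left_comm (wt f _) (2 * (α * F)), ← Finset.mul_sum, ← Finset.sum_mul, sum_wt hf1]
  have hαF : 0 ≤ 2 * (α * F) := by positivity
  have := mul_le_mul_of_nonneg_left s1 hαF
  have hF2 : F ^ 2 ≤ 1 := by nlinarith
  have : K ^ 2 * α ^ 2 * F ^ 2 ≤ K ^ 2 * α ^ 2 := mul_le_of_le_one_right (by positivity) hF2
  nlinarith

/-- the points kept: correctly coloured and never over an overloaded site -/
def Kept (f : Ξ → ℝ) (ε : ℝ) (c : ZMod P → Ξ) (u : A) : Prop :=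
  (∀ ζ, c (site φ s ζ u) = ζ) ∧ ∀ η, X φ s c η (φ η u + s η) ≤
    (1 + ε) * ((Fintype.card A : ℝ) / P * ∏ ζ : {ζ // ζ ≠ η}, f ζ.1)

lemma kept_fiber {f : Ξ → ℝ} (hf : ∀ i, 0 < f i) {ε : ℝ} (hε : 0 < ε) (c : ZMod P → Ξ) (η : Ξ)
    (a : ZMod P) : ∑ u, ind (Kept φ s f ε c u ∧ φ η u + s η = a) ≤
      (1 + ε) * ((Fintype.card A : ℝ) / P * ∏ ζ : {ζ // ζ ≠ η}, f ζ.1) := by
  by_cases h : ∃ u, Kept φ s f ε c u ∧ φ η u + s η = a
  · obtain ⟨u, hu, rfl⟩ := h
    refine le_trans ?_ (hu.2 η)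
    unfold X
    refine Finset.sum_le_sum fun u' _ => ?_
    rw [← ind_and]
    exact ind_mono fun h => ⟨h.2, fun ζ => h.1.1 ζ.1⟩
  · push Not at h
    have : ∀ u, ind (Kept φ s f ε c u ∧ φ η u + s η = a) = 0 := fun u =>
      ind_neg fun h' => h u h'.1 h'.2
    simp only [this, Finset.sum_const_zero]
    have : 0 ≤ ∏ ζ : {ζ // ζ ≠ η}, f ζ.1 := Finset.prod_nonneg fun _ _ => (hf _).le
    positivity

lemma kept_ge {f : Ξ → ℝ} (hf : ∀ i, 0 < f i) {ε : ℝ} (hε : 0 < ε) (c : ZMod P → Ξ) :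
    ∑ u, ind (∀ ζ, c (site φ s ζ u) = ζ) - ∑ η, (1 + ε) / (ε ^ 2 *
        ((Fintype.card A : ℝ) / P * ∏ ζ : {ζ // ζ ≠ η}, f ζ.1)) * ∑ a, (X φ s c η a -
        (Fintype.card A : ℝ) / P * ∏ ζ : {ζ // ζ ≠ η}, f ζ.1) ^ 2 ≤
      ∑ u, ind (Kept φ s f ε c u) := by
  have hP : (0 : ℝ) < P := by exact_mod_cast Nat.pos_of_ne_zero (NeZero.ne P)
  have hA : (0 : ℝ) < Fintype.card A := by exact_mod_cast Fintype.card_pos
  set d : Ξ → ℝ := fun η => (Fintype.card A : ℝ) / P * ∏ ζ : {ζ // ζ ≠ η}, f ζ.1 with hd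
  have hd0 : ∀ η, 0 < d η := fun η =>
    mul_pos (by positivity) (Finset.prod_pos fun _ _ => hf _)
  have h1 : ∀ u, ind (∀ ζ, c (site φ s ζ u) = ζ) ≤ ind (Kept φ s f ε c u) +
      ∑ η, ∑ a, ind ((1 + ε) * d η < X φ s c η a) *
        (ind (φ η u + s η = a) * ind (∀ ζ : {ζ // ζ ≠ η}, c (site φ s ζ.1 u) = ζ.1)) := by
    intro u
    have hnn : ∀ η a, 0 ≤ ind ((1 + ε) * d η < X φ s c η a) *
        (ind (φ η u + s η = a) * ind (∀ ζ : {ζ // ζ ≠ η}, c (site φ s ζ.1 u) = ζ.1)) :=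
      fun η a => mul_nonneg (ind_nonneg _) (mul_nonneg (ind_nonneg _) (ind_nonneg _))
    have hs : 0 ≤ ∑ η, ∑ a, ind ((1 + ε) * d η < X φ s c η a) *
        (ind (φ η u + s η = a) * ind (∀ ζ : {ζ // ζ ≠ η}, c (site φ s ζ.1 u) = ζ.1)) :=
      Finset.sum_nonneg fun η _ => Finset.sum_nonneg fun a _ => hnn η a
    by_cases hg : ∀ ζ, c (site φ s ζ u) = ζ
    swap
    · rw [ind_neg hg]; linarith [ind_nonneg (Kept φ s f ε c u)]
    by_cases hk : Kept φ s f ε c u
    · rw [ind_pos hg, ind_pos hk]; linarith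
    rw [ind_pos hg, ind_neg hk, zero_add]
    have : ∃ η, (1 + ε) * d η < X φ s c η (φ η u + s η) := by
      by_contra hc
      push Not at hc
      exact hk ⟨hg, hc⟩
    obtain ⟨η, hη⟩ := this
    refine le_trans ?_ (Finset.single_le_sum (f := fun η => ∑ a,
      ind ((1 + ε) * d η < X φ s c η a) *
        (ind (φ η u + s η = a) * ind (∀ ζ : {ζ // ζ ≠ η}, c (site φ s ζ.1 u) = ζ.1)))
      (fun η _ => Finset.sum_nonneg fun a _ => hnn η a) (mem_univ η))
    refine le_trans ?_ (Finset.single_le_sum (f := fun a =>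
      ind ((1 + ε) * d η < X φ s c η a) *
        (ind (φ η u + s η = a) * ind (∀ ζ : {ζ // ζ ≠ η}, c (site φ s ζ.1 u) = ζ.1)))
      (fun a _ => hnn η a) (mem_univ (φ η u + s η)))
    rw [ind_pos hη, ind_pos rfl, ind_pos fun ζ : {ζ // ζ ≠ η} => hg ζ.1]; norm_num
  have h2 := Finset.sum_le_sum fun u (_ : u ∈ univ) => h1 u
  rw [Finset.sum_add_distrib, Finset.sum_comm] at h2
  have h3 : ∀ η, ∑ u, ∑ a, ind ((1 + ε) * d η < X φ s c η a) *
        (ind (φ η u + s η = a) * ind (∀ ζ : {ζ // ζ ≠ η}, c (site φ s ζ.1 u) = ζ.1)) ≤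
      (1 + ε) / (ε ^ 2 * d η) * ∑ a, (X φ s c η a - d η) ^ 2 := by
    intro η
    rw [Finset.sum_comm, Finset.mul_sum]
    refine Finset.sum_le_sum fun a _ => ?_
    rw [← Finset.mul_sum]
    change _ * X φ s c η a ≤ _
    have := hd0 η
    by_cases hx : (1 + ε) * d η < X φ s c η a
    · rw [ind_pos hx, one_mul, div_mul_eq_mul_div, le_div_iff₀ (by positivity)]
      set x := X φ s c η a
      have a1 : ε * d η ≤ x - d η := by linarith
      have a2 : ε * x ≤ (1 + ε) * (x - d η) := by linarith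
      have hx0 : 0 ≤ x := by nlinarith
      have := mul_le_mul a2 a1 (by positivity) (by nlinarith)
      nlinarith
    · rw [ind_neg hx, zero_mul]; positivity
  have h4 := Finset.sum_le_sum fun η (_ : η ∈ univ) => h3 η
  linarith

lemma exp_kept {f : Ξ → ℝ} (hf : ∀ i, 0 < f i) (hf1 : ∑ i, f i = 1) {ε : ℝ} (hε : 0 < ε)
    (h0 : ∀ ζ, Function.Surjective (φ ζ))
    (h1 : ∀ ζ ζ', ζ ≠ ζ' → Function.Surjective (φ ζ - φ ζ'))
    (h2 : ∀ ζ ζ', ζ ≠ ζ' → Function.Surjective (φ ζ + φ ζ'))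
    (h3 : ∀ ζ ζ', ζ ≠ ζ' → Function.Surjective ((φ ζ).prod (φ ζ'))) :
    (Fintype.card A : ℝ) / P * ((∏ i, f i) * (P - 2 * (Fintype.card Ξ : ℝ) ^ 2) -
      ∑ η, (1 + ε) / (ε ^ 2 * ∏ ζ : {ζ // ζ ≠ η}, f ζ.1) * (10 * (Fintype.card Ξ : ℝ) ^ 2)) ≤
      ∑ c : ZMod P → Ξ, wt f c * ∑ u, ind (Kept φ s f ε c u) := by
  have hP : (0 : ℝ) < P := by exact_mod_cast Nat.pos_of_ne_zero (NeZero.ne P)
  have hA0 : (0 : ℝ) < Fintype.card A := by exact_mod_cast Fintype.card_pos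
  have hf' : ∀ i, 0 ≤ f i := fun i => (hf i).le
  refine le_trans ?_ (Finset.sum_le_sum fun c _ =>
    mul_le_mul_of_nonneg_left (kept_ge φ s hf hε c) (wt_nonneg hf' c))
  have hv := fun η => exp_var φ s hf hf1 h0 h1 h2 h3 η
  have hb := sum_bad1 φ s h1 h2
  set α : ℝ := (Fintype.card A : ℝ) / P with hαdef
  have hα : 0 < α := by positivity
  have hA : (Fintype.card A : ℝ) = α * P := by rw [hαdef]; field_simp
  simp_rw [mul_sub, Finset.sum_sub_distrib]
  have t1 : (∏ i, f i) * (α * P - 2 * (Fintype.card Ξ : ℝ) ^ 2 * α) ≤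
      ∑ c : ZMod P → Ξ, wt f c * ∑ u, ind (∀ ζ, c (site φ s ζ u) = ζ) := by
    simp_rw [Finset.mul_sum]
    rw [Finset.sum_comm]
    refine le_trans ?_ (Finset.sum_le_sum fun u _ =>
      exp_colour_ge hf' hf1 (fun ζ => site φ s ζ u) (fun ζ => ζ))
    rw [← Finset.mul_sum, Finset.sum_sub_distrib, Finset.sum_const, Finset.card_univ,
      nsmul_eq_mul, hA, mul_one]
    refine mul_le_mul_of_nonneg_left (by linarith) (Finset.prod_nonneg fun _ _ => hf' _)
  have t2 : ∑ c : ZMod P → Ξ, wt f c * ∑ η, (1 + ε) / (ε ^ 2 *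
        (α * ∏ ζ : {ζ // ζ ≠ η}, f ζ.1)) * ∑ a, (X φ s c η a -
        α * ∏ ζ : {ζ // ζ ≠ η}, f ζ.1) ^ 2 ≤
      α * ∑ η, (1 + ε) / (ε ^ 2 * ∏ ζ : {ζ // ζ ≠ η}, f ζ.1) *
        (10 * (Fintype.card Ξ : ℝ) ^ 2) := by
    rw [Finset.sum_congr rfl fun c _ => Finset.mul_sum _ _ (wt f c)]
    rw [Finset.sum_comm, Finset.mul_sum]
    refine Finset.sum_le_sum fun η _ => ?_
    simp_rw [mul_left_comm (wt f _)]
    rw [← Finset.mul_sum]
    have hF : 0 < ∏ ζ : {ζ // ζ ≠ η}, f ζ.1 := Finset.prod_pos fun _ _ => hf _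
    refine (mul_le_mul_of_nonneg_left (hv η) (by positivity)).trans (le_of_eq ?_)
    field_simp
  nlinarith [t1, t2]

end second

end Crest.Agent.Lead.UF
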