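import Crest.Agent.Lead.UFPackA

/-! The packing module of row 75. -/

set_option autoImplicit false
set_option linter.unusedSectionVars false

namespace Crest.Agent.Lead.UF

open Finset

/-- the linear form of an integer vector modulo `P` -/
def lin {D : ℕ} (P : ℕ) (v : Fin D → ℤ) : (Fin D → ZMod P) →+ ZMod P :=
  AddMonoidHom.mk' (fun u => (fun p => (v p : ZMod P)) ⬝ᵥ u) (fun u u' => dotProduct_add _ _ _)

lemma lin_apply {D : ℕ} (P : ℕ) (v : Fin D → ℤ) (u : Fin D → ZMod P) :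
    lin P v u = ∑ p, (v p : ZMod P) * u p := rfl

lemma lin_cast {D : ℕ} (P : ℕ) (v w : Fin D → ℤ) :
    lin P v (fun p => (w p : ZMod P)) = ((v ⬝ᵥ w : ℤ) : ZMod P) := by
  rw [lin_apply, dotProduct]; push_cast; rfl

lemma exists_colouring (D : ℕ) (Ξ : Type) [Fintype Ξ] [DecidableEq Ξ] (ξ : Ξ → Fin D → ℤ)
    (f : Ξ → ℝ) (ε : ℝ) (I : Type) [Fintype I] (s : I → Ξ → ℤ) (hε : 0 < ε)
    (hprim : ∀ i, ∃ v : Fin D → ℤ, ξ i ⬝ᵥ v = 1)
    (hmin : ∀ i j, i ≠ j → ∃ p q, ξ i p * ξ j q ≠ ξ i q * ξ j p)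
    (hf : ∀ i, 0 < f i) (hf1 : ∑ i, f i = 1) :
    ∃ (P : ℕ) (_ : NeZero P) (c : ZMod P → Ξ) (K : I → (Fin D → ZMod P) → Prop) (α : ℝ),
      0 < α ∧ (∀ a, c (-1 - a) = c a) ∧
      (∀ i u, K i u → ∀ ζ, c (lin P (ξ ζ) u + s i ζ) = ζ) ∧
      (∀ i η a, ∑ u, ind (K i u ∧ lin P (ξ η) u + s i η = a) ≤
        (1 + ε) * (α * ((∏ ζ, f ζ) / f η))) ∧
      (1 - ε) * Fintype.card I * (α * P * ∏ ζ, f ζ) ≤ ∑ i, ∑ u, ind (K i u) := by
  classical
  have hΞ : Nonempty Ξ := by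
    by_contra h
    rw [not_nonempty_iff] at h
    simp at hf1
  haveI : Nonempty (Fin D) := by
    by_contra h
    rw [not_nonempty_iff] at h
    obtain ⟨v, hv⟩ := hprim hΞ.some
    simp [dotProduct] at hv
  choose! pp qq hpq using hmin
  set m : Ξ → Ξ → ℤ := fun i j => ξ i (pp i j) * ξ j (qq i j) - ξ i (qq i j) * ξ j (pp i j)
    with hm
  set C : ℝ := 2 * (Fintype.card Ξ : ℝ) ^ 2 * (∏ i, f i) +
    ∑ η, (1 + ε) / (ε ^ 2 * ∏ ζ : {ζ // ζ ≠ η}, f ζ.1) * (10 * (Fintype.card Ξ : ℝ) ^ 2) with hC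
  have hPi : 0 < ∏ i, f i := Finset.prod_pos fun _ _ => hf _
  obtain ⟨P, hPge, hPp⟩ := Nat.exists_infinite_primes
    ((∑ i, ∑ j, (m i j).natAbs + 1) + ⌈C / (ε * ∏ i, f i)⌉₊)
  haveI : Fact P.Prime := ⟨hPp⟩
  have hP : (0 : ℝ) < P := by exact_mod_cast hPp.pos
  have hmne : ∀ i j, i ≠ j → (m i j : ZMod P) ≠ 0 := by
    intro i j hij h
    rw [ZMod.intCast_zmod_eq_zero_iff_dvd] at h
    have h0 : m i j ≠ 0 := sub_ne_zero.2 (hpq i j hij)
    have h1 : P ≤ (m i j).natAbs := Nat.le_of_dvd (Int.natAbs_pos.2 h0) (Int.ofNat_dvd_left.1 h)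
    have h2 : (m i j).natAbs ≤ ∑ j, (m i j).natAbs :=
      Finset.single_le_sum (f := fun j => (m i j).natAbs) (fun _ _ => Nat.zero_le _) (mem_univ j)
    have h3 : ∑ j, (m i j).natAbs ≤ ∑ i, ∑ j, (m i j).natAbs :=
      Finset.single_le_sum (f := fun i => ∑ j, (m i j).natAbs) (fun _ _ => Nat.zero_le _)
        (mem_univ i)
    omega
  have h3 : ∀ ζ ζ', ζ ≠ ζ' → Function.Surjective ((lin P (ξ ζ)).prod (lin P (ξ ζ'))) := by
    rintro ζ ζ' hne ⟨b, b'⟩
    have hm0 := hmne ζ ζ' hne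
    have hm1 : (m ζ ζ' : ZMod P) = (ξ ζ (pp ζ ζ') : ZMod P) * ξ ζ' (qq ζ ζ') -
      (ξ ζ (qq ζ ζ') : ZMod P) * ξ ζ' (pp ζ ζ') := by simp [hm]
    refine ⟨Pi.single (pp ζ ζ') ((b * ξ ζ' (qq ζ ζ') - b' * ξ ζ (qq ζ ζ')) / m ζ ζ') +
      Pi.single (qq ζ ζ') ((b' * ξ ζ (pp ζ ζ') - b * ξ ζ' (pp ζ ζ')) / m ζ ζ'), ?_⟩
    have hs : ∀ (v : Fin D → ℤ) (p : Fin D) (x : ZMod P), lin P v (Pi.single p x) = v p * x := by
      intro v p x
      change (fun p => (v p : ZMod P)) ⬝ᵥ Pi.single p x = _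
      rw [dotProduct_single]
    simp only [AddMonoidHom.prod_apply, map_add, hs, Prod.mk_add_mk, Prod.mk.injEq]
    constructor
    · field_simp; rw [hm1]; ring
    · field_simp; rw [hm1]; ring
  have h0 : ∀ ζ, Function.Surjective (lin P (ξ ζ)) := by
    intro ζ b
    obtain ⟨v, hv⟩ := hprim ζ
    refine ⟨fun p => (v p : ZMod P) * b, ?_⟩
    have := lin_cast P (ξ ζ) v
    rw [hv, lin_apply] at this
    rw [lin_apply]
    simp_rw [← mul_assoc, ← Finset.sum_mul]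
    rw [this]; simp
  have h1 : ∀ ζ ζ', ζ ≠ ζ' → Function.Surjective (lin P (ξ ζ) - lin P (ξ ζ')) := by
    intro ζ ζ' hne b
    obtain ⟨u, hu⟩ := h3 ζ ζ' hne (b, 0)
    simp only [AddMonoidHom.prod_apply, Prod.mk.injEq] at hu
    exact ⟨u, by simp [hu.1, hu.2]⟩
  have h2 : ∀ ζ ζ', ζ ≠ ζ' → Function.Surjective (lin P (ξ ζ) + lin P (ξ ζ')) := by
    intro ζ ζ' hne b
    obtain ⟨u, hu⟩ := h3 ζ ζ' hne (b, 0)
    simp only [AddMonoidHom.prod_apply, Prod.mk.injEq] at hu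
    exact ⟨u, by simp [hu.1, hu.2]⟩
  set α : ℝ := (Fintype.card (Fin D → ZMod P) : ℝ) / P with hα
  have hα0 : 0 < α := by
    have : (0 : ℝ) < Fintype.card (Fin D → ZMod P) := by exact_mod_cast Fintype.card_pos
    positivity
  have hE : ∀ i, (1 - ε) * (α * P * ∏ ζ, f ζ) ≤ ∑ c : ZMod P → Ξ, wt f c *
      ∑ u, ind (Kept (fun ζ => lin P (ξ ζ)) (fun ζ => (s i ζ : ZMod P)) f ε c u) := by
    intro i
    refine le_trans ?_ (exp_kept (fun ζ => lin P (ξ ζ)) (fun ζ => (s i ζ : ZMod P)) hf hf1 hε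
      h0 h1 h2 h3)
    rw [← hα]
    have hc : C ≤ ε * (∏ i, f i) * P := by
      have a1 : C / (ε * ∏ i, f i) ≤ P := by
        refine (Nat.le_ceil _).trans ?_
        exact_mod_cast le_trans (Nat.le_add_left _ _) hPge
      rw [div_le_iff₀ (by positivity)] at a1
      linarith
    have := mul_le_mul_of_nonneg_left hc hα0.le
    rw [hC] at this
    nlinarith
  have hex : ∃ c : ZMod P → Ξ, (1 - ε) * Fintype.card I * (α * P * ∏ ζ, f ζ) ≤
      ∑ i, ∑ u, ind (Kept (fun ζ => lin P (ξ ζ)) (fun ζ => (s i ζ : ZMod P)) f ε c u) := by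
    by_contra hcon
    push Not at hcon
    have hne : Nonempty (ZMod P → Ξ) := by
      by_contra h
      rw [not_nonempty_iff] at h
      have := sum_wt (O := ZMod P) hf1
      simp at this
    have a1 : ∑ c : ZMod P → Ξ, wt f c * ∑ i, ∑ u,
        ind (Kept (fun ζ => lin P (ξ ζ)) (fun ζ => (s i ζ : ZMod P)) f ε c u) <
        ∑ c : ZMod P → Ξ, wt f c * ((1 - ε) * Fintype.card I * (α * P * ∏ ζ, f ζ)) :=
      Finset.sum_lt_sum_of_nonempty Finset.univ_nonempty fun c _ =>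
        mul_lt_mul_of_pos_left (hcon c) (Finset.prod_pos fun _ _ => hf _)
    rw [← Finset.sum_mul, sum_wt hf1, one_mul,
      Finset.sum_congr rfl fun c _ => Finset.mul_sum _ _ (wt f c), Finset.sum_comm] at a1
    have a2 := Finset.sum_le_sum fun i (_ : i ∈ univ) => hE i
    rw [Finset.sum_const, Finset.card_univ, nsmul_eq_mul] at a2
    nlinarith
  obtain ⟨c, hc⟩ := hex
  refine ⟨P, inferInstance, fun a => c (rep a),
    fun i => Kept (fun ζ => lin P (ξ ζ)) (fun ζ => (s i ζ : ZMod P)) f ε c, α, hα0,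
    fun a => by simp only [rep_mirror], fun i u hu ζ => hu.1 ζ, fun i η a => ?_, hc⟩
  refine (kept_fiber (fun ζ => lin P (ξ ζ)) (fun ζ => (s i ζ : ZMod P)) hf hε c η a).trans
    (le_of_eq ?_)
  rw [← hα]
  congr 2
  rw [eq_div_iff (hf η).ne', ← Finset.prod_erase_mul _ _ (mem_univ η)]
  congr 1
  exact (Finset.prod_subtype (univ.erase η) (p := fun ζ => ζ ≠ η) (fun x => by simp) f).symm

lemma exists_layer {T Y : Type} [Fintype T] [DecidableEq Y] (key : T → Y) (k : ℕ)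
    (h : ∀ y, (univ.filter fun x => key x = y).card ≤ k) :
    ∃ r : T → ℕ, (∀ x, r x < k) ∧ ∀ x x', key x = key x' → r x = r x' → x = x' := by
  classical
  have : ∀ y, Nonempty ({x // key x = y} ↪ Fin k) := fun y =>
    Function.Embedding.nonempty_of_card_le (by
      rw [Fintype.card_subtype, Fintype.card_fin]; exact h y)
  let emb := fun y => (this y).some
  let R : Y → T → ℕ := fun y x => if hx : key x = y then (emb y ⟨x, hx⟩ : ℕ) else 0
  refine ⟨fun x => R (key x) x, fun x => ?_, fun x x' hk hr => ?_⟩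
  · simp only [R, dif_pos]; exact Fin.is_lt _
  · simp only [← hk] at hr
    simp only [R, dif_pos, dif_pos hk.symm] at hr
    exact congrArg Subtype.val ((emb (key x)).injective (Fin.ext hr))

lemma crt_vec {D : ℕ} {Ξ : Type} [Fintype Ξ] [DecidableEq Ξ] (ξ : Ξ → Fin D → ℤ)
    (hprim : ∀ i, ∃ v : Fin D → ℤ, ξ i ⬝ᵥ v = 1) (n : Ξ → ℕ)
    (hn : ∀ i j, i ≠ j → Nat.Coprime (n i) (n j)) (y : Ξ → ℤ) :
    ∃ V : Fin D → ℤ, ∀ i, ξ i ⬝ᵥ V ≡ y i [ZMOD (n i)] := by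
  choose v hv using hprim
  have hc : ∀ i, ∃ b : ℤ, b * ((∏ j ∈ univ.erase i, n j : ℕ) : ℤ) ≡ 1 [ZMOD (n i)] := by
    intro i
    have : Nat.Coprime (n i) (∏ j ∈ univ.erase i, n j) :=
      Nat.Coprime.prod_right fun j hj => hn i j (Finset.ne_of_mem_erase hj).symm
    obtain ⟨a, b, hab⟩ := Nat.isCoprime_iff_coprime.2 this
    refine ⟨b, (Int.modEq_iff_dvd.2 ⟨a, ?_⟩)⟩
    linear_combination -hab
  choose b hb using hc
  refine ⟨∑ j, (y j * (b j * ((∏ l ∈ univ.erase j, n l : ℕ) : ℤ))) • v j, fun i => ?_⟩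
  rw [dotProduct_sum, ← Finset.add_sum_erase _ _ (mem_univ i), dotProduct_smul, hv, smul_eq_mul,
    mul_one]
  have a1 : y i * (b i * ((∏ l ∈ univ.erase i, n l : ℕ) : ℤ)) ≡ y i * 1 [ZMOD (n i)] :=
    (hb i).mul_left _
  have a2 : ∑ j ∈ univ.erase i, ξ i ⬝ᵥ (y j * (b j * ((∏ l ∈ univ.erase j, n l : ℕ) : ℤ))) • v j
      ≡ 0 [ZMOD (n i)] := by
    refine (Int.modEq_zero_iff_dvd).2 (Finset.dvd_sum fun j hj => ?_)
    rw [dotProduct_smul, smul_eq_mul]
    refine Dvd.dvd.mul_right (Dvd.dvd.mul_left (Dvd.dvd.mul_left ?_ _) _) _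
    exact Int.natCast_dvd_natCast.2 (Finset.dvd_prod_of_mem _
      (Finset.mem_erase.2 ⟨(Finset.ne_of_mem_erase hj).symm, mem_univ _⟩))
  simpa using a1.add a2

lemma disj_of_layers {S : Type} (L P Q : ℕ) (o a ℓ ρ : S → ℕ) (ho : ∀ p, o p + ρ p ≤ L)
    (ha : ∀ p, a p < P) (hℓ : ∀ p, ℓ p < Q)
    (h1 : ∀ p p', p ≠ p' → a p = a p' → ℓ p = ℓ p' → o p + ρ p ≤ o p' ∨ o p' + ρ p' ≤ o p)
    (h2 : ∀ p p', a p + a p' + 1 = P → ℓ p + ℓ p' + 1 = Q → False) :
    Disj (L * P * Q) (fun p => o p + L * a p + L * P * ℓ p) ρ := by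
  have hz : ∀ p, a p + P * ℓ p + 1 ≤ P * Q := fun p => by
    have := Nat.mul_le_mul_left P (show ℓ p + 1 ≤ Q from hℓ p)
    have := ha p
    nlinarith
  have ht : ∀ p, o p + L * a p + L * P * ℓ p = o p + L * (a p + P * ℓ p) := fun p => by ring
  refine ⟨fun p => ?_, fun p p' hne => ?_, fun p p' => ?_⟩
  · have := Nat.mul_le_mul_left L (hz p)
    have := ho p
    simp only [ht]; nlinarith
  · simp only [ht]
    rcases lt_trichotomy (a p + P * ℓ p) (a p' + P * ℓ p') with h | h | h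
    · left
      have := Nat.mul_le_mul_left L (show a p + P * ℓ p + 1 ≤ a p' + P * ℓ p' from h)
      have := ho p
      nlinarith
    · have e1 : a p = a p' := by
        have := congrArg (· % P) h
        simpa [Nat.mod_eq_of_lt (ha p), Nat.mod_eq_of_lt (ha p')] using this
      have e2 : ℓ p = ℓ p' := by
        have hP : 0 < P := lt_of_le_of_lt (Nat.zero_le _) (ha p)
        exact Nat.eq_of_mul_eq_mul_left hP (by omega)
      rw [h]
      have := h1 p p' hne e1 e2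
      omega
    · right
      have := Nat.mul_le_mul_left L (show a p' + P * ℓ p' + 1 ≤ a p + P * ℓ p from h)
      have := ho p'
      nlinarith
  · simp only [ht]
    rcases lt_trichotomy (a p + P * ℓ p + (a p' + P * ℓ p') + 1) (P * Q) with h | h | h
    · left
      have := Nat.mul_le_mul_left L
        (show a p + P * ℓ p + (a p' + P * ℓ p') + 1 + 1 ≤ P * Q from h)
      have := ho p
      have := ho p'
      nlinarith
    · exfalso
      have hP : 0 < P := lt_of_le_of_lt (Nat.zero_le _) (ha p)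
      have hd : P ∣ a p + a p' + 1 := by
        have : P ∣ P * (ℓ p + ℓ p') + (a p + a p' + 1) := ⟨Q, by rw [← h]; ring⟩
        exact (Nat.dvd_add_right (Dvd.intro _ rfl)).1 this
      obtain ⟨k, hk⟩ := hd
      have k1 : k = 1 := by
        have := ha p
        have := ha p'
        rcases k with _ | _ | k
        · omega
        · rfl
        · nlinarith
      subst k1
      refine h2 p p' (by omega) (Nat.eq_of_mul_eq_mul_left hP ?_)
      nlinarith
    · right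
      have := Nat.mul_le_mul_left L
        (show P * Q ≤ a p + P * ℓ p + (a p' + P * ℓ p') by omega)
      nlinarith

end Crest.Agent.Lead.UF
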